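import Crest.Agent.N067.A.Modica
import Crest.Agent.N067.A.Aac
import Crest.Agent.N067.A.Ball
import Crest.Agent.N067.A.RegS

/-!
# Row 67, block E (helper69): `S0089 ⇐ S0090 + TubeStmt + IStmt`, frozen definitions

See note h69-X7.  `h = (1 - v²)/√2`, `G0' = h`, `Gm = s0/2 + G0`, `Gp = s0/2 - G0`.
Everything in this block is elementary: first variation, the sliding inequality `SLp`,
a mean value inequality, an improvement of flatness and a column argument.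
-/

set_option autoImplicit false

open MeasureTheory Laplacian InnerProductSpace Topology Filter Set Metric
open scoped RealInnerProductSpace ContDiff Gradient

namespace Crest.Agent.N067.E

open Crest.Agent.R077

noncomputable section

variable {n k : ℕ}

/-- `h(s) = (1 - s²)/√2 = √(2 W(s))` -/
def hh (s : ℝ) : ℝ := (1 - s ^ 2) / Real.sqrt 2

/-- the odd primitive of `h` -/
def G0 (s : ℝ) : ℝ := (3 * s - s ^ 3) / (3 * Real.sqrt 2)

/-- `σ₀ = ∫_{-1}^1 h` -/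
def s0 : ℝ := 4 / (3 * Real.sqrt 2)

/-- `∫_{-1}^s h` -/
def Gm (s : ℝ) : ℝ := s0 / 2 + G0 s

/-- `∫_s^1 h` -/
def Gp (s : ℝ) : ℝ := s0 / 2 - G0 s

/-- the sliding inequality -/
def SLp (v : EE n → ℝ) : Prop :=
  ∀ χ : EE n → ℝ, ContDiff ℝ 1 χ → HasCompactSupport χ → (∀ x, 0 ≤ χ x) →
    ∫ x, χ x * en v x ≤ ∫ x, ‖∇ χ x‖ * Gp (v x)

/-- solutions with both sliding inequalities (a substitute for minimality) -/
structure Mn (v : EE n → ℝ) : Prop where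
  sol : Sol v
  slp : SLp v
  slm : SLp fun x => -v x

/-- sign structure of a slab of half width `H` in the ball of radius `r` round `0` -/
def Flat (v : EE n → ℝ) (r : ℝ) (e : EE n) (H : ℝ) : Prop :=
  (∀ x, ‖x‖ < r → H < ⟪e, x⟫ → 0 < v x) ∧ ∀ x, ‖x‖ < r → ⟪e, x⟫ < -H → v x < 0

/-- the same round `z`, with offset `c` -/
def FlatAt (v : EE n → ℝ) (z : EE n) (r : ℝ) (e : EE n) (c H : ℝ) : Prop :=
  (∀ x, ‖x‖ < r → c + H < ⟪e, x⟫ → 0 < v (x + z)) ∧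
    ∀ x, ‖x‖ < r → ⟪e, x⟫ < c - H → v (x + z) < 0

/-- `T_jj = e - v_j²` -/
def Tn (v : EE n → ℝ) (j : Fin n) (x : EE n) : ℝ := en v x - pdv j v x ^ 2

/-- `e - h v_j = |∇v - h e_j|²/2` -/
def bt (v : EE n → ℝ) (j : Fin n) (x : EE n) : ℝ := en v x - hh (v x) * pdv j v x

/-- horizontal gradient squared -/
def gh (v : EE (k + 1) → ℝ) (x : EE (k + 1)) : ℝ := ∑ l : Fin k, pdv l.castSucc v x ^ 2

/-- cut-off: `1` on the ball of radius `ρ`, `0` off the ball of radius `2ρ` -/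
def cut (z : EE n) (ρ : ℝ) (x : EE n) : ℝ :=
  Real.smoothTransition ((4 * ρ ^ 2 - ‖x - z‖ ^ 2) / (3 * ρ ^ 2))

/-- even cut-off on the line: `1` on `[-L, L]`, `0` off `(-2L, 2L)` -/
def xi (L s : ℝ) : ℝ := Real.smoothTransition ((4 * L ^ 2 - s ^ 2) / (3 * L ^ 2))

/-- column integral -/
def col (f : EE (k + 1) → ℝ) (y : EE k) : ℝ := ∫ s, f (snoc y s)

/-- `f` vanishes at heights `≥ b` -/
def VC (b : ℝ) (f : EE (k + 1) → ℝ) : Prop := ∀ x, b ≤ |x (Fin.last k)| → f x = 0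

/-- open cylinder -/
def cyl (k : ℕ) (ρ b : ℝ) : Set (EE (k + 1)) := {x | ‖init x‖ < ρ ∧ |x (Fin.last k)| < b}

/-- `σ = ∂_{last} d` -/
def sg (u : EE (k + 1) → ℝ) (x : EE (k + 1)) : ℝ := pdv (Fin.last k) (dd u) x

/-- energy growth `≤ Θ R^k` on all balls -/
def Grow (u : EE (k + 1) → ℝ) (Θ : ℝ) : Prop :=
  ∀ (x : EE (k + 1)) (R : ℝ), 1 ≤ R → ∫ z in ball x R, en u z ≤ Θ * R ^ k

/-! ### the three inputs of the block -/

/-- S0090 -/
def S90 : Prop := ∀ v : EE 7 → ℝ, IsSol v → Stable v →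
  (∀ x, v x = 1) ∨ (∀ x, v x = -1) ∨ Planar v

/-- TUBE (master inequality with the weight `w(|x'|)`): somewhere along the `e₈`-tube of radius
`r` and length `K r` there is an `ε`-flat ball (an empty ball is allowed: take `c = ± 2r`) -/
def TubeStmt : Prop := ∀ (u : EE (7 + 1) → ℝ) (Θ : ℝ), Sol u → Stable u → MonoLast u → Grow u Θ →
  ∀ ε : ℝ, 0 < ε → ∃ K r1 : ℝ, 0 ≤ K ∧ ∀ r, r1 ≤ r → ∃ (h c : ℝ) (e : EE (7 + 1)),
    0 ≤ h ∧ h ≤ K * r ∧ ‖e‖ = 1 ∧ FlatAt u (h • ev (Fin.last 7)) r e c (ε * r)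

/-- (i): the `σ`-weighted curvature is small at arbitrarily large scales -/
def IStmt : Prop := ∀ (u : EE (7 + 1) → ℝ) (Θ : ℝ), Sol u → MonoLast u → Grow u Θ →
  ∀ a R0 : ℝ, 0 < a → ∃ R, R0 ≤ R ∧
    R ^ 2 * ∫ x in ball (0 : EE (7 + 1)) R, sg u x ^ 2 * hsq (dd u) x * psi u x ^ 2 ≤ a * R ^ 7

end

end Crest.Agent.N067.E
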