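import Crest.Agent.N067.E.Col

/-! # E/Band1 (leaf E-Band1): derivatives of the column functionals of case (iii)

`pdv_colw`: `∂_l(g σ ψ²) = ∂_n(g d_l ψ²) + (σ ∂_l g - d_l ∂_n g) ψ²` (`σ ∂_l ψ = d_l ∂_n ψ` by `pdv_psi`,
`∂_l σ = ∂_n d_l` by `pdv_comm`), then `pdv_col`, `col_pdv_last`.  For `FF`: `g = ξ σ² d_i`; for `YY`:
`g = ξ σ³ (s - ⟪p,y⟫)`.  Use `0 < σ ≤ 1`, `|d_i| ≤ 1`, `|hs| ≤ √hsq`, `2 σ √hsq ≤ μ + σ² hsq/μ`.
`A2_sum`: the sets `{L_j < |s| < 2 L_j}`, `L_j = 2^j r`, are disjoint, so `∑_j L_j |ξ_j'| ≤ M` pointwise,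
and `∫_{-b}^b σ ψ² = 2 (Gm u(b) - Gm u(-b)) ≤ 2 s0` (`hh_mul_pdv`). -/

set_option autoImplicit false

open MeasureTheory Laplacian InnerProductSpace Topology Filter Set Metric
open scoped RealInnerProductSpace ContDiff Gradient

namespace Crest.Agent.N067.E

open Crest.Agent.R077

noncomputable section

variable {n k : ℕ}

/-- `F_i(y) = ∫ ξ σ³ d_i ψ² ds` -/
def FF (u : EE (k + 1) → ℝ) (L : ℝ) (i : Fin (k + 1)) : EE k → ℝ :=
  col fun x => xi L (x (Fin.last k)) * (sg u x ^ 3 * pdv i (dd u) x * psi u x ^ 2)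

/-- `Y(y) = ∫ ξ σ⁴ ψ² (s - p·y) ds` -/
def YY (u : EE (k + 1) → ℝ) (L : ℝ) (p : EE k) : EE k → ℝ :=
  col fun x => xi L (x (Fin.last k)) *
    (sg u x ^ 4 * psi u x ^ 2 * (x (Fin.last k) - ⟪p, init x⟫))

/-- curvature error -/
def A1 (u : EE (k + 1) → ℝ) (L μ : ℝ) : EE k → ℝ :=
  col fun x => xi L (x (Fin.last k)) * ((μ + sg u x ^ 2 * hsq (dd u) x / μ) * psi u x ^ 2)

/-- cut-off error -/
def A2 (u : EE (k + 1) → ℝ) (L : ℝ) : EE k → ℝ :=
  col fun x => |deriv (xi L) (x (Fin.last k))| * (sg u x * psi u x ^ 2)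

namespace B1

theorem sg_sm {u : EE (k + 1) → ℝ} (hu : Sol u) : ContDiff ℝ ∞ (sg u) := hu.pdv_dd_sm _

theorem c1 {f : EE n → ℝ} (h : ContDiff ℝ ∞ f) : ContDiff ℝ 1 f := contDiff_infty.1 h 1

theorem df {f : EE n → ℝ} (h : ContDiff ℝ 1 f) (x : EE n) : DifferentiableAt ℝ f x :=
  h.differentiable (by norm_num) x

theorem xi_sm (L : ℝ) : ContDiff ℝ ∞ fun x : EE (k + 1) => xi L (x (Fin.last k)) :=
  (contDiff_xi L (m := ⊤)).comp contDiff_last

theorem cont_dxi (L : ℝ) : Continuous fun x : EE (k + 1) => deriv (xi L) (x (Fin.last k)) :=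
  ((contDiff_xi L (m := 1)).continuous_deriv (by norm_num)).comp
    (contDiff_last (m := 0)).continuous

theorem w_sm (p : EE k) : ContDiff ℝ ∞ fun x : EE (k + 1) => x (Fin.last k) - ⟪p, init x⟫ :=
  contDiff_last.sub (contDiff_const.inner ℝ contDiff_init)

theorem sg_le {u : EE (k + 1) → ℝ} (hu : Sol u) (x : EE (k + 1)) : sg u x ≤ 1 :=
  (le_abs_self _).trans (abs_pdv_dd_le hu _ x)

theorem VC_mono {f : EE (k + 1) → ℝ} {b b' : ℝ} (h : VC b f) (hb : b ≤ b') : VC b' f :=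
  fun x hx => h x (hb.trans hx)

theorem VC_mul {f : EE (k + 1) → ℝ} {b : ℝ} (h : VC b f) (g : EE (k + 1) → ℝ) :
    VC b fun x => f x * g x := fun x hx => mul_eq_zero_of_left (h x hx) _

theorem pdv_pow {f : EE n → ℝ} {x : EE n} (hf : DifferentiableAt ℝ f x) (m : ℕ) (i : Fin n) :
    pdv i (fun y => f y ^ m) x = m * f x ^ (m - 1) * pdv i f x :=
  pdv_comp (φ := fun s => s ^ m) (hasDerivAt_pow m (f x)) hf i

theorem hs_sq_le (f : EE n → ℝ) (i j : Fin n) (x : EE n) : pdv i (pdv j f) x ^ 2 ≤ hsq f x := by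
  rw [hsq_eq]
  calc pdv i (pdv j f) x ^ 2 ≤ ∑ j, pdv i (pdv j f) x ^ 2 :=
        Finset.single_le_sum (f := fun j => pdv i (pdv j f) x ^ 2) (fun _ _ => sq_nonneg _)
          (Finset.mem_univ j)
    _ ≤ _ := Finset.single_le_sum (f := fun i => ∑ j, pdv i (pdv j f) x ^ 2)
          (fun _ _ => Finset.sum_nonneg fun _ _ => sq_nonneg _) (Finset.mem_univ i)

/-- `2 |c σ B| ≤ μ + σ² H / μ` -/
theorem amgm {c σ B H μ : ℝ} (hc : |c| ≤ 1) (hB : B ^ 2 ≤ H) (hμ : 0 < μ) :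
    |c * σ * B| ≤ (μ + σ ^ 2 * H / μ) / 2 := by
  have h1 : |c * σ * B| ≤ |σ * B| := by
    rw [mul_assoc, abs_mul]; exact mul_le_of_le_one_left (abs_nonneg _) hc
  have h2 : |σ * B| ^ 2 ≤ σ ^ 2 * H := by
    rw [sq_abs, mul_pow]; exact mul_le_mul_of_nonneg_left hB (sq_nonneg _)
  have h3 : 2 * |σ * B| ≤ μ + |σ * B| ^ 2 / μ := by
    rw [← sub_le_iff_le_add', le_div_iff₀ hμ]; nlinarith [sq_nonneg (|σ * B| - μ)]
  have h4 : |σ * B| ^ 2 / μ ≤ σ ^ 2 * H / μ := by gcongr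
  linarith

theorem abs_mul_le1 {a b : ℝ} (ha : |a| ≤ 1) (hb : |b| ≤ 1) : |a * b| ≤ 1 := by
  rw [abs_mul]; exact mul_le_one₀ ha (abs_nonneg _) hb

/-- the common final estimate -/
theorem fin_bd {ξ ξ' E a σ c P w W : ℝ} (hξ : 0 ≤ ξ) (hσ : 0 ≤ σ) (hP : 0 ≤ P) (hE : |E| ≤ 3 * a)
    (hc : |c| ≤ 1) (hw : |w| ≤ W) :
    |w * ((ξ * E - ξ' * (c * σ)) * P)| ≤ W * (3 * (ξ * (a * P)) + |ξ'| * (σ * P)) := by
  have h1 : |ξ * E - ξ' * (c * σ)| ≤ ξ * (3 * a) + |ξ'| * σ := by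
    refine (abs_sub _ _).trans (add_le_add ?_ ?_)
    · rw [abs_mul, abs_of_nonneg hξ]; exact mul_le_mul_of_nonneg_left hE hξ
    · rw [abs_mul, abs_mul, abs_of_nonneg hσ]
      exact mul_le_mul_of_nonneg_left (mul_le_of_le_one_left hσ hc) (abs_nonneg _)
  rw [abs_mul, abs_mul, abs_of_nonneg hP]
  calc |w| * (|ξ * E - ξ' * (c * σ)| * P) ≤ W * ((ξ * (3 * a) + |ξ'| * σ) * P) :=
        mul_le_mul hw (mul_le_mul_of_nonneg_right h1 hP) (by positivity) ((abs_nonneg _).trans hw)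
    _ = _ := by ring

end B1

open B1

theorem pdv_colw {u g : EE (k + 1) → ℝ} {b : ℝ} (hu : Sol u) (hg : ContDiff ℝ 1 g) (hb : VC b g)
    (l : Fin k) (y : EE k) : pdv l (col fun x => g x * (sg u x * psi u x ^ 2)) y =
      col (fun x => (sg u x * pdv l.castSucc g x - pdv l.castSucc (dd u) x * pdv (Fin.last k) g x)
        * psi u x ^ 2) y := by
  have hs := c1 (sg_sm hu)
  have hp := c1 hu.psi_sm
  have hl := c1 (hu.pdv_dd_sm l.castSucc)
  have hA : ContDiff ℝ 1 fun x => g x * (sg u x * psi u x ^ 2) := hg.mul (hs.mul (hp.pow 2))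
  have hB : ContDiff ℝ 1 fun x => g x * (pdv l.castSucc (dd u) x * psi u x ^ 2) :=
    hg.mul (hl.mul (hp.pow 2))
  have e : ∀ x, (sg u x * pdv l.castSucc g x - pdv l.castSucc (dd u) x * pdv (Fin.last k) g x)
        * psi u x ^ 2 = pdv l.castSucc (fun x => g x * (sg u x * psi u x ^ 2)) x
          - pdv (Fin.last k) (fun x => g x * (pdv l.castSucc (dd u) x * psi u x ^ 2)) x := by
    intro x
    rw [pdv_mul (df hg x) (df (hs.mul (hp.pow 2)) x), pdv_mul (df hs x) (df (hp.pow 2) x),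
      pdv_mul (df hg x) (df (hl.mul (hp.pow 2)) x), pdv_mul (df hl x) (df (hp.pow 2) x),
      pdv_sq (df hp x), pdv_sq (df hp x), hu.pdv_psi, hu.pdv_psi,
      pdv_comm (hu.dd_cd 2).contDiffAt (Fin.last k) l.castSucc]
    have : pdv l.castSucc (sg u) x = pdv l.castSucc (pdv (Fin.last k) (dd u)) x := rfl
    rw [this]; unfold sg; ring
  rw [pdv_col hA (VC_mul hb _)]
  have h0 := col_pdv_last hB (VC_mul hb _) y
  unfold col at h0 ⊢
  simp only [e]
  rw [integral_sub (integrable_col (St.continuous_pdv hA _) ((VC_mul hb _).pdv _) y)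
    (integrable_col (St.continuous_pdv hB _) ((VC_mul hb _).pdv _) y), h0, sub_zero]

variable {u : EE (k + 1) → ℝ} {L μ : ℝ}

namespace B1

theorem FF_sm (hu : Sol u) (L : ℝ) (i : Fin (k + 1)) : ContDiff ℝ 1 fun x : EE (k + 1) =>
    xi L (x (Fin.last k)) * (sg u x ^ 3 * pdv i (dd u) x * psi u x ^ 2) :=
  c1 ((xi_sm L).mul ((((sg_sm hu).pow 3).mul (hu.pdv_dd_sm i)).mul (hu.psi_sm.pow 2)))

theorem YY_sm (hu : Sol u) (L : ℝ) (p : EE k) : ContDiff ℝ 1 fun x : EE (k + 1) =>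
    xi L (x (Fin.last k)) * (sg u x ^ 4 * psi u x ^ 2 * (x (Fin.last k) - ⟪p, init x⟫)) :=
  c1 ((xi_sm L).mul ((((sg_sm hu).pow 4).mul (hu.psi_sm.pow 2)).mul (w_sm p)))

theorem A1_c (hu : Sol u) (L μ : ℝ) : Continuous fun x : EE (k + 1) =>
    xi L (x (Fin.last k)) * ((μ + sg u x ^ 2 * hsq (dd u) x / μ) * psi u x ^ 2) :=
  (xi_sm L).continuous.mul ((continuous_const.add
    ((((sg_sm hu).continuous.pow 2).mul hu.hsq_sm.continuous).div_const μ)).mul
      (hu.psi_sm.continuous.pow 2))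

theorem sp_c (hu : Sol u) : Continuous fun x : EE (k + 1) => sg u x * psi u x ^ 2 :=
  (sg_sm hu).continuous.mul (hu.psi_sm.continuous.pow 2)

theorem A2_c (hu : Sol u) (L : ℝ) : Continuous fun x : EE (k + 1) =>
    |deriv (xi L) (x (Fin.last k))| * (sg u x * psi u x ^ 2) :=
  (cont_dxi L).abs.mul (sp_c hu)

theorem cont_snoc (y : EE k) : Continuous fun s : ℝ => snoc y s :=
  (contDiff_snoc (m := 0)).continuous.comp (continuous_const.prodMk continuous_id)

end B1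

theorem contDiff_FF (hu : Sol u) (hL : 0 < L) (i : Fin (k + 1)) : ContDiff ℝ 1 (FF u L i) :=
  contDiff_col (FF_sm hu L i) (VC.xi hL _)

theorem contDiff_YY (hu : Sol u) (hL : 0 < L) (p : EE k) : ContDiff ℝ 1 (YY u L p) :=
  contDiff_col (YY_sm hu L p) (VC.xi hL _)

theorem cont_A1 (hu : Sol u) (hL : 0 < L) (μ : ℝ) : Continuous (A1 u L μ) :=
  cont_col (A1_c hu L μ) (VC.xi hL _)

theorem cont_A2 (hu : Sol u) (hL : 0 < L) : Continuous (A2 u L) :=
  cont_col (A2_c hu L) (VC.dxi hL _)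

theorem A1_nonneg (hμ : 0 < μ) (L : ℝ) (y : EE k) : 0 ≤ A1 u L μ y :=
  integral_nonneg fun s => by
    have := hsq_nonneg (dd u) (snoc y s)
    exact mul_nonneg (xi_nonneg _ _) (by positivity)

theorem A2_nonneg (hu : Sol u) (hm : MonoLast u) (L : ℝ) (y : EE k) : 0 ≤ A2 u L y :=
  integral_nonneg fun s => by
    have := sg_pos hu hm (snoc y s)
    positivity

theorem icol_le (hu : Sol u) (y : EE k) (a b : ℝ) :
    ∫ s in a..b, sg u (snoc y s) * psi u (snoc y s) ^ 2 ≤ 2 := by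
  have hd : ∀ s ∈ uIcc a b, HasDerivAt (fun s => 2 * Gm (u (snoc y s)))
      (sg u (snoc y s) * psi u (snoc y s) ^ 2) s := by
    intro s _
    have h1 := ((hasDerivAt_Gm (u (snoc y s))).comp s (hasDerivAt_snoc (hu.diff _))).const_mul 2
    rw [hh_mul_pdv hu] at h1
    exact h1.congr_deriv (by unfold sg; ring)
  rw [intervalIntegral.integral_eq_sub_of_hasDerivAt hd
    (((sp_c hu).comp (cont_snoc y)).intervalIntegrable a b)]
  have h1 := Gm_le (hu.lt (snoc y b)).le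
  have h2 := Gm_nonneg (hu.lt (snoc y a)).le
  have h3 := s0_le_one
  linarith

namespace B1

theorem abs_col_le (hu : Sol u) {f : EE (k + 1) → ℝ} {b C : ℝ} (hb0 : 0 ≤ b) (hb : VC b f)
    (hC : 0 ≤ C) (y : EE k)
    (h : ∀ s, |s| ≤ b → |f (snoc y s)| ≤ C * (sg u (snoc y s) * psi u (snoc y s) ^ 2)) :
    |col f y| ≤ 2 * C := by
  rw [col_eq hb0 hb]
  have h1 : ‖∫ s in (-b)..b, f (snoc y s)‖ ≤
      ∫ s in (-b)..b, C * (sg u (snoc y s) * psi u (snoc y s) ^ 2) :=
    intervalIntegral.norm_integral_le_of_norm_le (by linarith)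
      (Eventually.of_forall fun s hs => h s (abs_le.2 ⟨hs.1.le, hs.2⟩))
      ((continuous_const.mul ((sp_c hu).comp (cont_snoc y))).intervalIntegrable _ _)
  rw [intervalIntegral.integral_const_mul] at h1
  have h2 := mul_le_mul_of_nonneg_left (icol_le hu y (-b) b) hC
  rw [Real.norm_eq_abs] at h1
  linarith

theorem abs_col_A (hu : Sol u) (hL : 0 < L) {f : EE (k + 1) → ℝ} {W : ℝ} (y : EE k)
    (h : ∀ s, |f (snoc y s)| ≤ W * (3 * (xi L s * ((μ + sg u (snoc y s) ^ 2 *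
      hsq (dd u) (snoc y s) / μ) * psi u (snoc y s) ^ 2)) +
        |deriv (xi L) s| * (sg u (snoc y s) * psi u (snoc y s) ^ 2))) :
    |col f y| ≤ W * (3 * A1 u L μ y + A2 u L y) := by
  have i1 := integrable_col (A1_c hu L μ) (VC.xi hL _) y
  have i2 := integrable_col (A2_c hu L) (VC.dxi hL _) y
  unfold A1 A2 col
  rw [← integral_const_mul, ← integral_add (i1.const_mul 3) i2, ← integral_const_mul,
    ← Real.norm_eq_abs]
  refine norm_integral_le_of_norm_le (((i1.const_mul 3).add i2).const_mul W)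
    (Eventually.of_forall fun s => ?_)
  simpa only [snoc_last, Real.norm_eq_abs] using h s

theorem abs_w (p y : EE k) {s b : ℝ} (hs : |s| ≤ b) : |s - ⟪p, y⟫| ≤ b + ‖p‖ * ‖y‖ :=
  (abs_sub _ _).trans (add_le_add hs (abs_real_inner_le_norm _ _))

theorem dxi_zero (hL : 0 < L) {s : ℝ} (hs : 2 * L ≤ |s|) : deriv (xi L) s = 0 := by
  obtain ⟨M, -, -, h⟩ := exists_cutM
  exact (h L s hL).2.1 (Or.inr hs)

end B1

theorem abs_FF_le (hu : Sol u) (hm : MonoLast u) (hL : 0 < L) (i : Fin (k + 1)) (y : EE k) :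
    |FF u L i y| ≤ 2 := by
  have := abs_col_le hu (C := 1) (by linarith) (VC.xi hL fun x =>
    sg u x ^ 3 * pdv i (dd u) x * psi u x ^ 2) zero_le_one y fun s _ => by
      have h0 := sg_pos hu hm (snoc y s)
      have h1 : |xi L s * (sg u (snoc y s) * sg u (snoc y s) * pdv i (dd u) (snoc y s))| ≤ 1 :=
        abs_mul_le1 (abs_le.2 ⟨by linarith [xi_nonneg L s], xi_le_one L s⟩)
          (abs_mul_le1 (abs_mul_le1 (abs_pdv_dd_le hu _ _) (abs_pdv_dd_le hu _ _))
            (abs_pdv_dd_le hu _ _))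
      have h2 : 0 ≤ sg u (snoc y s) * psi u (snoc y s) ^ 2 := by positivity
      calc _ = |xi L s * (sg u (snoc y s) * sg u (snoc y s) * pdv i (dd u) (snoc y s))| *
            (sg u (snoc y s) * psi u (snoc y s) ^ 2) := by
            rw [← abs_of_nonneg h2, ← abs_mul, snoc_last]; congr 1; ring
        _ ≤ _ := mul_le_mul_of_nonneg_right h1 h2
  rw [mul_one] at this
  exact this

theorem abs_YY_le (hu : Sol u) (hm : MonoLast u) (hL : 0 < L) (p y : EE k) :
    |YY u L p y| ≤ 2 * (2 * L + ‖p‖ * ‖y‖) :=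
  abs_col_le hu (by linarith) (VC.xi hL fun x =>
    sg u x ^ 4 * psi u x ^ 2 * (x (Fin.last k) - ⟪p, init x⟫)) (by positivity) y fun s hs => by
      have h0 := sg_pos hu hm (snoc y s)
      have h1 : |xi L s * (sg u (snoc y s) * sg u (snoc y s) * sg u (snoc y s))| ≤ 1 :=
        abs_mul_le1 (abs_le.2 ⟨by linarith [xi_nonneg L s], xi_le_one L s⟩)
          (abs_mul_le1 (abs_mul_le1 (abs_pdv_dd_le hu _ _) (abs_pdv_dd_le hu _ _))
            (abs_pdv_dd_le hu _ _))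
      have h2 : 0 ≤ sg u (snoc y s) * psi u (snoc y s) ^ 2 := by positivity
      have h3 := abs_w p y hs
      calc _ = |xi L s * (sg u (snoc y s) * sg u (snoc y s) * sg u (snoc y s))| *
            |s - ⟪p, y⟫| * (sg u (snoc y s) * psi u (snoc y s) ^ 2) := by
            rw [← abs_of_nonneg h2, ← abs_mul, ← abs_mul, snoc_last, init_snoc]; congr 1; ring
        _ ≤ _ := mul_le_mul_of_nonneg_right
            ((mul_le_of_le_one_left (abs_nonneg _) h1).trans h3) h2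

theorem abs_pdv_FF (hu : Sol u) (hm : MonoLast u) (hL : 0 < L) (hμ : 0 < μ) (i : Fin (k + 1))
    (l : Fin k) (y : EE k) : |pdv l (FF u L i) y| ≤ 3 * A1 u L μ y + A2 u L y := by
  have hs := c1 (sg_sm hu)
  have hi := c1 (hu.pdv_dd_sm i)
  have hx := c1 (xi_sm (k := k) L)
  have hg : ContDiff ℝ 1 fun x : EE (k + 1) =>
      xi L (x (Fin.last k)) * (sg u x ^ 2 * pdv i (dd u) x) := hx.mul ((hs.pow 2).mul hi)
  have e : FF u L i = col fun x => (xi L (x (Fin.last k)) * (sg u x ^ 2 * pdv i (dd u) x)) *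
      (sg u x * psi u x ^ 2) := by
    unfold FF; congr 1; funext x; ring
  rw [e, pdv_colw hu hg (VC.xi hL _), ← one_mul (3 * A1 u L μ y + A2 u L y)]
  refine abs_col_A hu hL y fun s => ?_
  have hxd : DifferentiableAt ℝ (xi L) ((snoc y s) (Fin.last k)) :=
    (contDiff_xi L (m := 1)).differentiable (by norm_num) _
  generalize hx0 : snoc y s = x at *
  have hsx : x (Fin.last k) = s := by rw [← hx0, snoc_last]
  rw [pdv_mul (df hx x) (df ((hs.pow 2).mul hi) x), pdv_mul (df hx x) (df ((hs.pow 2).mul hi) x),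
    pdv_mul (df (hs.pow 2) x) (df hi x), pdv_mul (df (hs.pow 2) x) (df hi x), pdv_sq (df hs x),
    pdv_sq (df hs x), pdv_vert_cs hxd, pdv_vert_last hxd, hsx]
  have a0 : |sg u x| ≤ 1 := abs_pdv_dd_le hu _ x
  have a1 := abs_pdv_dd_le hu i x
  have a2 := abs_pdv_dd_le hu l.castSucc x
  have b1 := abs_le.1 (amgm (σ := sg u x) (abs_mul_le1 a0 a1)
    (hs_sq_le (dd u) l.castSucc (Fin.last k) x) hμ)
  have b2 := abs_le.1 (amgm (σ := sg u x) (abs_mul_le1 a0 a0) (hs_sq_le (dd u) l.castSucc i x) hμ)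
  have b3 := abs_le.1 (amgm (σ := sg u x) (abs_mul_le1 a1 a2)
    (hs_sq_le (dd u) (Fin.last k) (Fin.last k) x) hμ)
  have b4 := abs_le.1 (amgm (σ := sg u x) (abs_mul_le1 a0 a2)
    (hs_sq_le (dd u) (Fin.last k) i x) hμ)
  have := fin_bd (ξ := xi L s) (ξ' := deriv (xi L) s) (w := 1) (W := 1) (P := psi u x ^ 2)
    (a := μ + sg u x ^ 2 * hsq (dd u) x / μ)
    (E := 2 * (sg u x * pdv i (dd u) x * sg u x * pdv l.castSucc (pdv (Fin.last k) (dd u)) x)
      + sg u x * sg u x * sg u x * pdv l.castSucc (pdv i (dd u)) x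
      - 2 * (pdv i (dd u) x * pdv l.castSucc (dd u) x * sg u x *
          pdv (Fin.last k) (pdv (Fin.last k) (dd u)) x)
      - sg u x * pdv l.castSucc (dd u) x * sg u x * pdv (Fin.last k) (pdv i (dd u)) x)
    (xi_nonneg L s) (sg_pos hu hm x).le (sq_nonneg _)
    (abs_le.2 ⟨by linarith [b1.1, b2.1, b3.2, b4.2], by linarith [b1.2, b2.2, b3.1, b4.1]⟩)
    (abs_mul_le1 a0 (abs_mul_le1 a1 a2)) (by simp)
  refine le_of_eq_of_le ?_ this
  congr 1
  have e1 : ∀ j, pdv j (sg u) x = pdv j (pdv (Fin.last k) (dd u)) x := fun _ => rfl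
  rw [e1, e1]; ring

theorem abs_pdv_YY (hu : Sol u) (hm : MonoLast u) (hL : 0 < L) (hμ : 0 < μ) (p : EE k)
    (l : Fin k) (y : EE k) :
    |pdv l (YY u L p) y + FF u L l.castSucc y + p l * FF u L (Fin.last k) y| ≤
      (2 * L + ‖p‖ * ‖y‖) * (3 * A1 u L μ y + A2 u L y) := by
  have hs := c1 (sg_sm hu)
  have hw := c1 (w_sm p)
  have hx := c1 (xi_sm (k := k) L)
  have hg : ContDiff ℝ 1 fun x : EE (k + 1) =>
      xi L (x (Fin.last k)) * (sg u x ^ 3 * (x (Fin.last k) - ⟪p, init x⟫)) :=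
    hx.mul ((hs.pow 3).mul hw)
  have hv : VC (2 * L) fun x : EE (k + 1) =>
      xi L (x (Fin.last k)) * (sg u x ^ 3 * (x (Fin.last k) - ⟪p, init x⟫)) := VC.xi hL _
  have e : YY u L p = col fun x => (xi L (x (Fin.last k)) *
      (sg u x ^ 3 * (x (Fin.last k) - ⟪p, init x⟫))) * (sg u x * psi u x ^ 2) := by
    unfold YY; congr 1; funext x; ring
  rw [e, pdv_colw hu hg hv]
  generalize hG : (fun x : EE (k + 1) =>
      xi L (x (Fin.last k)) * (sg u x ^ 3 * (x (Fin.last k) - ⟪p, init x⟫))) = G at *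
  have i0 : Integrable fun s => (sg u (snoc y s) * pdv l.castSucc G (snoc y s) -
      pdv l.castSucc (dd u) (snoc y s) * pdv (Fin.last k) G (snoc y s)) * psi u (snoc y s) ^ 2 :=
    integrable_col (b := 2 * L + 1) (f := fun x => (sg u x * pdv l.castSucc G x -
        pdv l.castSucc (dd u) x * pdv (Fin.last k) G x) * psi u x ^ 2)
      (((hs.continuous.mul (St.continuous_pdv hg _)).sub
        ((hu.pdv_dd_sm _).continuous.mul (St.continuous_pdv hg _))).mul
          (hu.psi_sm.continuous.pow 2))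
      (fun x h => by simp only [hv.pdv _ x h, mul_zero, sub_zero, zero_mul]) y
  have i1 := integrable_col (FF_sm hu L l.castSucc).continuous (VC.xi hL _) y
  have i2 := integrable_col (FF_sm hu L (Fin.last k)).continuous (VC.xi hL _) y
  have e2 : col (fun x => (sg u x * pdv l.castSucc G x -
        pdv l.castSucc (dd u) x * pdv (Fin.last k) G x) * psi u x ^ 2) y
      + FF u L l.castSucc y + p l * FF u L (Fin.last k) y = col (fun x =>
        (sg u x * pdv l.castSucc G x - pdv l.castSucc (dd u) x * pdv (Fin.last k) G x) * psi u x ^ 2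
        + xi L (x (Fin.last k)) * (sg u x ^ 3 * pdv l.castSucc (dd u) x * psi u x ^ 2)
        + p l * (xi L (x (Fin.last k)) * (sg u x ^ 3 * pdv (Fin.last k) (dd u) x * psi u x ^ 2)))
        y := by
    unfold FF col
    rw [← integral_const_mul, ← integral_add i0 i1]
    exact (integral_add (i0.add i1) (i2.const_mul _)).symm
  rw [e2]
  refine abs_col_A hu hL y fun s => ?_
  have hxd : DifferentiableAt ℝ (xi L) ((snoc y s) (Fin.last k)) :=
    (contDiff_xi L (m := 1)).differentiable (by norm_num) _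
  generalize hx0 : snoc y s = x at *
  have hsx : x (Fin.last k) = s := by rw [← hx0, snoc_last]
  have hix : init x = y := by rw [← hx0, init_snoc]
  have hpi : DifferentiableAt ℝ (fun z : EE k => ⟪p, z⟫) (init x) :=
    (differentiableAt_const p).inner ℝ differentiableAt_id
  have hpi' : DifferentiableAt ℝ (fun z : EE (k + 1) => ⟪p, init z⟫) x :=
    df (contDiff_const.inner ℝ contDiff_init) x
  have w1 : pdv l.castSucc (fun x : EE (k + 1) => x (Fin.last k) - ⟪p, init x⟫) x = -p l := by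
    rw [pdv_sub (df contDiff_last x) hpi', pdv_init_cs hpi, pdv_inner, pdv_coord,
      if_neg (Fin.castSucc_lt_last l).ne']
    ring
  have w2 : pdv (Fin.last k) (fun x : EE (k + 1) => x (Fin.last k) - ⟪p, init x⟫) x = 1 := by
    rw [pdv_sub (df contDiff_last x) hpi', pdv_init_last hpi, pdv_coord, if_pos rfl]
    ring
  rw [← hG, pdv_mul (df hx x) (df ((hs.pow 3).mul hw) x),
    pdv_mul (df hx x) (df ((hs.pow 3).mul hw) x),
    pdv_mul (df (hs.pow 3) x) (df hw x), pdv_mul (df (hs.pow 3) x) (df hw x), pdv_pow (df hs x),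
    pdv_pow (df hs x), pdv_vert_cs hxd, pdv_vert_last hxd, w1, w2, hsx, hix]
  by_cases hs2 : 2 * L ≤ |s|
  · rw [xi_eq_zero hL hs2, dxi_zero hL hs2]; simp
  have a0 : |sg u x| ≤ 1 := abs_pdv_dd_le hu _ x
  have a2 := abs_pdv_dd_le hu l.castSucc x
  have b1 := abs_le.1 (amgm (σ := sg u x) (abs_mul_le1 a0 a0)
    (hs_sq_le (dd u) l.castSucc (Fin.last k) x) hμ)
  have b3 := abs_le.1 (amgm (σ := sg u x) (abs_mul_le1 a0 a2)
    (hs_sq_le (dd u) (Fin.last k) (Fin.last k) x) hμ)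
  have := fin_bd (ξ := xi L s) (ξ' := deriv (xi L) s) (w := s - ⟪p, y⟫) (P := psi u x ^ 2)
    (a := μ + sg u x ^ 2 * hsq (dd u) x / μ)
    (E := 3 * (sg u x * sg u x * sg u x * pdv l.castSucc (pdv (Fin.last k) (dd u)) x)
      - 3 * (sg u x * pdv l.castSucc (dd u) x * sg u x *
          pdv (Fin.last k) (pdv (Fin.last k) (dd u)) x))
    (xi_nonneg L s) (sg_pos hu hm x).le (sq_nonneg _)
    (abs_le.2 ⟨by linarith [b1.1, b3.2], by linarith [b1.2, b3.1]⟩)
    (abs_mul_le1 (abs_mul_le1 a0 a0) a2) (abs_w p y (not_le.1 hs2).le)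
  refine le_of_eq_of_le ?_ this
  congr 1
  have e1 : ∀ j, pdv j (sg u) x = pdv j (pdv (Fin.last k) (dd u)) x := fun _ => rfl
  have e3 : pdv (Fin.last k) (dd u) x = sg u x := rfl
  rw [e1, e1, e3]; push_cast; ring

theorem A2_sum : ∃ M : ℝ, 0 ≤ M ∧ ∀ (k : ℕ) (u : EE (k + 1) → ℝ) (r : ℝ) (J : ℕ) (y : EE k),
    Sol u → MonoLast u → 0 < r →
      ∑ j ∈ Finset.range J, 2 ^ j * r * A2 u (2 ^ j * r) y ≤ M := by
  obtain ⟨M, hM, -, h⟩ := exists_cutM
  refine ⟨2 * M, by positivity, fun k u r J y hu hm hr => ?_⟩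
  have hS : ∀ (s : ℝ) (J : ℕ),
      ∑ j ∈ Finset.range J, 2 ^ j * r * |deriv (xi (2 ^ j * r)) s| ≤ M ∧
      (2 ^ J * r ≤ |s| → ∑ j ∈ Finset.range J, 2 ^ j * r * |deriv (xi (2 ^ j * r)) s| = 0) := by
    intro s J
    induction J with
    | zero => simpa using hM
    | succ J ih =>
      have hL : (0 : ℝ) < 2 ^ J * r := by positivity
      obtain ⟨h1, h2, -⟩ := h (2 ^ J * r) s hL
      rw [Finset.sum_range_succ]
      constructor
      · rcases le_total (2 ^ J * r) |s| with h3 | h3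
        · rw [ih.2 h3, zero_add, ← le_div_iff₀' hL]; exact h1
        · rw [h2 (Or.inl h3)]; simpa using ih.1
      · intro h3
        rw [pow_succ] at h3
        rw [ih.2 (by linarith), h2 (Or.inr (by linarith))]; simp
  have e : ∑ j ∈ Finset.range J, 2 ^ j * r * A2 u (2 ^ j * r) y = col (fun x =>
      (∑ j ∈ Finset.range J, 2 ^ j * r * |deriv (xi (2 ^ j * r)) (x (Fin.last k))|) *
        (sg u x * psi u x ^ 2)) y := by
    unfold A2 col
    simp only [Finset.sum_mul, mul_assoc]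
    rw [integral_finsetSum _ fun j _ => ((integrable_col (A2_c hu (2 ^ j * r))
      (VC.dxi (by positivity) _) y).const_mul r).const_mul _]
    simp only [integral_const_mul]
  rw [e]
  refine (le_abs_self _).trans (abs_col_le hu (b := 2 ^ J * r) (by positivity)
    (fun x hx => by rw [(hS _ J).2 hx, zero_mul]) hM y fun s _ => ?_)
  have h0 := sg_pos hu hm (snoc y s)
  have h2 : 0 ≤ sg u (snoc y s) * psi u (snoc y s) ^ 2 := by positivity
  rw [abs_of_nonneg (mul_nonneg (Finset.sum_nonneg fun j _ => by positivity) h2)]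
  exact mul_le_mul_of_nonneg_right (hS _ J).1 h2

namespace B1

theorem int_colx (hL : 0 < L) {f : EE (k + 1) → ℝ} (hf : Continuous f) (hb : VC (2 * L) f)
    (ρ : ℝ) : ∫ y in ball (0 : EE k) ρ, col f y = ∫ x in cyl k ρ (2 * L), f x := by
  rw [setint_cyl hf ρ (by linarith)]
  simp only [col_eq (by linarith : 0 ≤ 2 * L) hb]

theorem intB {f : EE n → ℝ} (hf : Continuous f) (R : ℝ) : IntegrableOn f (ball 0 R) :=
  (hf.continuousOn.integrableOn_compact (isCompact_closedBall 0 R)).mono_set ball_subset_closedBall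

end B1

/-- Fubini (`col_eq`, `setint_cyl`, `cyl_subset`, `psi_sq_le`) -/
theorem int_A1 (hu : Sol u) (hL : 0 < L) (hμ : 0 < μ) {ρ R : ℝ} (hR : ρ + 2 * L ≤ R) :
    ∫ y in ball (0 : EE k) ρ, A1 u L μ y ≤ 4 * μ * (∫ x in ball (0 : EE (k + 1)) R, en u x) +
      (∫ x in ball (0 : EE (k + 1)) R, sg u x ^ 2 * hsq (dd u) x * psi u x ^ 2) / μ := by
  have c2 : Continuous fun x => sg u x ^ 2 * hsq (dd u) x * psi u x ^ 2 :=
    (((sg_sm hu).continuous.pow 2).mul hu.hsq_sm.continuous).mul (hu.psi_sm.continuous.pow 2)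
  unfold A1
  rw [int_colx hL (A1_c hu L μ) (VC.xi hL _), ← integral_const_mul, ← integral_div,
    ← integral_add ((intB (cont_en hu) R).const_mul _) ((intB c2 R).div_const μ)]
  refine (setIntegral_mono_set (intB (A1_c hu L μ) R) (Eventually.of_forall fun x => ?_)
    ((cyl_subset ρ (2 * L)).trans (ball_subset_ball hR)).eventuallyLE).trans
    (setIntegral_mono (intB (A1_c hu L μ) R)
      (((intB (cont_en hu) R).const_mul _).add ((intB c2 R).div_const μ)) fun x => ?_)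
  · have := hsq_nonneg (dd u) x
    exact mul_nonneg (xi_nonneg _ _) (by positivity)
  · have h1 := hsq_nonneg (dd u) x
    have h2 := mul_le_mul_of_nonneg_left (psi_sq_le u x) hμ.le
    have h3 : xi L (x (Fin.last k)) * ((μ + sg u x ^ 2 * hsq (dd u) x / μ) * psi u x ^ 2) ≤
        (μ + sg u x ^ 2 * hsq (dd u) x / μ) * psi u x ^ 2 :=
      mul_le_of_le_one_left (by positivity) (xi_le_one _ _)
    have h4 : (μ + sg u x ^ 2 * hsq (dd u) x / μ) * psi u x ^ 2 =
        μ * psi u x ^ 2 + sg u x ^ 2 * hsq (dd u) x * psi u x ^ 2 / μ := by ring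
    show _ ≤ 4 * μ * en u x + _
    linarith

/-- `σ⁴ ≥ τ³ σ - τ⁴`, `ball 0 r ⊆ cyl r (2L)` and `ξ = 1` there -/
theorem int_FF_last (hu : Sol u) (hm : MonoLast u) {r τ : ℝ} (hr : 0 < r) (hL : r ≤ L) (hτ : 0 ≤ τ) :
    2 * τ ^ 3 * (∫ x in ball (0 : EE (k + 1)) r, hh (u x) * pdv (Fin.last k) u x)
      - 4 * τ ^ 4 * (∫ x in ball (0 : EE (k + 1)) r, en u x)
      ≤ ∫ y in ball (0 : EE k) r, FF u L (Fin.last k) y := by
  have hL0 : 0 < L := by linarith
  have c2 : Continuous fun x => hh (u x) * pdv (Fin.last k) u x :=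
    ((contDiff_hh (m := 0)).continuous.comp hu.sm.continuous).mul
      (St.continuous_pdv (hu.cd 1) _)
  have cF := (FF_sm hu L (Fin.last k)).continuous
  unfold FF
  rw [int_colx hL0 cF (VC.xi hL0 _), ← integral_const_mul, ← integral_const_mul,
    ← integral_sub ((intB c2 r).const_mul _) ((intB (cont_en hu) r).const_mul _)]
  refine (setIntegral_mono_on (((intB c2 r).const_mul _).sub ((intB (cont_en hu) r).const_mul _))
    (intB cF r) measurableSet_ball fun x hx => ?_).trans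
    (setIntegral_mono_set (integrableOn_cyl cF r _) (Eventually.of_forall fun x => ?_)
      (LE.le.eventuallyLE fun x hx => ?_))
  · rw [mem_ball_zero_iff] at hx
    have h0 := sg_pos hu hm x
    simp only [Pi.sub_apply]
    rw [xi_eq_one hL0 (by linarith [abs_last_le x]), hh_mul_pdv hu]
    have e3 : pdv (Fin.last k) (dd u) x = sg u x := rfl
    rw [e3]
    have h1 : τ ^ 3 * sg u x - τ ^ 4 ≤ sg u x ^ 3 * sg u x := by
      rcases le_total τ (sg u x) with h | h
      · have : τ ^ 3 * sg u x ≤ sg u x ^ 3 * sg u x := by gcongr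
        have : 0 ≤ τ ^ 4 := by positivity
        linarith
      · have : τ ^ 3 * sg u x ≤ τ ^ 3 * τ := by gcongr
        have : 0 ≤ sg u x ^ 3 * sg u x := by positivity
        nlinarith
    have h2 := mul_le_mul_of_nonneg_right h1 (sq_nonneg (psi u x))
    have h3 := mul_le_mul_of_nonneg_left (psi_sq_le u x) (by positivity : 0 ≤ τ ^ 4)
    linarith
  · have h0 : 0 < pdv (Fin.last k) (dd u) x := sg_pos hu hm x
    have h1 := sg_pos hu hm x
    exact mul_nonneg (xi_nonneg _ _) (by positivity)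
  · rw [mem_ball_zero_iff] at hx
    exact ⟨(norm_init_le x).trans_lt hx, by linarith [abs_last_le x]⟩

end

end Crest.Agent.N067.E
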