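import Crest.Agent.N067.E.Basic
import Crest.Agent.R236.Poinc

/-! # E/PO (leaf E-PO): `L¹` Poincaré inequality on balls (any proof; e.g. `a` = mean over the ball,
`|W x - W y| ≤ ∫_0^1 ‖∇W(x + t(y-x))‖ 2ρ dt`, split at `t = 1/2`, scale by `t` or `1-t ≥ 1/2`) -/

set_option autoImplicit false

open MeasureTheory Laplacian InnerProductSpace Topology Filter Set Metric
open scoped RealInnerProductSpace ContDiff Gradient

namespace Crest.Agent.N067.E

open Crest.Agent.R077

noncomputable section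

variable {n k : ℕ}

theorem po (k : ℕ) : ∃ C : ℝ, 0 ≤ C ∧ ∀ (W : EE k → ℝ) (ρ : ℝ), ContDiff ℝ 1 W → 0 < ρ →
    ∃ a : ℝ, ∫ y in ball (0 : EE k) ρ, |W y - a| ≤
      C * ρ * ∫ y in ball (0 : EE k) (2 * ρ), ‖∇ W y‖ := by
  refine ⟨2 * 2 ^ k, by positivity, fun W ρ hW hρ => ?_⟩
  have hc := hW.continuous
  have hg : Continuous fun x => ‖∇ W x‖ := by
    have := hW.continuous_fderiv (by norm_num)
    unfold gradient; fun_prop
  have hI : ∀ {f : EE k → ℝ} (r : ℝ), Continuous f → IntegrableOn f (ball (0 : EE k) r) :=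
    fun r hf => (hf.continuousOn.integrableOn_compact (isCompact_closedBall 0 r)).mono_set
      ball_subset_closedBall
  have key := R236.Poinc.poincare (S := ball (0 : EE k) ρ) isOpen_ball (convex_ball _ _)
    hW.contDiffOn (d := 2 * ρ) fun x hx y hy => by
      linarith [dist_triangle_right x y 0, mem_ball.1 hx, mem_ball.1 hy]
  have h0 : volume (ball (0 : EE k) ρ) ≠ 0 := (measure_ball_pos _ _ hρ).ne'
  have h1 : volume (ball (0 : EE k) ρ) ≠ ⊤ := measure_ball_lt_top.ne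
  obtain ⟨y, -, hy⟩ := exists_le_setLAverage h0 h1
    (f := fun y => ∫⁻ x in ball (0 : EE k) ρ, ‖W y - W x‖ₑ)
    (Measurable.lintegral_prod_right' (f := fun p : EE k × EE k => ‖W p.1 - W p.2‖ₑ)
      (by fun_prop)).aemeasurable
  refine ⟨W y, ?_⟩
  have e3 : ∫⁻ z in ball (0 : EE k) ρ, ‖fderiv ℝ W z‖ₑ =
      ENNReal.ofReal (∫ x in ball (0 : EE k) ρ, ‖∇ W x‖) := by
    rw [ofReal_integral_eq_lintegral_ofReal (hI ρ hg) (Eventually.of_forall fun x => norm_nonneg _)]
    refine lintegral_congr fun x => ?_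
    rw [gradient, LinearIsometryEquiv.norm_map, ofReal_norm]
  have e2 : ∫⁻ x in ball (0 : EE k) ρ, ‖W y - W x‖ₑ =
      ENNReal.ofReal (∫ x in ball (0 : EE k) ρ, |W x - W y|) := by
    simp only [abs_sub_comm _ (W y)]
    exact (ofReal_integral_norm_eq_lintegral_enorm (hI ρ (continuous_const.sub hc))).symm
  have h2 : 0 ≤ ∫ x in ball (0 : EE k) ρ, ‖∇ W x‖ := integral_nonneg fun _ => norm_nonneg _
  have h3 : ∫ x in ball (0 : EE k) ρ, ‖∇ W x‖ ≤ ∫ x in ball (0 : EE k) (2 * ρ), ‖∇ W x‖ :=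
    setIntegral_mono_set (hI _ hg) (Eventually.of_forall fun x => norm_nonneg _)
      (ball_subset_ball (by linarith)).eventuallyLE
  rw [setLAverage_eq, e2] at hy
  rw [e3, mul_right_comm, ← mul_assoc] at key
  have h4 := hy.trans (ENNReal.div_le_of_le_mul key)
  rw [show (2 : ENNReal) ^ k = ENNReal.ofReal (2 ^ k) by
      rw [ENNReal.ofReal_pow (by norm_num)]; norm_num,
    ← ENNReal.ofReal_mul (by positivity), ← ENNReal.ofReal_mul (by positivity),
    ENNReal.ofReal_le_ofReal_iff (by positivity)] at h4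
  calc _ ≤ _ := h4
    _ = 2 * 2 ^ k * ρ * ∫ x in ball (0 : EE k) ρ, ‖∇ W x‖ := by ring
    _ ≤ _ := by gcongr

end

end Crest.Agent.N067.E
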