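import Crest.Agent.N067.E.Col

/-! # E/Cyl (leaf E-Cyl): tails, Caccioppoli and tilt bound in a flat cylinder

`tail`: `decay` (a = 1) in the ball of radius `s - H` round `snoc y s` (inside `ball 0 r` and `{last > H}`);
lower half: apply it to `-v`.
`cac` (a): `fv` with `j = last`, `φ = Z² · x_last`, `Z x = cut 0 (r/4) (init x) * xi (r/8) (x last)`:
`∫ Z² Tn = -2 ∫ Z x_last T(e,∇Z)`, `T(a,b) = en ⟪a,b⟫ - ⟪a,∇v⟫⟪b,∇v⟫` is PSD (`gsq_le_en`), so
`|2 Z s T(e,∇Z)| ≤ Z² Tn/2 + 2 s² en ‖∇Z‖²`; `∫_{supp Z} s² en ≤ 4H² C r^k + ∫_{|s|>2H} s² C e^{-2(|s|-H)}`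
(`exists_EN`, `tail`, `en ≤ h² ≤ 2(1-|v|)²`, Fubini; crude: `s² e^{-2(|s|-H)} ≤ C H² e^{-(|s|-H)}`).
(b): `SLp` with `χ = ζ(init x) xi (2H) (x last)`, `ζ = cut 0 (r/4)`:  `∫ χ bt = ∫ χ en - ∫ ζ ξ' Gp(v)`
(`h v_n = -∂_n Gp(v)`, `ibp`) `≤ ∫ ζ (|ξ'| - ξ') Gp + ∫ ‖∇ζ‖ ξ Gp`; `|ξ'| - ξ' = 0` for `s ≤ 0`, and on
`2H ≤ s ≤ 4H`, `Gp ≤ (1-v)² ≤ C e^{-2H}`; the last term is `≤ C (H/r) r^k`.  On `|s| ≥ 2H`:
`bt ≤ 2h² ≤ C e^{-2(|s|-H)}`. -/

set_option autoImplicit false

open MeasureTheory Laplacian InnerProductSpace Topology Filter Set Metric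
open scoped RealInnerProductSpace ContDiff Gradient

namespace Crest.Agent.N067.E

open Crest.Agent.R077

noncomputable section

variable {n k : ℕ}

theorem tail (k : ℕ) : ∃ C : ℝ, 0 ≤ C ∧ ∀ (v : EE (k + 1) → ℝ) (r H : ℝ), Sol v → 0 ≤ H →
    Flat v r (ev (Fin.last k)) H → ∀ (y : EE k) (s : ℝ), ‖y‖ ≤ r / 2 → |s| ≤ r / 4 →
      (H ≤ s → 1 - v (snoc y s) ≤ C * Real.exp (-(s - H))) ∧
      (s ≤ -H → 1 + v (snoc y s) ≤ C * Real.exp (s + H)) := by
  obtain ⟨C, hC⟩ := decay (k + 1) 1 zero_le_one Real.one_lt_sqrt_two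
  refine ⟨|C|, abs_nonneg _, fun v r H hv hH hF y s hy hs => ?_⟩
  have key : ∀ z ∈ ball (snoc y s) (|s| - H), ‖z‖ < r ∧ |z (Fin.last k) - s| < |s| - H := by
    intro z hz
    rw [mem_ball_iff_norm] at hz
    have h1 := norm_le_split (snoc y s)
    have h2 := abs_last_le (z - snoc y s)
    have h3 := norm_le_insert' z (snoc y s)
    simp only [init_snoc, snoc_last, PiLp.sub_apply] at h1 h2
    constructor <;> linarith
  constructor
  · intro h
    have h0 : |s| = s := abs_of_nonneg (hH.trans h)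
    have h1 := hC v hv.isSol (snoc y s) (|s| - H) fun z hz => hF.1 z (key z hz).1 (by
      have := abs_lt.1 (key z hz).2
      rw [inner_last]; linarith)
    rw [h0, neg_mul, one_mul] at h1
    exact h1.trans (mul_le_mul_of_nonneg_right (le_abs_self C) (Real.exp_pos _).le)
  · intro h
    have h0 : |s| = -s := abs_of_nonpos (by linarith)
    have h1 := hC _ hv.isSol.neg (snoc y s) (|s| - H) fun z hz => neg_pos.2 (hF.2 z (key z hz).1 (by
      have := abs_lt.1 (key z hz).2
      rw [inner_last]; linarith))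
    rw [h0, sub_neg_eq_add, show -1 * (-s - H) = s + H by ring] at h1
    exact h1.trans (mul_le_mul_of_nonneg_right (le_abs_self C) (Real.exp_pos _).le)

namespace Cy

theorem exp_key {t H : ℝ} (hH : 0 ≤ H) (ht : 2 * H ≤ t) :
    Real.exp (-(t - H)) ^ 2 * (1 + t ^ 2) ^ 2 ≤ 1024 * Real.exp (-H) := by
  have h1 : Real.exp (-(t / 4)) * (1 + t ^ 2) ≤ 32 := by
    have h2 := Real.quadratic_le_exp_of_nonneg (x := t / 4) (by linarith)
    rw [Real.exp_neg, inv_mul_le_iff₀ (Real.exp_pos _)]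
    nlinarith
  have h2 : Real.exp (-(t - H)) ^ 2 ≤ Real.exp (-H) * Real.exp (-(t / 4)) ^ 2 := by
    rw [sq, sq, ← Real.exp_add, ← Real.exp_add, ← Real.exp_add]
    exact Real.exp_le_exp.2 (by linarith)
  have h3 := pow_le_pow_left₀ (by positivity) h1 2
  calc _ ≤ Real.exp (-H) * Real.exp (-(t / 4)) ^ 2 * (1 + t ^ 2) ^ 2 := by gcongr
    _ = Real.exp (-H) * (Real.exp (-(t / 4)) * (1 + t ^ 2)) ^ 2 := by ring
    _ ≤ Real.exp (-H) * 32 ^ 2 := by gcongr
    _ = _ := by ring

/-- far from the slab -/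
theorem far (k : ℕ) : ∃ C : ℝ, 0 ≤ C ∧ ∀ (v : EE (k + 1) → ℝ) (r H : ℝ), Sol v → 0 ≤ H →
    Flat v r (ev (Fin.last k)) H → ∀ x : EE (k + 1), ‖init x‖ ≤ r / 2 →
      |x (Fin.last k)| ≤ r / 4 → 2 * H ≤ |x (Fin.last k)| →
      hh (v x) ^ 2 * (1 + x (Fin.last k) ^ 2) ≤ C * Real.exp (-H) * (1 + x (Fin.last k) ^ 2)⁻¹ ∧
      (0 ≤ x (Fin.last k) → Gp (v x) ≤ C * Real.exp (-H)) := by
  obtain ⟨C, hC, h⟩ := tail k
  refine ⟨2048 * C ^ 2, by positivity, fun v r H hv hH hF x h1 h2 h3 => ?_⟩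
  have h4 := h v r H hv hH hF _ _ h1 h2
  rw [snoc_init] at h4
  set s := x (Fin.last k) with hs
  have h5 := exp_key hH h3
  rw [sq_abs] at h5
  set a := Real.exp (-(|s| - H)) with ha
  have hb := abs_lt.1 (hv.lt x)
  have hp : 0 ≤ s → (1 - v x) ^ 2 ≤ (C * a) ^ 2 := fun h0 => by
    rw [abs_of_nonneg h0] at ha h3
    exact pow_le_pow_left₀ (by linarith) (ha ▸ h4.1 (by linarith)) 2
  have hm : s ≤ 0 → (1 + v x) ^ 2 ≤ (C * a) ^ 2 := fun h0 => by
    rw [abs_of_nonpos h0] at ha h3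
    rw [show -(-s - H) = s + H by ring] at ha
    exact pow_le_pow_left₀ (by linarith) (ha ▸ h4.2 (by linarith)) 2
  have h6 : (C * a) ^ 2 * (1 + s ^ 2) ^ 2 ≤ 1024 * C ^ 2 * Real.exp (-H) := by
    have := mul_le_mul_of_nonneg_left h5 (sq_nonneg C)
    linarith
  have h7 : hh (v x) ^ 2 ≤ 2 * (C * a) ^ 2 := by
    have e : hh (v x) ^ 2 = (1 - v x) ^ 2 * (1 + v x) ^ 2 / 2 := by rw [hh_sq]; ring
    rcases le_total 0 s with h0 | h0
    · have := mul_le_mul (hp h0) (show (1 + v x) ^ 2 ≤ 4 by nlinarith) (sq_nonneg _) (sq_nonneg _)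
      linarith
    · have := mul_le_mul (show (1 - v x) ^ 2 ≤ 4 by nlinarith) (hm h0) (sq_nonneg _) (by norm_num)
      linarith
  refine ⟨?_, fun h0 => ?_⟩
  · rw [← div_eq_mul_inv, le_div_iff₀ (by positivity)]
    have := mul_le_mul_of_nonneg_right h7 (sq_nonneg (1 + s ^ 2))
    linarith
  · have h8 : (C * a) ^ 2 ≤ (C * a) ^ 2 * (1 + s ^ 2) ^ 2 :=
      le_mul_of_one_le_right (sq_nonneg _) (one_le_pow₀ (by nlinarith [sq_nonneg s]))
    have h9 : 0 ≤ C ^ 2 * Real.exp (-H) := by positivity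
    linarith [Gp_le_sq (hv.lt x).le, hp h0]

/-! ### integrals over cylinders -/

/-- volume of the unit ball -/
def om (k : ℕ) : ℝ := (volume : Measure (EE k)).real (ball 0 1)

theorem om_nonneg (k : ℕ) : 0 ≤ om k := measureReal_nonneg

theorem cont_last : Continuous fun x : EE (k + 1) => x (Fin.last k) :=
  (contDiff_last (m := 0)).continuous

theorem int_vert {g : ℝ → ℝ} (hg : Continuous g) {ρ b : ℝ} (hρ : 0 < ρ) (hb : 0 ≤ b) :
    ∫ x in cyl k ρ b, g (x (Fin.last k)) = om k * ρ ^ k * ∫ s in (-b)..b, g s := by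
  rw [setint_cyl (f := fun x => g (x (Fin.last k))) (hg.comp cont_last) ρ hb]
  simp only [snoc_last, setIntegral_const, smul_eq_mul]
  congr 1
  rw [measureReal_def, Measure.addHaar_ball_of_pos _ _ hρ, ENNReal.toReal_mul,
    ENNReal.toReal_ofReal (by positivity), finrank_euclideanSpace_fin, mul_comm]
  rfl

theorem cont_lor : Continuous fun s : ℝ => (1 + s ^ 2)⁻¹ :=
  Continuous.inv₀ (f := fun s : ℝ => 1 + s ^ 2) (by fun_prop) fun s => by positivity

theorem int_lor {ρ r b : ℝ} (hρ : 0 < ρ) (hr : ρ ≤ r) (hb : 0 ≤ b) :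
    ∫ x in cyl k ρ b, (1 + x (Fin.last k) ^ 2)⁻¹ ≤ om k * Real.pi * r ^ k := by
  rw [int_vert cont_lor hρ hb, intervalIntegral.integral_of_le (by linarith)]
  have h1 : ∫ s in Ioc (-b) b, (1 + s ^ 2)⁻¹ ≤ Real.pi := by
    rw [← integral_univ_inv_one_add_sq]
    exact setIntegral_le_integral integrable_inv_one_add_sq (ae_of_all _ fun s => by positivity)
  have h2 := om_nonneg k
  have h3 : 0 ≤ ∫ s in Ioc (-b) b, (1 + s ^ 2)⁻¹ := integral_nonneg fun s => by positivity
  have h4 := hρ.trans_le hr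
  calc _ ≤ om k * r ^ k * Real.pi := by gcongr
    _ = _ := by ring

theorem int_le_cyl {f g : EE (k + 1) → ℝ} (hf : Continuous f) (hg : Continuous g) {ρ b : ℝ}
    (h0 : ∀ x ∉ cyl k ρ b, f x = 0) (h : ∀ x ∈ cyl k ρ b, f x ≤ g x) :
    ∫ x, f x ≤ ∫ x in cyl k ρ b, g x := by
  rw [← setIntegral_eq_integral_of_forall_compl_eq_zero h0]
  exact setIntegral_mono_on (integrableOn_cyl hf _ _) (integrableOn_cyl hg _ _)
    (isOpen_cyl _ _).measurableSet h

theorem not_cyl {ρ b : ℝ} {x : EE (k + 1)} (h : x ∉ cyl k ρ b) :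
    ρ ≤ ‖init x‖ ∨ b ≤ |x (Fin.last k)| := by
  by_contra h'
  rw [not_or, not_le, not_le] at h'
  exact h h'

/-! ### the product cut-off -/

/-- horizontal times vertical cut-off -/
def P (k : ℕ) (ρ L : ℝ) (x : EE (k + 1)) : ℝ := cut 0 ρ (init x) * xi L (x (Fin.last k))

variable {ρ L : ℝ} {x : EE (k + 1)}

theorem P_smooth : ContDiff ℝ 1 (P k ρ L) :=
  ((contDiff_cut 0 ρ (m := 1)).comp contDiff_init).mul ((contDiff_xi L (m := 1)).comp contDiff_last)

theorem P_cs (hρ : 0 < ρ) (hL : 0 < L) : HasCompactSupport (P k ρ L) :=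
  cs_prod (cs_cut 0 hρ) (b := 2 * L) fun _ hx => xi_eq_zero hL hx

theorem P_nonneg (x : EE (k + 1)) : 0 ≤ P k ρ L x := mul_nonneg (cut_nonneg _ _ _) (xi_nonneg _ _)

theorem P_one (hρ : 0 < ρ) (hL : 0 < L) (h1 : ‖init x‖ ≤ ρ) (h2 : |x (Fin.last k)| ≤ L) :
    P k ρ L x = 1 := by
  rw [P, cut_eq_one hρ (by rwa [sub_zero]), xi_eq_one hL h2, mul_one]

theorem P_zero (hρ : 0 < ρ) (hL : 0 < L) (h : 2 * ρ ≤ ‖init x‖ ∨ 2 * L ≤ |x (Fin.last k)|) :
    P k ρ L x = 0 := by
  rcases h with h | h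
  · rw [P, cut_eq_zero hρ (by rwa [sub_zero]), zero_mul]
  · rw [P, xi_eq_zero hL h, mul_zero]

theorem pdv_P (i : Fin (k + 1)) : pdv i (P k ρ L) x =
    pdv i (fun x => cut 0 ρ (init x)) x * xi L (x (Fin.last k)) +
      cut 0 ρ (init x) * pdv i (fun x => xi L (x (Fin.last k))) x :=
  pdv_mul (((contDiff_cut 0 ρ (m := 1)).comp contDiff_init).differentiable (by simp) x)
    (((contDiff_xi L (m := 1)).comp contDiff_last).differentiable (by simp) x) i

theorem pdv_P_last : pdv (Fin.last k) (P k ρ L) x =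
    cut 0 ρ (init x) * deriv (xi L) (x (Fin.last k)) := by
  rw [pdv_P, pdv_init_last ((contDiff_cut 0 ρ (m := 1)).differentiable (by simp) _),
    pdv_vert_last ((contDiff_xi L (m := 1)).differentiable (by simp) _), zero_mul, zero_add]

theorem gsq_P : gsq (P k ρ L) x = (‖∇ (cut 0 ρ) (init x)‖ * xi L (x (Fin.last k))) ^ 2 +
    (cut 0 ρ (init x) * |deriv (xi L) (x (Fin.last k))|) ^ 2 := by
  rw [gsq, Fin.sum_univ_castSucc, pdv_P_last, mul_pow, mul_pow, mul_pow, sq_abs, ← gsq_eq, gsq,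
    Finset.sum_mul]
  refine congrArg (· + _) (Finset.sum_congr rfl fun l _ => ?_)
  rw [pdv_P, pdv_init_cs ((contDiff_cut 0 ρ (m := 1)).differentiable (by simp) _),
    pdv_vert_cs ((contDiff_xi L (m := 1)).differentiable (by simp) _), mul_zero, add_zero, mul_pow]

theorem norm_grad_P : ‖∇ (P k ρ L) x‖ ≤ ‖∇ (cut 0 ρ) (init x)‖ * xi L (x (Fin.last k)) +
    cut 0 ρ (init x) * |deriv (xi L) (x (Fin.last k))| := by
  have h1 := mul_nonneg (norm_nonneg (∇ (cut 0 ρ) (init x))) (xi_nonneg L (x (Fin.last k)))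
  have h2 := mul_nonneg (cut_nonneg 0 ρ (init x)) (abs_nonneg (deriv (xi L) (x (Fin.last k))))
  refine (pow_le_pow_iff_left₀ (norm_nonneg _) (add_nonneg h1 h2) two_ne_zero).1 ?_
  rw [← gsq_eq, gsq_P]
  nlinarith [mul_nonneg h1 h2]

/-- the stress tensor is nonnegative -/
theorem psd {v : EE n → ℝ} (hv : Sol v) (Z : EE n → ℝ) (j : Fin n) (x : EE n) (z s : ℝ) :
    -(2 * z * s * (en v x * pdv j Z x - pdv j v x * gin v Z x)) ≤
      z ^ 2 * Tn v j x / 2 + 2 * (s ^ 2 * en v x) * gsq Z x := by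
  have h1 := Finset.sum_mul_sq_le_sq_mul_sq Finset.univ (fun i => pdv i v x)
    fun i => (if i = j then z else 0) + 2 * s * pdv i Z x
  have e1 : ∑ i, pdv i v x * ((if i = j then z else 0) + 2 * s * pdv i Z x) =
      pdv j v x * z + 2 * s * gin v Z x := by
    simp only [mul_add, Finset.sum_add_distrib, mul_ite, mul_zero, Finset.sum_ite_eq',
      Finset.mem_univ, if_true, gin, Finset.mul_sum]
    exact congrArg (_ + ·) (Finset.sum_congr rfl fun i _ => by ring)
  have e2 : ∑ i, ((if i = j then z else 0) + 2 * s * pdv i Z x) ^ 2 =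
      (z ^ 2 + 4 * z * s * pdv j Z x) + 4 * s ^ 2 * gsq Z x := by
    rw [Finset.sum_congr rfl (g := fun i => (if i = j then z ^ 2 + 4 * z * s * pdv i Z x else 0) +
      4 * s ^ 2 * pdv i Z x ^ 2) fun i _ => by split_ifs <;> ring]
    simp only [Finset.sum_add_distrib, Finset.sum_ite_eq', Finset.mem_univ, if_true, gsq,
      Finset.mul_sum]
  have h2 : 0 ≤ ∑ i, ((if i = j then z else 0) + 2 * s * pdv i Z x) ^ 2 :=
    Finset.sum_nonneg fun _ _ => sq_nonneg _
  have h3 := h1.trans (mul_le_mul_of_nonneg_right (gsq_le_en hv x) h2)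
  rw [e1, e2] at h3
  unfold Tn
  nlinarith [sq_nonneg (s * gin v Z x)]

theorem cont_gin {f g : EE n → ℝ} (hf : ContDiff ℝ 1 f) (hg : ContDiff ℝ 1 g) :
    Continuous (gin f g) :=
  continuous_finsetSum _ fun i _ => (St.continuous_pdv hf i).mul (St.continuous_pdv hg i)

/-- first variation along `Z² x_j e_j` -/
theorem fv_sq {v Z : EE n → ℝ} (hv : Sol v) (hZ : ContDiff ℝ 1 Z) (hc : HasCompactSupport Z)
    (j : Fin n) : ∫ x, (Z x * Tn v j x +
      2 * x j * (en v x * pdv j Z x - pdv j v x * gin v Z x)) * Z x = 0 := by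
  have hj : ContDiff ℝ 1 fun x : EE n => x j := (EuclideanSpace.proj j : EE n →L[ℝ] ℝ).contDiff
  rw [← fv hv.isSol ((hZ.pow 2).mul hj) (St.cs_sq hc).mul_right j]
  refine integral_congr_ae (ae_of_all _ fun x => ?_)
  have hp : ∀ i, pdv i (fun x => Z x ^ 2 * x j) x =
      2 * Z x * x j * pdv i Z x + Z x ^ 2 * if j = i then 1 else 0 := fun i => by
    rw [pdv_mul ((hZ.pow 2).differentiable (by simp) x) (hj.differentiable (by simp) x),
      pdv_sq (hZ.differentiable (by simp) x), pdv_coord]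
    ring
  have hg : gin v (fun x => Z x ^ 2 * x j) x =
      2 * Z x * x j * gin v Z x + pdv j v x * Z x ^ 2 := by
    simp only [gin, hp, mul_add, Finset.sum_add_distrib, mul_ite, mul_one, mul_zero,
      Finset.sum_ite_eq, Finset.mem_univ, if_true, Finset.mul_sum]
    exact congrArg (· + _) (Finset.sum_congr rfl fun i _ => by ring)
  simp only [hg, hp, if_true, Tn]
  ring

end Cy

open Cy in
theorem cac (k : ℕ) : ∃ C : ℝ, 0 ≤ C ∧ ∀ (v : EE (k + 1) → ℝ) (r H : ℝ), Sol v → SLp v → 1 ≤ H →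
    32 * H ≤ r → Flat v r (ev (Fin.last k)) H →
      ∫ x in cyl k (r / 4) (r / 8), Tn v (Fin.last k) x ≤ C * (H / r) ^ 2 * r ^ k := by
  obtain ⟨Cf, hCf, hf⟩ := far k
  obtain ⟨Ce, hCe, he⟩ := exists_EN k
  obtain ⟨M, hM, hM1, hM2⟩ := exists_cutM
  have hom := om_nonneg k
  have hpi := Real.pi_pos
  refine ⟨320 * M ^ 2 * (4 * Ce + Cf * (om k * Real.pi)), by positivity,
    fun v r H hv hS hH hr hF => ?_⟩
  have hr0 : 0 < r := by linarith
  have hρ : 0 < r / 4 := by positivity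
  have hL : 0 < r / 8 := by positivity
  set j := Fin.last k with hj
  set Z := P k (r / 4) (r / 8) with hZ
  have hZs : ContDiff ℝ 1 Z := P_smooth
  have hZc : HasCompactSupport Z := P_cs hρ hL
  have hv1 : ContDiff ℝ 1 v := contDiff_infty.1 hv.sm 1
  have cT := cont_Tn hv j
  have cE := cont_en hv
  have cZ := hZs.continuous
  have cl : Continuous fun x : EE (k + 1) => x j := cont_last
  have cL : Continuous fun x : EE (k + 1) => (1 + x j ^ 2)⁻¹ := cont_lor.comp cl
  have cI : Continuous fun x => Z x * Tn v j x +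
      2 * x j * (en v x * pdv j Z x - pdv j v x * gin v Z x) :=
    (cZ.mul cT).add ((continuous_const.mul cl).mul ((cE.mul (St.continuous_pdv hZs j)).sub
      ((St.continuous_pdv hv1 j).mul (cont_gin hv1 hZs))))
  have iA : Integrable fun x => Z x * Tn v j x * Z x := St.int_cs (cZ.mul cT) cZ hZc
  have h1 : ∫ x in cyl k (r / 4) (r / 8), Tn v j x ≤ ∫ x, Z x * Tn v j x * Z x := by
    rw [← setIntegral_congr_fun (isOpen_cyl _ _).measurableSet (f := fun x => Z x * Tn v j x * Z x)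
      fun x hx => by simp only [hZ, P_one hρ hL hx.1.le hx.2.le, one_mul, mul_one]]
    exact setIntegral_le_integral iA (ae_of_all _ fun x =>
      mul_nonneg (mul_nonneg (P_nonneg x) (Tn_nonneg hv j x)) (P_nonneg x))
  have h2 : ∫ x, (2⁻¹ * (Z x * Tn v j x * Z x) - (Z x * Tn v j x +
      2 * x j * (en v x * pdv j Z x - pdv j v x * gin v Z x)) * Z x) ≤
      ∫ x in cyl k (r / 2) (r / 4),
        160 * M ^ 2 / r ^ 2 * (4 * H ^ 2 * en v x + Cf * (1 + x j ^ 2)⁻¹) := by
    refine int_le_cyl (by exact (continuous_const.mul ((cZ.mul cT).mul cZ)).sub (cI.mul cZ))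
      (by exact continuous_const.mul ((continuous_const.mul cE).add (continuous_const.mul cL)))
      (fun x hx => ?_) fun x hx => ?_
    · rw [show Z x = 0 from P_zero hρ hL ((not_cyl hx).imp (fun h => by linarith) fun h => by
        linarith)]
      ring
    · have h3 := psd hv Z j x (Z x) (x j)
      have h4 : gsq Z x ≤ 80 * M ^ 2 / r ^ 2 := by
        have a1 := (hM1 k 0 (init x) _ hρ).1
        have a2 := (hM2 _ (x j) hL).1
        have a3 : ‖∇ (cut 0 (r / 4)) (init x)‖ * xi (r / 8) (x j) ≤ M / (r / 4) :=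
          (mul_le_of_le_one_right (norm_nonneg _) (xi_le_one _ _)).trans a1
        have a4 : cut 0 (r / 4) (init x) * |deriv (xi (r / 8)) (x j)| ≤ M / (r / 8) :=
          (mul_le_of_le_one_left (abs_nonneg _) (cut_le_one _ _ _)).trans a2
        rw [hZ, gsq_P]
        refine (add_le_add (pow_le_pow_left₀ (mul_nonneg (norm_nonneg _) (xi_nonneg _ _)) a3 2)
          (pow_le_pow_left₀ (mul_nonneg (cut_nonneg _ _ _) (abs_nonneg _)) a4 2)).trans
          (le_of_eq ?_)
        field_simp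
        ring
      have hE := Aac.en_nonneg v x
      have h5 : x j ^ 2 * en v x ≤ 4 * H ^ 2 * en v x + Cf * (1 + x j ^ 2)⁻¹ := by
        rcases le_total (|x j|) (2 * H) with h | h
        · have a1 : x j ^ 2 ≤ 4 * H ^ 2 := by
            have := pow_le_pow_left₀ (abs_nonneg _) h 2
            rw [sq_abs] at this
            linarith
          exact (mul_le_mul_of_nonneg_right a1 hE).trans (le_add_of_nonneg_right (by positivity))
        · have a1 := (hf v r H hv (by linarith) hF x hx.1.le hx.2.le h).1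
          have a2 : Cf * Real.exp (-H) * (1 + x j ^ 2)⁻¹ ≤ Cf * (1 + x j ^ 2)⁻¹ :=
            mul_le_mul_of_nonneg_right (mul_le_of_le_one_right hCf
              (Real.exp_le_one_iff.2 (by linarith))) (by positivity)
          have a3 : x j ^ 2 * en v x ≤ (1 + x j ^ 2) * hh (v x) ^ 2 :=
            mul_le_mul (by linarith) (en_le hv x) hE (by positivity)
          have a4 : 0 ≤ 4 * H ^ 2 * en v x := by positivity
          linarith
      have h6 := mul_le_mul h5 h4 (gsq_nonneg _ _) (by positivity)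
      calc _ = -(2 * Z x * x j * (en v x * pdv j Z x - pdv j v x * gin v Z x)) -
            Z x ^ 2 * Tn v j x / 2 := by ring
        _ ≤ 2 * (x j ^ 2 * en v x * gsq Z x) := by linarith
        _ ≤ 2 * ((4 * H ^ 2 * en v x + Cf * (1 + x j ^ 2)⁻¹) * (80 * M ^ 2 / r ^ 2)) := by linarith
        _ = _ := by ring
  rw [integral_sub (iA.const_mul _) (St.int_cs cI cZ hZc), fv_sq hv hZs hZc, integral_const_mul,
    integral_const_mul, integral_add ((integrableOn_cyl cE _ _).const_mul _)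
      ((integrableOn_cyl cL _ _).const_mul _), integral_const_mul,
    integral_const_mul] at h2
  have h3 : ∫ x in cyl k (r / 2) (r / 4), en v x ≤ Ce * r ^ k :=
    (setIntegral_mono_set ((cE.continuousOn.integrableOn_compact (isCompact_closedBall 0 r)).mono_set
      ball_subset_closedBall) (ae_of_all _ (Aac.en_nonneg v))
      ((cyl_subset _ _).trans (ball_subset_ball (by linarith))).eventuallyLE).trans
      (he v hv hS 0 r hr0)
  have h4 := int_lor (k := k) (ρ := r / 2) (r := r) (b := r / 4) (by positivity) (by linarith) hρ.le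
  have h5 : om k * Real.pi * r ^ k ≤ H ^ 2 * (om k * Real.pi * r ^ k) :=
    le_mul_of_one_le_left (by positivity) (one_le_pow₀ hH)
  have h6 := mul_le_mul_of_nonneg_left (add_le_add
    (mul_le_mul_of_nonneg_left h3 (by positivity : 0 ≤ 4 * H ^ 2))
    (mul_le_mul_of_nonneg_left (h4.trans h5) hCf)) (by positivity : 0 ≤ 160 * M ^ 2 / r ^ 2)
  calc _ ≤ 2 * (160 * M ^ 2 / r ^ 2 * (4 * H ^ 2 * (Ce * r ^ k) +
        Cf * (H ^ 2 * (om k * Real.pi * r ^ k)))) := by linarith
    _ = _ := by ring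

open Cy in
theorem tilt (k : ℕ) : ∃ C : ℝ, 0 ≤ C ∧ ∀ (v : EE (k + 1) → ℝ) (r H : ℝ), Sol v → SLp v → 1 ≤ H →
    32 * H ≤ r → Flat v r (ev (Fin.last k)) H →
      ∫ x in cyl k (r / 4) (r / 8), bt v (Fin.last k) x ≤ C * (H / r + Real.exp (-H)) * r ^ k := by
  obtain ⟨Cf, hCf, hf⟩ := far k
  obtain ⟨M, hM, hM1, hM2⟩ := exists_cutM
  have hom := om_nonneg k
  have hpi := Real.pi_pos
  refine ⟨om k * (32 * M + 8 * M * Cf + 2 * Cf * Real.pi), by positivity,
    fun v r H hv hS hH hr hF => ?_⟩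
  have hr0 : 0 < r := by linarith
  have hH0 : 0 < H := by linarith
  have hρ : 0 < r / 4 := by positivity
  have hL : 0 < 2 * H := by positivity
  have hx0 := Real.exp_pos (-H)
  set j := Fin.last k with hj
  set Z := P k (r / 4) (2 * H) with hZ
  have hZs : ContDiff ℝ 1 Z := P_smooth
  have hZc : HasCompactSupport Z := P_cs hρ hL
  have hv1 : ContDiff ℝ 1 v := contDiff_infty.1 hv.sm 1
  have hG : ContDiff ℝ 1 fun x => Gp (v x) := contDiff_Gp.comp hv1
  have cB := cont_bt hv j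
  have cE := cont_en hv
  have cZ := hZs.continuous
  have cl : Continuous fun x : EE (k + 1) => x j := cont_last
  have cL : Continuous fun x : EE (k + 1) => (1 + x j ^ 2)⁻¹ := cont_lor.comp cl
  have cN := (St.continuous_grad hZs).norm
  have cP := St.continuous_pdv hZs j
  have iA : Integrable fun x => bt v j x * Z x := St.int_cs cB cZ hZc
  -- near and far parts
  have h1 : ∫ x in cyl k (r / 4) (r / 8), bt v j x ≤ (∫ x, bt v j x * Z x) +
      2 * Cf * Real.exp (-H) * (om k * Real.pi * r ^ k) := by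
    have a1 : ∫ x in cyl k (r / 4) (r / 8), bt v j x ≤ ∫ x in cyl k (r / 4) (r / 8),
        (bt v j x * Z x + 2 * Cf * Real.exp (-H) * (1 + x j ^ 2)⁻¹) := by
      refine setIntegral_mono_on (integrableOn_cyl cB _ _) (integrableOn_cyl ((cB.mul cZ).add
        (continuous_const.mul cL)) _ _) (isOpen_cyl _ _).measurableSet
        fun x hx => ?_
      rcases le_total (|x j|) (2 * H) with h | h
      · rw [show Z x = 1 from P_one hρ hL hx.1.le h, mul_one]
        exact le_add_of_nonneg_right (by positivity)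
      · have b1 := (hf v r H hv hH0.le hF x (by linarith [hx.1]) (by linarith [hx.2]) h).1
        have b2 : hh (v x) ^ 2 ≤ hh (v x) ^ 2 * (1 + x j ^ 2) :=
          le_mul_of_one_le_right (sq_nonneg _) (by nlinarith [sq_nonneg (x j)])
        have b3 := mul_nonneg (bt_nonneg v j x) (P_nonneg (ρ := r / 4) (L := 2 * H) x)
        linarith [bt_le hv j x]
    rw [integral_add iA.integrableOn ((integrableOn_cyl cL _ _).const_mul _),
      integral_const_mul] at a1
    refine a1.trans (add_le_add (setIntegral_le_integral iA (ae_of_all _ fun x =>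
      mul_nonneg (bt_nonneg v j x) (P_nonneg x))) (mul_le_mul_of_nonneg_left
        (int_lor hρ (by linarith) (by positivity)) (by positivity)))
  -- the sliding inequality
  have h2 : ∫ x, bt v j x * Z x ≤ ∫ x, (‖∇ Z x‖ * Gp (v x) - Gp (v x) * pdv j Z x) := by
    have iN : Integrable fun x => ‖∇ Z x‖ * Gp (v x) :=
      (cN.mul hG.continuous).integrable_of_hasCompactSupport (HasCompactSupport.mul_right
        (HasCompactSupport.intro (St.cs_grad_sq hZc).isCompact fun x hx =>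
          pow_eq_zero_iff two_ne_zero |>.1
            (image_eq_zero_of_notMem_tsupport (f := fun x => ‖∇ Z x‖ ^ 2) hx)))
    have iE : Integrable fun x => Z x * en v x :=
      (cZ.mul cE).integrable_of_hasCompactSupport hZc.mul_right
    have e : ∀ x, bt v j x * Z x = Z x * en v x + pdv j (fun x => Gp (v x)) x * Z x := fun x => by
      rw [pdv_comp (hasDerivAt_Gp (v x)) (hv1.differentiable (by simp) x), bt]
      ring
    simp only [e]
    rw [integral_add iE (St.int_cs (St.continuous_pdv hG j) cZ hZc), ibp_right hG hZs hZc,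
      integral_sub iN (St.int_cs hG.continuous cP (hasCompactSupport_pdv hZc j))]
    linarith [hS Z hZs hZc P_nonneg]
  have h3 : ∫ x, (‖∇ Z x‖ * Gp (v x) - Gp (v x) * pdv j Z x) ≤
      ∫ _x in cyl k (r / 2) (4 * H), (4 * M / r + M / H * (Cf * Real.exp (-H))) := by
    refine int_le_cyl (by exact (cN.mul hG.continuous).sub (hG.continuous.mul cP)) continuous_const
      (fun x hx => ?_) fun x hx => ?_
    · have a1 := norm_grad_P (ρ := r / 4) (L := 2 * H) (x := x)
      rw [hZ, hj, pdv_P_last]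
      rcases not_cyl hx with h | h
      · have b1 : 2 * (r / 4) ≤ ‖init x - 0‖ := by rw [sub_zero]; linarith
        rw [(hM1 k 0 (init x) _ hρ).2 (Or.inr b1), cut_eq_zero hρ b1] at a1
        rw [cut_eq_zero hρ b1, norm_le_zero_iff.1 (a1.trans (by simp))]
        simp
      · have b1 : 2 * (2 * H) ≤ |x (Fin.last k)| := by linarith
        rw [(hM2 _ _ hL).2.1 (Or.inr b1), xi_eq_zero hL b1] at a1
        rw [(hM2 _ _ hL).2.1 (Or.inr b1), norm_le_zero_iff.1 (a1.trans (by simp))]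
        simp
    · have a1 := norm_grad_P (ρ := r / 4) (L := 2 * H) (x := x)
      have a2 : ‖∇ (cut 0 (r / 4)) (init x)‖ * xi (2 * H) (x j) ≤ 4 * M / r :=
        (mul_le_of_le_one_right (norm_nonneg _) (xi_le_one _ _)).trans
          ((hM1 k 0 (init x) _ hρ).1.trans (le_of_eq (by field_simp)))
      have g0 := Gp_nonneg (hv.lt x).le
      have g1 := (Gp_le (hv.lt x).le).trans s0_le_one
      obtain ⟨d1, d2, d3⟩ := hM2 _ (x j) hL
      have a3 : (|deriv (xi (2 * H)) (x j)| - deriv (xi (2 * H)) (x j)) * Gp (v x) ≤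
          M / H * (Cf * Real.exp (-H)) := by
        rcases le_total (x j) 0 with h | h
        · rw [abs_of_nonneg (d3 h), sub_self, zero_mul]
          positivity
        rcases le_total (|x j|) (2 * H) with h' | h'
        · rw [d2 (Or.inl h'), abs_zero, sub_self, zero_mul]
          positivity
        · refine mul_le_mul ?_ ((hf v r H hv hH0.le hF x hx.1.le (by linarith [hx.2]) h').2 h) g0
            (by positivity)
          have b1 : M / H = 2 * (M / (2 * H)) := by field_simp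
          linarith [neg_abs_le (deriv (xi (2 * H)) (x j))]
      have a4 := mul_le_of_le_one_left (mul_nonneg (sub_nonneg.2
        (le_abs_self (deriv (xi (2 * H)) (x j)))) g0) (cut_le_one 0 (r / 4) (init x))
      have a5 := mul_le_mul_of_nonneg_right a1 g0
      have a6 := mul_le_mul a2 g1 g0 (by positivity)
      rw [hZ, hj, pdv_P_last]
      linarith
  have h4 := int_vert (k := k) (g := fun _ => 4 * M / r + M / H * (Cf * Real.exp (-H)))
    continuous_const (ρ := r / 2) (b := 4 * H) (by positivity) (by positivity)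
  rw [intervalIntegral.integral_const, smul_eq_mul] at h4
  have h5 : om k * (r / 2) ^ k * ((4 * H - -(4 * H)) * (4 * M / r + M / H * (Cf * Real.exp (-H))))
      ≤ om k * r ^ k * (32 * M * (H / r) + 8 * M * Cf * Real.exp (-H)) := by
    refine mul_le_mul (mul_le_mul_of_nonneg_left (pow_le_pow_left₀ (by positivity) (by linarith) k)
      hom) (le_of_eq ?_) (mul_nonneg (by linarith) (by positivity)) (by positivity)
    field_simp
    ring
  have h6 : 0 ≤ om k * r ^ k * (32 * M * Real.exp (-H) + (8 * M * Cf + 2 * Cf * Real.pi) * (H / r)) :=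
    by positivity
  linarith

end

end Crest.Agent.N067.E
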