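import Crest.Agent.N067.E.Basic

/-! # E/Line (leaf E-Line): two lemmas on one column

`lineA`.  `β = E - h(g) g' ≥ 0`, `b = ∫_{-L}^L β`.  `∫|s-l| E = ∫|s-l| (Gm g)' + ∫|s-l| β`; by parts
`∫_{-L}^L |s-l| (Gm g)' ≤ A₋ + A₊`, `A₋ = ∫_{-L}^l Gm g`, `A₊ = ∫_l^L Gp g`.  `xi` even gives
`s0 l + ∫ ξ G0 g = ∫_{s<l} ξ Gm g - ∫_{s>l} ξ Gp g = A₋ - A₊ + O(C0²)` (tails, `Gp_le_sq`).
`A₋ + A₊ = |A₋ - A₊| + 2 min`.  For `s₁ ≤ l ≤ s₂` in `[-L,L]`: `Gm g s₁ ≤ Gm g s₂ + b`.  If `b < s0/4`: either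
`Gm g ≥ s0/4` on `[l,L]` (then `1 + g ≥ c`, `Gp g ≤ C (1-g²)² ≤ 4C E`) or `Gm g ≤ s0/2` on `[-L,l]` (then
`g ≤ 0`, `Gm g ≤ (1-g²)² ≤ 4E`), and `∫_{-L}^L E ≤ s0 + b`.  If `b ≥ s0/4`: `A₋ ≤ (M+1) H + C0² ≤ C H b`.
`∫|s-l| β ≤ (M+2) H b + ∫_{|s|>2H} (|s| + M H) 2 (1-g²)²`, the last `≤ C`.

`lineB`.  `s₀` = a zero of `g` in `[-b,b]` (or `-b` if `g > 0`, `b` if `g < 0` there); `g ≥ 0` on `[s₀,b]`, `≤ 0` on
`[-b,s₀]`, `Gp g ≤ (1-g²)²` where `g ≥ 0`, `Gm g ≤ (1-g²)²` where `g ≤ 0`.  So the left integral is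
`≤ P + s0 |s₀ - s*|`, `P = ∫_{-b}^b (1-g²)²`; `|s₀ - s*| ∫λ ≤ |∫(s-s*)λ| + ∫|s-s₀| λ`,
`∫|s-s₀| λ ≤ 2∫_{-b}^b |s-s₀| (Gm g)' ≤ 2P` (parts), `∫λ ≤ 2 s0`. -/

set_option autoImplicit false

open MeasureTheory Laplacian InnerProductSpace Topology Filter Set Metric
open scoped RealInnerProductSpace ContDiff Gradient

namespace Crest.Agent.N067.E

open Crest.Agent.R077

noncomputable section

variable {n k : ℕ}

namespace Ln

theorem exp_tail {f : ℝ → ℝ} (hf : Continuous f) {a c H K : ℝ} (hK : 0 ≤ K) (hac : a ≤ c)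
    (hH : H ≤ a) (h : ∀ s, a ≤ s → s ≤ c → f s ≤ K * Real.exp (-(s - H))) :
    ∫ s in a..c, f s ≤ K := by
  have hd : ∀ s, HasDerivAt (fun s => -(K * Real.exp (-(s - H)))) (K * Real.exp (-(s - H))) s := by
    intro s
    have := ((((hasDerivAt_id s).sub_const H).neg.exp).const_mul K).neg
    refine this.congr_deriv ?_
    simp
  have hc : Continuous fun s => K * Real.exp (-(s - H)) := by fun_prop
  refine (intervalIntegral.integral_mono_on hac (hf.intervalIntegrable _ _)
    (hc.intervalIntegrable _ _) fun s hs => h s hs.1 hs.2).trans ?_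
  rw [intervalIntegral.integral_eq_sub_of_hasDerivAt (fun s _ => hd s) (hc.intervalIntegrable _ _)]
  have h1 : Real.exp (-(a - H)) ≤ 1 := Real.exp_le_one_iff.2 (by linarith)
  have h2 := mul_nonneg hK (Real.exp_pos (-(c - H))).le
  nlinarith

theorem exp_tail' {f : ℝ → ℝ} (hf : Continuous f) {a c H K : ℝ} (hK : 0 ≤ K) (hac : a ≤ c)
    (hH : c ≤ -H) (h : ∀ s, a ≤ s → s ≤ c → f s ≤ K * Real.exp (s + H)) :
    ∫ s in a..c, f s ≤ K := by
  have := exp_tail (f := fun s => f (-s)) (hf.comp continuous_neg) (a := -c) (c := -a) (H := H) hK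
    (by linarith) (by linarith) fun s h1 h2 => by
      rw [show -(s - H) = -s + H by ring]; exact h (-s) (by linarith) (by linarith)
  rwa [intervalIntegral.integral_comp_neg, neg_neg, neg_neg] at this

theorem int_le_len {f : ℝ → ℝ} (hf : Continuous f) {a c : ℝ} (hac : a ≤ c) (h : ∀ s, f s ≤ 1) :
    ∫ s in a..c, f s ≤ c - a := by
  simpa using intervalIntegral.integral_mono_on (μ := volume) hac (hf.intervalIntegrable _ _)
    (continuous_const.intervalIntegrable _ _) fun s _ => h s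

theorem int_mono {f g : ℝ → ℝ} (hf : Continuous f) (hg : Continuous g) {a c : ℝ} (hac : a ≤ c)
    (h : ∀ s, a ≤ s → s ≤ c → f s ≤ g s) : ∫ s in a..c, f s ≤ ∫ s in a..c, g s :=
  intervalIntegral.integral_mono_on hac (hf.intervalIntegrable _ _) (hg.intervalIntegrable _ _)
    fun s hs => h s hs.1 hs.2

theorem int_nonneg {f : ℝ → ℝ} {a c : ℝ} (hac : a ≤ c) (h : ∀ s, 0 ≤ f s) :
    0 ≤ ∫ s in a..c, f s := intervalIntegral.integral_nonneg hac fun s _ => h s

theorem int_split {f : ℝ → ℝ} (hf : Continuous f) (a b c : ℝ) :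
    ∫ s in a..c, f s = (∫ s in a..b, f s) + ∫ s in b..c, f s :=
  (intervalIntegral.integral_add_adjacent_intervals (hf.intervalIntegrable _ _)
    (hf.intervalIntegrable _ _)).symm

theorem int_sub {f : ℝ → ℝ} (hf : Continuous f) (h : ∀ s, 0 ≤ f s) {a b c d : ℝ} (hab : a ≤ b)
    (_hbc : b ≤ c) (hcd : c ≤ d) : ∫ s in b..c, f s ≤ ∫ s in a..d, f s := by
  rw [int_split hf a b d, int_split hf b c d]
  linarith [int_nonneg hab h, int_nonneg hcd h]

variable {g g' : ℝ → ℝ}

theorem cont_g (hg : ∀ s, HasDerivAt g (g' s) s) : Continuous g :=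
  continuous_iff_continuousAt.2 fun s => (hg s).continuousAt

theorem cGm (hg : ∀ s, HasDerivAt g (g' s) s) : Continuous fun s => Gm (g s) :=
  (contDiff_Gm (m := 0)).continuous.comp (cont_g hg)

theorem cGp (hg : ∀ s, HasDerivAt g (g' s) s) : Continuous fun s => Gp (g s) :=
  (contDiff_Gp (m := 0)).continuous.comp (cont_g hg)

theorem cD (hg : ∀ s, HasDerivAt g (g' s) s) (hg' : Continuous g') :
    Continuous fun s => hh (g s) * g' s :=
  ((contDiff_hh (m := 0)).continuous.comp (cont_g hg)).mul hg'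

theorem int_D (hg : ∀ s, HasDerivAt g (g' s) s) (hg' : Continuous g') (a c : ℝ) :
    ∫ s in a..c, hh (g s) * g' s = Gm (g c) - Gm (g a) :=
  intervalIntegral.integral_eq_sub_of_hasDerivAt (f := fun s => Gm (g s))
    (fun s _ => (hasDerivAt_Gm (g s)).comp s (hg s)) ((cD hg hg').intervalIntegrable _ _)

theorem int_D_le (hg : ∀ s, HasDerivAt g (g' s) s) (hg' : Continuous g') (h1 : ∀ s, |g s| ≤ 1)
    (a c : ℝ) : ∫ s in a..c, hh (g s) * g' s ≤ 1 := by
  rw [int_D hg hg']
  linarith [Gm_le (h1 c), Gm_nonneg (h1 a), s0_le_one]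

/-- integration by parts on both sides of `l` -/
theorem parts (hg : ∀ s, HasDerivAt g (g' s) s) (hg' : Continuous g') (h1 : ∀ s, |g s| ≤ 1)
    {a l c : ℝ} (hal : a ≤ l) (hlc : l ≤ c) :
    ∫ s in a..c, |s - l| * (hh (g s) * g' s) ≤ (∫ s in a..l, Gm (g s)) + ∫ s in l..c, Gp (g s) := by
  have cd := cD hg hg'
  have c1 : Continuous fun s => |s - l| * (hh (g s) * g' s) := by fun_prop
  rw [int_split c1 a l c]
  refine add_le_add ?_ ?_
  · have e : ∫ s in a..l, |s - l| * (hh (g s) * g' s) - Gm (g s)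
        = (l - l) * Gm (g l) - (l - a) * Gm (g a) := by
      refine intervalIntegral.integral_eq_sub_of_hasDerivAt (f := fun s => (l - s) * Gm (g s))
        (fun s hs => ?_) ((c1.sub (cGm hg)).intervalIntegrable _ _)
      rw [uIcc_of_le hal] at hs
      refine (((hasDerivAt_id s).const_sub l).mul
        ((hasDerivAt_Gm (g s)).comp s (hg s))).congr_deriv ?_
      rw [abs_of_nonpos (by linarith [hs.2])]
      simp only [id, Function.comp_apply]
      ring
    rw [intervalIntegral.integral_sub (c1.intervalIntegrable _ _)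
      ((cGm hg).intervalIntegrable _ _)] at e
    nlinarith [mul_nonneg (sub_nonneg.2 hal) (Gm_nonneg (h1 a))]
  · have e : ∫ s in l..c, |s - l| * (hh (g s) * g' s) - Gp (g s)
        = (l - c) * Gp (g c) - (l - l) * Gp (g l) := by
      refine intervalIntegral.integral_eq_sub_of_hasDerivAt (f := fun s => (l - s) * Gp (g s))
        (fun s hs => ?_) ((c1.sub (cGp hg)).intervalIntegrable _ _)
      rw [uIcc_of_le hlc] at hs
      refine (((hasDerivAt_id s).const_sub l).mul
        ((hasDerivAt_Gp (g s)).comp s (hg s))).congr_deriv ?_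
      rw [abs_of_nonneg (by linarith [hs.1])]
      simp only [id, Function.comp_apply]
      ring
    rw [intervalIntegral.integral_sub (c1.intervalIntegrable _ _)
      ((cGp hg).intervalIntegrable _ _)] at e
    nlinarith [mul_nonneg (sub_nonneg.2 hlc) (Gp_nonneg (h1 c))]

theorem Gp_le_psi {s : ℝ} (h : |s| ≤ 1) (h0 : 0 ≤ s) : Gp s ≤ (1 - s ^ 2) ^ 2 := by
  refine (Gp_le_sq h).trans ?_
  have e : (1 - s ^ 2) ^ 2 = (1 - s) ^ 2 * (1 + s) ^ 2 := by ring
  rw [e]
  exact le_mul_of_one_le_right (sq_nonneg _) (by nlinarith)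

theorem Gm_le_psi {s : ℝ} (h : |s| ≤ 1) (h0 : s ≤ 0) : Gm s ≤ (1 - s ^ 2) ^ 2 := by
  have := Gp_le_psi (s := -s) (by rwa [abs_neg]) (by linarith)
  rwa [Gp_neg, neg_sq] at this

theorem Gp_le_psi3 {s : ℝ} (h : |s| ≤ 1) (h0 : s0 / 4 ≤ Gm s) : Gp s ≤ 3 * (1 - s ^ 2) ^ 2 := by
  refine (Gp_le_sq h).trans ?_
  have h2 : 0 < 3 * Real.sqrt 2 := by positivity
  rw [Gm_eq, s0, show 4 / (3 * Real.sqrt 2) / 4 = 1 / (3 * Real.sqrt 2) by ring,
    div_le_div_iff_of_pos_right h2] at h0
  have h3 : 1 ≤ 3 * (1 + s) ^ 2 := by nlinarith [(abs_le.1 h).1, sq_nonneg (1 + s)]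
  have e : 3 * (1 - s ^ 2) ^ 2 = (1 - s) ^ 2 * (3 * (1 + s) ^ 2) := by ring
  rw [e]
  exact le_mul_of_one_le_right (sq_nonneg _) h3

theorem xi_ident (hg : ∀ s, HasDerivAt g (g' s) s) {L l : ℝ} (hL : 0 < L) (hl : |l| ≤ L) :
    s0 * l + ∫ s, xi L s * G0 (g s)
      = (∫ s in (-(2 * L))..l, xi L s * Gm (g s)) - ∫ s in l..(2 * L), xi L s * Gp (g s) := by
  have cx : Continuous (xi L) := (contDiff_xi L (m := 0)).continuous
  have c0 : Continuous fun s => xi L s * G0 (g s) :=
    cx.mul ((contDiff_G0 (m := 0)).continuous.comp (cont_g hg))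
  have e0 : ∫ s in (-(2 * L))..(2 * L), xi L s * G0 (g s) = ∫ s, xi L s * G0 (g s) := by
    refine intervalIntegral.integral_eq_integral_of_support_subset fun s hs => ?_
    by_contra h
    refine hs ?_
    change xi L s * G0 (g s) = 0
    rw [xi_eq_zero hL, zero_mul]
    rw [mem_Ioc, not_and_or, not_lt, not_le] at h
    rcases h with h | h
    · exact le_abs.2 (Or.inr (by linarith))
    · exact le_abs.2 (Or.inl h.le)
  have e1 : ∫ s in (-(2 * L))..0, xi L s = ∫ s in (0 : ℝ)..(2 * L), xi L s := by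
    have := intervalIntegral.integral_comp_neg (a := 0) (b := 2 * L) (xi L)
    simp only [xi_neg, neg_zero] at this
    exact this.symm
  have e2 : ∫ s in (0 : ℝ)..l, xi L s = l := by
    rw [intervalIntegral.integral_congr (g := fun _ => 1) fun s hs => xi_eq_one hL ?_]
    · simp
    · exact (by simpa using Real.dist_le_of_mem_uIcc left_mem_uIcc hs |>.trans_eq' (by
        simp [Real.dist_eq]) : |s| ≤ |l|).trans hl
  have e3 : ∫ s in (-(2 * L))..l, xi L s * Gm (g s)
      = s0 / 2 * (∫ s in (-(2 * L))..l, xi L s) + ∫ s in (-(2 * L))..l, xi L s * G0 (g s) := by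
    rw [← intervalIntegral.integral_const_mul, ← intervalIntegral.integral_add
      ((cx.const_mul _).intervalIntegrable _ _) (c0.intervalIntegrable _ _)]
    exact intervalIntegral.integral_congr fun s _ => by simp only [Gm]; ring
  have e4 : ∫ s in l..(2 * L), xi L s * Gp (g s)
      = s0 / 2 * (∫ s in l..(2 * L), xi L s) - ∫ s in l..(2 * L), xi L s * G0 (g s) := by
    rw [← intervalIntegral.integral_const_mul, ← intervalIntegral.integral_sub
      ((cx.const_mul _).intervalIntegrable _ _) (c0.intervalIntegrable _ _)]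
    exact intervalIntegral.integral_congr fun s _ => by simp only [Gp]; ring
  have e5 := int_split cx (-(2 * L)) 0 l
  have e6 := int_split cx 0 l (2 * L)
  rw [e3, e4, ← e0, int_split c0 _ l, e5, e1, e6, e2]
  ring

end Ln

open Ln

theorem lineA (C0 M : ℝ) (hC0 : 0 ≤ C0) (hM : 0 ≤ M) : ∃ C : ℝ, 0 ≤ C ∧
    ∀ (g g' E : ℝ → ℝ) (L H l : ℝ), (∀ s, HasDerivAt g (g' s) s) → Continuous g' → Continuous E →
    (∀ s, |g s| ≤ 1) → (∀ s, (1 - g s ^ 2) ^ 2 ≤ 4 * E s) → (∀ s, 2 * E s ≤ (1 - g s ^ 2) ^ 2) →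
    (∀ s, hh (g s) * g' s ≤ E s) →
    (∀ s, E s - hh (g s) * g' s ≤ (1 - g s ^ 2) ^ 2) →
    1 ≤ H → 2 * H ≤ L → |l| ≤ M * H → |l| ≤ L →
    (∀ s, H ≤ s → s ≤ 2 * L → 1 - g s ≤ C0 * Real.exp (-(s - H))) →
    (∀ s, s ≤ -H → -(2 * L) ≤ s → 1 + g s ≤ C0 * Real.exp (s + H)) →
    |∫ s, xi L s * G0 (g s)| ≤ C * H ∧
    ∫ s in (-L)..L, |s - l| * E s ≤ |s0 * l + ∫ s, xi L s * G0 (g s)| + C
      + C * H * ∫ s in (-L)..L, (E s - hh (g s) * g' s) := by
  have hs0 := s0_pos
  refine ⟨6 * C0 + 48 + 8 * (M + 2) * C0 ^ 2 + (M + 2) + 8 * (M + 1) / s0, by positivity,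
    fun g g' E L H l hg hg' hE h1 hE1 _ hb0 hb1 hH hL hlM hlL tp tm => ?_⟩
  have hL0 : 0 < L := by linarith
  have cx : Continuous (xi L) := (contDiff_xi L (m := 0)).continuous
  have cm := cGm hg
  have cp := cGp hg
  have cd := cD hg hg'
  have np : ∀ s, 0 ≤ Gp (g s) := fun s => Gp_nonneg (h1 s)
  have nm : ∀ s, 0 ≤ Gm (g s) := fun s => Gm_nonneg (h1 s)
  have op : ∀ s, Gp (g s) ≤ 1 := fun s => (Gp_le (h1 s)).trans s0_le_one
  have om : ∀ s, Gm (g s) ≤ 1 := fun s => (Gm_le (h1 s)).trans s0_le_one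
  have nxp : ∀ s, 0 ≤ xi L s * Gp (g s) := fun s => mul_nonneg (xi_nonneg L s) (np s)
  have nxm : ∀ s, 0 ≤ xi L s * Gm (g s) := fun s => mul_nonneg (xi_nonneg L s) (nm s)
  have xp : ∀ s, xi L s * Gp (g s) ≤ Gp (g s) := fun s =>
    mul_le_of_le_one_left (np s) (xi_le_one L s)
  have xm : ∀ s, xi L s * Gm (g s) ≤ Gm (g s) := fun s =>
    mul_le_of_le_one_left (nm s) (xi_le_one L s)
  have tp' : ∀ s, H ≤ s → s ≤ 2 * L → Gp (g s) ≤ 2 * C0 * Real.exp (-(s - H)) := fun s a b => by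
    have := tp s a b
    have := abs_le.1 (h1 s)
    nlinarith [Gp_le_sq (h1 s)]
  have tm' : ∀ s, s ≤ -H → -(2 * L) ≤ s → Gm (g s) ≤ 2 * C0 * Real.exp (s + H) := fun s a b => by
    have := tm s a b
    have := abs_le.1 (h1 s)
    nlinarith [Gm_le_sq (h1 s)]
  have hK : 0 ≤ 2 * C0 := by positivity
  have Tp : ∀ a, H ≤ a → a ≤ 2 * L → ∫ s in a..(2 * L), xi L s * Gp (g s) ≤ 2 * C0 :=
    fun a h2 h3 => exp_tail (cx.mul cp) hK h3 h2 fun s h4 h5 => (xp s).trans (tp' s (h2.trans h4) h5)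
  have Tm : ∀ a, a ≤ -H → -(2 * L) ≤ a → ∫ s in (-(2 * L))..a, xi L s * Gm (g s) ≤ 2 * C0 :=
    fun a h2 h3 => exp_tail' (cx.mul cm) hK h3 h2 fun s h4 h5 => (xm s).trans (tm' s (h5.trans h2) h4)
  have r1 : 0 ≤ 8 * (M + 2) * C0 ^ 2 := by positivity
  have r2 : 0 ≤ 8 * (M + 1) / s0 := by positivity
  constructor
  · have e := xi_ident hg hL0 (l := 0) (by simpa using hL0.le)
    rw [mul_zero, zero_add] at e
    have a1 := int_split (cx.mul cm) (-(2 * L)) (-H) 0
    have a2 := int_split (cx.mul cp) 0 H (2 * L)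
    have a3 := int_le_len (cx.mul cm) (a := -H) (c := 0) (by linarith) fun s => (xm s).trans (om s)
    have a4 := int_le_len (cx.mul cp) (a := 0) (c := H) (by linarith) fun s => (xp s).trans (op s)
    have a5 := Tp H le_rfl (by linarith)
    have a6 := Tm (-H) le_rfl (by linarith)
    have a7 := int_nonneg (a := -(2 * L)) (c := 0) (by linarith) nxm
    have a8 := int_nonneg (a := 0) (c := 2 * L) (by linarith) nxp
    simp only [Pi.mul_apply] at a1 a2 a3 a4
    have a9 : |∫ s, xi L s * G0 (g s)| ≤ 2 * C0 + H := by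
      rw [e, abs_le]; constructor <;> linarith
    refine a9.trans ?_
    nlinarith [mul_nonneg (show 0 ≤ 4 * C0 + 47 + 8 * (M + 2) * C0 ^ 2 + (M + 2) + 8 * (M + 1) / s0
      by positivity) (show 0 ≤ H by linarith), mul_nonneg hC0 (show 0 ≤ H - 1 by linarith)]
  obtain ⟨l1, l2⟩ := abs_le.1 hlL
  set β : ℝ → ℝ := fun s => E s - hh (g s) * g' s with hβ
  have cβ : Continuous β := hE.sub cd
  have nβ : ∀ s, 0 ≤ β s := fun s => sub_nonneg.2 (hb0 s)
  have nE : ∀ s, 0 ≤ E s := fun s => by nlinarith [hE1 s, sq_nonneg (1 - g s ^ 2)]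
  set b := ∫ s in (-L)..L, β s with hb
  have nb : 0 ≤ b := int_nonneg (by linarith) nβ
  set Am := ∫ s in (-L)..l, Gm (g s) with hAm
  set Ap := ∫ s in l..L, Gp (g s) with hAp
  have iE : ∀ a c, ∫ s in a..c, E s = (∫ s in a..c, hh (g s) * g' s) + ∫ s in a..c, β s := by
    intro a c
    rw [← intervalIntegral.integral_add (cd.intervalIntegrable _ _) (cβ.intervalIntegrable _ _)]
    exact intervalIntegral.integral_congr fun s _ => by simp only [hβ]; ring
  have bE : ∫ s in (-L)..L, E s ≤ 1 + b := by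
    rw [iE]; linarith [int_D_le hg hg' h1 (-L) L]
  -- (1) splitting
  have s1 : ∫ s in (-L)..L, |s - l| * E s ≤ Am + Ap + ∫ s in (-L)..L, |s - l| * β s := by
    have c1 : Continuous fun s => |s - l| * (hh (g s) * g' s) := by fun_prop
    have c2 : Continuous fun s => |s - l| * β s := by fun_prop
    have e : ∫ s in (-L)..L, |s - l| * E s = (∫ s in (-L)..L, |s - l| * (hh (g s) * g' s))
        + ∫ s in (-L)..L, |s - l| * β s := by
      rw [← intervalIntegral.integral_add (c1.intervalIntegrable _ _) (c2.intervalIntegrable _ _)]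
      exact intervalIntegral.integral_congr fun s _ => by simp only [hβ]; ring
    rw [e]
    linarith [parts hg hg' h1 l1 l2]
  -- (2) the `β` term
  have s2 : ∫ s in (-L)..L, |s - l| * β s ≤ 8 * (M + 2) * C0 ^ 2 + (M + 2) * H * b := by
    have c2 : Continuous fun s => |s - l| * β s := by fun_prop
    have hK2 : 0 ≤ 4 * (M + 2) * C0 ^ 2 := by positivity
    have key : ∀ s u w : ℝ, H ≤ u → |s| = u + H → 0 ≤ w → w ≤ C0 * Real.exp (-u) →
        β s ≤ 4 * w ^ 2 → |s - l| * β s ≤ 4 * (M + 2) * C0 ^ 2 * Real.exp (-u) := by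
      intro s u w hu hs hw0 hw hβw
      have k1 : |s - l| ≤ (M + 2) * u := by
        have := abs_sub s l
        nlinarith [mul_le_mul_of_nonneg_left hu hM]
      have k2 : u * Real.exp (-u) ≤ 1 := by
        rw [Real.exp_neg, ← div_eq_mul_inv, div_le_one (Real.exp_pos u)]
        linarith [Real.add_one_le_exp u]
      have k3 : β s ≤ 4 * (C0 * Real.exp (-u)) ^ 2 :=
        hβw.trans (by nlinarith [pow_le_pow_left₀ hw0 hw 2])
      calc |s - l| * β s ≤ ((M + 2) * u) * (4 * (C0 * Real.exp (-u)) ^ 2) :=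
            mul_le_mul k1 k3 (nβ s) (mul_nonneg (by linarith) (by linarith))
        _ = 4 * (M + 2) * C0 ^ 2 * Real.exp (-u) * (u * Real.exp (-u)) := by ring
        _ ≤ _ := mul_le_of_le_one_right (by positivity) k2
    have a1 : ∫ s in (2 * H)..L, |s - l| * β s ≤ 4 * (M + 2) * C0 ^ 2 :=
      exp_tail c2 hK2 hL (H := H) (by linarith) fun s h2 h3 => by
        obtain ⟨g1, g2⟩ := abs_le.1 (h1 s)
        refine key s (s - H) (1 - g s) (by linarith) (by rw [abs_of_nonneg (by linarith)]; ring)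
          (by linarith) (tp s (by linarith) (by linarith)) ((hb1 s).trans ?_)
        have : (1 + g s) ^ 2 ≤ 4 := by nlinarith
        nlinarith [mul_le_mul_of_nonneg_left this (sq_nonneg (1 - g s))]
    have a2 : ∫ s in (-L)..(-(2 * H)), |s - l| * β s ≤ 4 * (M + 2) * C0 ^ 2 :=
      exp_tail' c2 hK2 (by linarith) (H := H) (by linarith) fun s h2 h3 => by
        obtain ⟨g1, g2⟩ := abs_le.1 (h1 s)
        rw [show s + H = -(-s - H) by ring]
        refine key s (-s - H) (1 + g s) (by linarith) (by rw [abs_of_nonpos (by linarith)]; ring)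
          (by linarith) (by rw [show -(-s - H) = s + H by ring]; exact tm s (by linarith) (by linarith))
          ((hb1 s).trans ?_)
        have : (1 - g s) ^ 2 ≤ 4 := by nlinarith
        nlinarith [mul_le_mul_of_nonneg_left this (sq_nonneg (1 + g s))]
    have a3 : ∫ s in (-(2 * H))..(2 * H), |s - l| * β s ≤ (M + 2) * H * b := by
      refine (int_mono c2 (cβ.const_mul ((M + 2) * H)) (by linarith) fun s h2 h3 =>
        mul_le_mul_of_nonneg_right ?_ (nβ s)).trans ?_
      · have := abs_sub s l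
        have : |s| ≤ 2 * H := abs_le.2 ⟨h2, h3⟩
        linarith
      · rw [intervalIntegral.integral_const_mul]
        exact mul_le_mul_of_nonneg_left (int_sub cβ nβ (by linarith) (by linarith) hL)
          (mul_nonneg (by linarith) (by linarith))
    rw [int_split c2 _ (-(2 * H)), int_split c2 (-(2 * H)) (2 * H)]
    linarith
  -- (3) the difference
  have s3 : |Am - Ap| ≤ |s0 * l + ∫ s, xi L s * G0 (g s)| + 2 * C0 := by
    have e1 : ∫ s in (-L)..l, xi L s * Gm (g s) = Am :=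
      intervalIntegral.integral_congr fun s hs => by
        rw [uIcc_of_le l1] at hs
        simp only [xi_eq_one hL0 (abs_le.2 ⟨hs.1, hs.2.trans l2⟩), one_mul]
    have e2 : ∫ s in l..L, xi L s * Gp (g s) = Ap :=
      intervalIntegral.integral_congr fun s hs => by
        rw [uIcc_of_le l2] at hs
        simp only [xi_eq_one hL0 (abs_le.2 ⟨l1.trans hs.1, hs.2⟩), one_mul]
    have a1 := int_split (cx.mul cm) (-(2 * L)) (-L) l
    have a2 := int_split (cx.mul cp) l L (2 * L)
    simp only [Pi.mul_apply] at a1 a2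
    have a5 := Tp L (by linarith) (by linarith)
    have a6 := Tm (-L) (by linarith) (by linarith)
    have a7 := int_nonneg (a := -(2 * L)) (c := -L) (by linarith) nxm
    have a8 := int_nonneg (a := L) (c := 2 * L) (by linarith) nxp
    have e := xi_ident hg hL0 hlL
    rw [a1, a2, e1, e2] at e
    have a9 := le_abs_self (s0 * l + ∫ s, xi L s * G0 (g s))
    have a10 := neg_abs_le (s0 * l + ∫ s, xi L s * G0 (g s))
    rw [abs_le]; constructor <;> linarith
  -- (4) the minimum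
  have s4 : min Am Ap ≤ 24 + 2 * C0 + 4 * (M + 1) / s0 * H * b := by
    have r3 : 0 ≤ 4 * (M + 1) / s0 * H * b := by have : 0 ≤ H := by linarith
                                                 positivity
    by_cases hbs : b < s0 / 4
    · have bE' : ∫ s in (-L)..L, E s ≤ 2 := by linarith [s0_le_one]
      by_cases hc : ∀ s, l ≤ s → s ≤ L → s0 / 4 ≤ Gm (g s)
      · refine (min_le_right _ _).trans ?_
        have a1 := int_mono cp (hE.const_mul 12) l2 fun s h2 h3 =>
          (Gp_le_psi3 (h1 s) (hc s h2 h3)).trans (by linarith [hE1 s])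
        rw [intervalIntegral.integral_const_mul] at a1
        linarith [int_sub hE nE l1 l2 le_rfl]
      · push Not at hc
        obtain ⟨s2, h2, h3, h4⟩ := hc
        refine (min_le_left _ _).trans ?_
        have a1 := int_mono cm (hE.const_mul 4) l1 fun s h5 h6 => by
          have b1 := iE s s2
          have b2 := int_nonneg (h6.trans h2) nE
          have b3 := int_sub cβ nβ h5 (h6.trans h2) h3
          rw [int_D hg hg'] at b1
          have b4 : g s ≤ 0 := by
            by_contra b5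
            linarith [half_le_Gm (h1 s) (not_le.1 b5).le]
          exact (Gm_le_psi (h1 s) b4).trans (hE1 s)
        rw [intervalIntegral.integral_const_mul] at a1
        linarith [int_sub hE nE le_rfl l1 l2]
    · refine (min_le_left _ _).trans ?_
      have hMH : 0 ≤ M * H := mul_nonneg hM (by linarith)
      have a1 : Am ≤ ∫ s in (-L)..(M * H), Gm (g s) :=
        int_sub cm nm le_rfl l1 (abs_le.1 hlM).2
      have a2 : ∫ s in (-L)..(-H), Gm (g s) ≤ 2 * C0 :=
        exp_tail' cm hK (by linarith) le_rfl fun s h4 h5 => tm' s h5 (by linarith)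
      have a3 := int_le_len cm (a := -H) (c := M * H) (by linarith) om
      rw [int_split cm _ (-H)] at a1
      have a4 : (M + 1) * H ≤ 4 * (M + 1) / s0 * H * b := by
        have e : 4 * (M + 1) / s0 * H * b = (M + 1) * H * (b / (s0 / 4)) := by field_simp
        rw [e]
        exact le_mul_of_one_le_right (mul_nonneg (by linarith) (by linarith))
          ((one_le_div (by positivity)).2 (not_lt.1 hbs))
      linarith
  have s5 : Am + Ap = |Am - Ap| + 2 * min Am Ap := by
    rcases le_total Am Ap with h | h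
    · rw [min_eq_left h, abs_of_nonpos (by linarith)]; ring
    · rw [min_eq_right h, abs_of_nonneg (by linarith)]; ring
  have s6 : 0 ≤ (6 * C0 + 48 + 8 * (M + 2) * C0 ^ 2) * H * b := by
    have : 0 ≤ H := by linarith
    positivity
  have s7 : (6 * C0 + 48 + 8 * (M + 2) * C0 ^ 2 + (M + 2) + 8 * (M + 1) / s0) * H * b
      = (6 * C0 + 48 + 8 * (M + 2) * C0 ^ 2) * H * b + (M + 2) * H * b
        + 2 * (4 * (M + 1) / s0 * H * b) := by ring
  linarith

theorem lineB (g g' lam w1 w2 : ℝ → ℝ) (b t : ℝ) (hb : 0 ≤ b) (hg : ∀ s, HasDerivAt g (g' s) s)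
    (hg' : Continuous g') (h1 : ∀ s, |g s| ≤ 1) (hm : ∀ s, 0 ≤ g' s) (hl : Continuous lam)
    (hl0 : ∀ s, 0 ≤ lam s) (hl1 : ∀ s, lam s ≤ 2 * (hh (g s) * g' s))
    (c1 : Continuous w1) (c2 : Continuous w2) (hw1 : ∀ s, 0 ≤ w1 s ∧ w1 s ≤ 1)
    (hw2 : ∀ s, 0 ≤ w2 s ∧ w2 s ≤ 1) (z1 : ∀ s, s ≤ t → w1 s = 0) (z2 : ∀ s, t ≤ s → w2 s = 0) :
    (∫ s in (-b)..b, lam s) * ∫ s in (-b)..b, (w1 s * Gp (g s) + w2 s * Gm (g s)) ≤
      |∫ s in (-b)..b, (s - t) * lam s| + 4 * ∫ s in (-b)..b, (1 - g s ^ 2) ^ 2 := by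
  have hbb : -b ≤ b := by linarith
  have cg := cont_g hg
  have cm := cGm hg
  have cp := cGp hg
  have cd := cD hg hg'
  have mono : Monotone g := monotone_of_deriv_nonneg (fun s => (hg s).differentiableAt)
    fun s => by rw [(hg s).deriv]; exact hm s
  obtain ⟨z, hz1, hz2, hp, hn⟩ : ∃ z, -b ≤ z ∧ z ≤ b ∧ (∀ s, z < s → s ≤ b → 0 ≤ g s) ∧
      ∀ s, -b ≤ s → s < z → g s ≤ 0 := by
    by_cases ha : 0 ≤ g (-b)
    · exact ⟨-b, le_rfl, hbb, fun s h _ => ha.trans (mono h.le), fun s h h' => absurd h (by linarith)⟩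
    by_cases hc : g b ≤ 0
    · exact ⟨b, hbb, le_rfl, fun s h h' => absurd h' (by linarith), fun s _ h => (mono h.le).trans hc⟩
    obtain ⟨z, hz, hz0⟩ := intermediate_value_Icc hbb cg.continuousOn
      (show (0 : ℝ) ∈ Icc (g (-b)) (g b) from ⟨(not_le.1 ha).le, (not_le.1 hc).le⟩)
    exact ⟨z, hz.1, hz.2, fun s h _ => hz0 ▸ mono h.le, fun s _ h => hz0 ▸ mono h.le⟩
  have cP : Continuous fun s => (1 - g s ^ 2) ^ 2 := by fun_prop
  set P := ∫ s in (-b)..b, (1 - g s ^ 2) ^ 2 with hP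
  set Λ := ∫ s in (-b)..b, lam s with hΛ
  have nP : 0 ≤ P := int_nonneg hbb fun _ => sq_nonneg _
  have nΛ : 0 ≤ Λ := int_nonneg hbb hl0
  have bΛ : Λ ≤ 2 := by
    have := int_mono hl (cd.const_mul 2) hbb fun s _ _ => hl1 s
    rw [intervalIntegral.integral_const_mul] at this
    linarith [int_D_le hg hg' h1 (-b) b]
  have a1 : ∫ s in (-b)..b, (w1 s * Gp (g s) + w2 s * Gm (g s)) ≤ P + |z - t| := by
    have ii : IntervalIntegrable ((uIcc t z).indicator fun _ => (1 : ℝ)) volume (-b) b :=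
      ⟨(integrableOn_const (by simp)).indicator measurableSet_uIcc,
        (integrableOn_const (by simp)).indicator measurableSet_uIcc⟩
    have b1 : ∫ s in (-b)..b, (uIcc t z).indicator (fun _ => (1 : ℝ)) s ≤ |z - t| := by
      rw [intervalIntegral.integral_of_le hbb, integral_indicator measurableSet_uIcc,
        setIntegral_const, smul_eq_mul, mul_one, ← Real.volume_real_interval]
      rw [measureReal_restrict_apply measurableSet_uIcc]
      exact measureReal_mono inter_subset_left (by simp [uIcc])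
    refine (intervalIntegral.integral_mono_on hbb
      (((c1.mul cp).add (c2.mul cm)).intervalIntegrable _ _)
      ((cP.intervalIntegrable _ _).add ii) fun s hs => ?_).trans ?_
    · simp only [Pi.add_apply, Pi.mul_apply]
      have n1 := Gp_nonneg (h1 s)
      have n2 := Gm_nonneg (h1 s)
      have n3 := sq_nonneg (1 - g s ^ 2)
      by_cases hs2 : s ∈ uIcc t z
      · rw [indicator_of_mem hs2]
        have := Gm_add_Gp (g s)
        nlinarith [hw1 s, hw2 s, s0_le_one, mul_le_of_le_one_left n1 (hw1 s).2,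
          mul_le_of_le_one_left n2 (hw2 s).2]
      · rw [indicator_of_notMem hs2, add_zero]
        rw [mem_uIcc, not_or, not_and_or, not_and_or, not_le, not_le, not_le, not_le] at hs2
        rcases le_total s t with h | h
        · rw [z1 s h, zero_mul, zero_add]
          have hsz : s < z := by rcases hs2.2 with h' | h' <;> linarith
          exact (mul_le_of_le_one_left n2 (hw2 s).2).trans (Gm_le_psi (h1 s) (hn s hs.1 hsz))
        · rw [z2 s h, zero_mul, add_zero]
          have hsz : z < s := by rcases hs2.1 with h' | h' <;> linarith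
          exact (mul_le_of_le_one_left n1 (hw1 s).2).trans (Gp_le_psi (h1 s) (hp s hsz hs.2))
    · rw [intervalIntegral.integral_add (cP.intervalIntegrable _ _) ii]
      linarith
  have a2 : ∫ s in (-b)..b, |s - z| * lam s ≤ 2 * P := by
    have c3 : Continuous fun s => |s - z| * (hh (g s) * g' s) := by fun_prop
    have b1 := int_mono (f := fun s => |s - z| * lam s) (by fun_prop) (c3.const_mul 2) hbb
      fun s _ _ => by nlinarith [mul_le_mul_of_nonneg_left (hl1 s) (abs_nonneg (s - z))]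
    rw [intervalIntegral.integral_const_mul] at b1
    have b2 := parts hg hg' h1 hz1 hz2
    have b3 : ∫ s in (-b)..z, Gm (g s) ≤ ∫ s in (-b)..z, (1 - g s ^ 2) ^ 2 :=
      intervalIntegral.integral_mono_on_of_le_Ioo hz1 (cm.intervalIntegrable _ _)
        (cP.intervalIntegrable _ _) fun s hs => Gm_le_psi (h1 s) (hn s hs.1.le hs.2)
    have b4 : ∫ s in z..b, Gp (g s) ≤ ∫ s in z..b, (1 - g s ^ 2) ^ 2 :=
      intervalIntegral.integral_mono_on_of_le_Ioo hz2 (cp.intervalIntegrable _ _)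
        (cP.intervalIntegrable _ _) fun s hs => Gp_le_psi (h1 s) (hp s hs.1 hs.2.le)
    have b5 := int_split cP (-b) z b
    linarith
  have a3 : Λ * |z - t| ≤ |∫ s in (-b)..b, (s - t) * lam s| + 2 * P := by
    have c3 : Continuous fun s => (s - t) * lam s := by fun_prop
    have c4 : Continuous fun s => (s - z) * lam s := by fun_prop
    have e : (z - t) * Λ = (∫ s in (-b)..b, (s - t) * lam s) - ∫ s in (-b)..b, (s - z) * lam s := by
      rw [← intervalIntegral.integral_sub (c3.intervalIntegrable _ _) (c4.intervalIntegrable _ _),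
        hΛ, ← intervalIntegral.integral_const_mul]
      exact intervalIntegral.integral_congr fun s _ => by ring
    have b1 : |∫ s in (-b)..b, (s - z) * lam s| ≤ ∫ s in (-b)..b, |s - z| * lam s := by
      refine (intervalIntegral.abs_integral_le_integral_abs hbb).trans_eq ?_
      exact intervalIntegral.integral_congr fun s _ => by
        simp only [abs_mul, abs_of_nonneg (hl0 s)]
    rw [← abs_of_nonneg nΛ, ← abs_mul, mul_comm, e]
    linarith [abs_sub (∫ s in (-b)..b, (s - t) * lam s) (∫ s in (-b)..b, (s - z) * lam s)]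
  nlinarith [mul_le_mul_of_nonneg_left a1 nΛ, mul_le_mul_of_nonneg_right bΛ nP]

end

end Crest.Agent.N067.E
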