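import Crest.Agent.N067.E.HA
import Crest.Agent.N067.E.Cyl
import Crest.Agent.N067.E.Line

/-! # E/Step1 (helper69): the column functional `W = col (ξ G0 v)` is almost harmonic -/

set_option autoImplicit false

open MeasureTheory Laplacian InnerProductSpace Topology Filter Set Metric
open scoped RealInnerProductSpace ContDiff Gradient

namespace Crest.Agent.N067.E

open Crest.Agent.R077

noncomputable section

variable {n k : ℕ}

/-- the height functional -/
def WW (v : EE (k + 1) → ℝ) (L : ℝ) : EE k → ℝ :=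
  col fun x => xi L (x (Fin.last k)) * G0 (v x)

theorem Sol_c1 {v : EE n → ℝ} (h : Sol v) : ContDiff ℝ 1 v := h.isSol.c2.of_le (by norm_num)

theorem Sol_cont {v : EE n → ℝ} (h : Sol v) : Continuous v := h.isSol.c2.continuous

theorem Sol_diff {v : EE n → ℝ} (h : Sol v) (x : EE n) : DifferentiableAt ℝ v x :=
  (Sol_c1 h).differentiable (by norm_num) x

theorem Sol_cont_pdv {v : EE n → ℝ} (h : Sol v) (i : Fin n) : Continuous (pdv i v) :=
  (contDiff_pdv (m := 0) (Sol_c1 h) (by norm_num) i).continuous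

theorem c1_xi (L : ℝ) : ContDiff ℝ 1 (xi L) := contDiff_xi L (m := 1)

theorem c1_xil (L : ℝ) : ContDiff ℝ 1 fun x : EE (k + 1) => xi L (x (Fin.last k)) :=
  (c1_xi L).comp contDiff_last

theorem cont_last : Continuous fun x : EE (k + 1) => x (Fin.last k) :=
  (contDiff_last (m := 0)).continuous

theorem cont_init : Continuous (init : EE (k + 1) → EE k) := (contDiff_init (m := 0)).continuous

theorem cont_dxi (L : ℝ) : Continuous (deriv (xi L)) := (c1_xi L).continuous_deriv le_rfl

theorem cont_snoc (y : EE k) : Continuous fun s : ℝ => snoc y s :=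
  (contDiff_snoc (m := 0)).continuous.comp (continuous_const.prodMk continuous_id)

theorem cont_gradient {f : EE n → ℝ} (hf : ContDiff ℝ 1 f) : Continuous fun x => ‖∇ f x‖ := by
  simp only [norm_grad]
  exact (hf.continuous_fderiv (by norm_num)).norm

theorem cs_gradient {f : EE n → ℝ} (hf : HasCompactSupport f) :
    HasCompactSupport fun x => ‖∇ f x‖ := by
  simp only [norm_grad]
  exact (hf.fderiv (𝕜 := ℝ)).norm

theorem c1_WW {v : EE (k + 1) → ℝ} (hv : Sol v) {L : ℝ} (hL : 0 < L) : ContDiff ℝ 1 (WW v L) :=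
  contDiff_col ((c1_xil L).mul (contDiff_G0.comp (Sol_c1 hv))) (VC.xi hL _)

theorem pdv_WW {v : EE (k + 1) → ℝ} (hv : Sol v) {L : ℝ} (hL : 0 < L) (l : Fin k) (y : EE k) :
    pdv l (WW v L) y =
      col (fun x => xi L (x (Fin.last k)) * (hh (v x) * pdv l.castSucc v x)) y := by
  unfold WW
  have h0 : ContDiff ℝ 1 fun x => xi L (x (Fin.last k)) * G0 (v x) :=
    (c1_xil L).mul (contDiff_G0.comp (Sol_c1 hv))
  rw [pdv_col h0 (VC.xi hL _)]
  congr 1
  funext x
  have h1 : DifferentiableAt ℝ (xi L) (x (Fin.last k)) :=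
    (c1_xi L).differentiable (by norm_num) _
  have h2 : DifferentiableAt ℝ (fun x => G0 (v x)) x :=
    (hasDerivAt_G0 _).differentiableAt.comp x (Sol_diff hv x)
  rw [pdv_mul ((c1_xil L).differentiable (by norm_num) x) h2, pdv_vert_cs h1,
    pdv_comp (hasDerivAt_G0 _) (Sol_diff hv x)]
  ring

theorem amgm {a b g lam B T : ℝ} (hl : 0 < lam) (hg : 0 ≤ g) (ha : a ^ 2 ≤ 2 * B)
    (hT0 : 0 ≤ T) (hb : b ^ 2 ≤ T * g ^ 2) : |a * b| ≤ g * (lam * B + T / lam) := by
  have hB : 0 ≤ B := by nlinarith [sq_nonneg a]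
  refine abs_le_of_sq_le_sq' ?_ (by positivity) |> abs_le.2
  have h1 : (a * b) ^ 2 ≤ 2 * B * (T * g ^ 2) := by
    rw [mul_pow]; exact mul_le_mul ha hb (sq_nonneg _) (by positivity)
  have h2 : lam * B * (T / lam) = B * T := by field_simp
  have h3 : 2 * B * T ≤ (lam * B + T / lam) ^ 2 := by
    nlinarith [sq_nonneg (lam * B), sq_nonneg (T / lam)]
  calc (a * b) ^ 2 ≤ g ^ 2 * (2 * B * T) := by linarith
    _ ≤ g ^ 2 * (lam * B + T / lam) ^ 2 := by gcongr
    _ = _ := by ring

/-- the weak inequality of `W` -/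
theorem weakW {v : EE (k + 1) → ℝ} (hv : Sol v) {L lam : ℝ} (hL : 0 < L) (hl : 0 < lam)
    {ζ : EE k → ℝ} (hζ : ContDiff ℝ 1 ζ) (hc : HasCompactSupport ζ) :
    |∫ y, gin (WW v L) ζ y| ≤
      (∫ y, ‖∇ ζ y‖ * col (fun x => xi L (x (Fin.last k)) *
        (lam * bt v (Fin.last k) x + Tn v (Fin.last k) x / lam)) y)
      + ∫ y, |ζ y| * col (fun x => |deriv (xi L) (x (Fin.last k))| * Tn v (Fin.last k) x) y := by
  have cv := Sol_cont hv
  have cp := Sol_cont_pdv hv
  have cx : Continuous fun x : EE (k + 1) => xi L (x (Fin.last k)) := (c1_xil L).continuous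
  have cdx : Continuous fun x : EE (k + 1) => deriv (xi L) (x (Fin.last k)) :=
    (cont_dxi L).comp cont_last
  have ch : Continuous fun x => hh (v x) := (contDiff_hh (m := 0)).continuous.comp cv
  have cz : ∀ l, Continuous (pdv l ζ) := fun l =>
    (contDiff_pdv (m := 0) hζ (by norm_num) l).continuous
  have sz : ∀ l, HasCompactSupport (pdv l ζ) := fun l => hasCompactSupport_pdv hc l
  have cT := cont_Tn hv (Fin.last k)
  have cb := cont_bt hv (Fin.last k)
  set P : Fin k → EE (k + 1) → ℝ := fun l x =>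
    xi L (x (Fin.last k)) * (hh (v x) * pdv l.castSucc v x) with hP
  have cP : ∀ l, Continuous (P l) := fun l => cx.mul (ch.mul (cp _))
  have vP : ∀ l, VC (2 * L) (P l) := fun l => VC.xi hL _
  have iP : ∀ l, Integrable fun x => pdv l ζ (init x) * P l x := fun l =>
    (((cz l).comp cont_init).mul (cP l)).integrable_of_hasCompactSupport (cs_prod (sz l) (vP l))
  have e1 : ∫ y, gin (WW v L) ζ y = ∫ x, ∑ l, pdv l ζ (init x) * P l x := by
    rw [integral_finsetSum _ fun l _ => iP l]
    have e0 : ∀ y, gin (WW v L) ζ y = ∑ l, col (P l) y * pdv l ζ y := fun y => by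
      simp only [gin, pdv_WW hv hL, hP]
    simp only [e0]
    rw [integral_finsetSum (f := fun l y => col (P l) y * pdv l ζ y) _ fun l _ =>
      ((cont_col (cP l) (vP l)).mul (cz l)).integrable_of_hasCompactSupport (sz l).mul_left]
    refine Finset.sum_congr rfl fun l _ => ?_
    rw [int_col (cz l) (sz l) (cP l) (vP l)]
    congr 1; funext y; ring
  -- first variation
  have hφ : ContDiff ℝ 1 fun x : EE (k + 1) => ζ (init x) * xi L (x (Fin.last k)) :=
    (hζ.comp contDiff_init).mul (c1_xil L)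
  have vx : VC (2 * L) fun x : EE (k + 1) => xi L (x (Fin.last k)) := fun x hx => xi_eq_zero hL hx
  have e2 := fv hv.isSol hφ (cs_prod hc vx) (Fin.last k)
  set Q : EE (k + 1) → ℝ := fun x => ζ (init x) * (deriv (xi L) (x (Fin.last k)) *
    Tn v (Fin.last k) x) - ∑ l : Fin k, pdv l ζ (init x) * (xi L (x (Fin.last k)) *
      (pdv (Fin.last k) v x * pdv l.castSucc v x)) with hQ
  have e3 : ∫ x, Q x = 0 := by
    rw [← e2]
    congr 1; funext x
    have d1 : DifferentiableAt ℝ ζ (init x) := hζ.differentiable (by norm_num) _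
    have d2 : DifferentiableAt ℝ (xi L) (x (Fin.last k)) :=
      (c1_xi L).differentiable (by norm_num) _
    have d3 : DifferentiableAt ℝ (fun x : EE (k + 1) => ζ (init x)) x :=
      (hζ.comp contDiff_init).differentiable (by norm_num) x
    have d4 : DifferentiableAt ℝ (fun x : EE (k + 1) => xi L (x (Fin.last k))) x :=
      (c1_xil L).differentiable (by norm_num) x
    simp only [hQ, gin_split, pdv_mul d3 d4, pdv_init_cs d1, pdv_init_last d1, pdv_vert_cs d2,
      pdv_vert_last d2, Tn, mul_add, Finset.mul_sum]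
    have : ∀ l : Fin k, pdv l ζ (init x) * (xi L (x (Fin.last k)) *
        (pdv (Fin.last k) v x * pdv l.castSucc v x)) =
        pdv (Fin.last k) v x * (pdv l.castSucc v x * (pdv l ζ (init x) * xi L (x (Fin.last k))))
          + pdv (Fin.last k) v x * (pdv l.castSucc v x * (ζ (init x) * 0)) := fun l => by ring
    simp only [this]
    ring
  have vd : VC (2 * L) fun x : EE (k + 1) => deriv (xi L) (x (Fin.last k)) * Tn v (Fin.last k) x := by
    intro x hx
    have := VC.dxi hL (fun _ => (1 : ℝ)) x hx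
    simp only [mul_one, abs_eq_zero] at this
    simp only [this, zero_mul]
  have iQ : Integrable Q := by
    refine Integrable.sub ?_ (integrable_finsetSum _ fun l _ => ?_)
    · exact ((hζ.continuous.comp cont_init).mul (cdx.mul cT)).integrable_of_hasCompactSupport
        (cs_prod hc vd)
    · exact (((cz l).comp cont_init).mul (cx.mul ((cp _).mul (cp _)))).integrable_of_hasCompactSupport
        (cs_prod (sz l) (VC.xi hL _))
  have cF : Continuous fun x => xi L (x (Fin.last k)) *
      (lam * bt v (Fin.last k) x + Tn v (Fin.last k) x / lam) :=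
    cx.mul ((continuous_const.mul cb).add (cT.div_const _))
  have cG : Continuous fun x => |deriv (xi L) (x (Fin.last k))| * Tn v (Fin.last k) x :=
    cdx.abs.mul cT
  have sa : HasCompactSupport fun y => |ζ y| := hc.abs
  rw [← int_col (cont_gradient hζ) (cs_gradient hc) cF (VC.xi hL _),
    ← int_col hζ.continuous.abs sa cG (VC.dxi hL _), e1]
  have i1 := (((cont_gradient hζ).comp cont_init).mul cF).integrable_of_hasCompactSupport
    (μ := volume) (cs_prod (cs_gradient hc) (VC.xi hL _))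
  have i2 := ((hζ.continuous.abs.comp cont_init).mul cG).integrable_of_hasCompactSupport
    (μ := volume) (cs_prod sa (VC.dxi hL _))
  have i0 : Integrable fun x => ∑ l, pdv l ζ (init x) * P l x :=
    integrable_finsetSum _ fun l _ => iP l
  rw [← add_zero (∫ x, ∑ l, pdv l ζ (init x) * P l x), ← e3, ← integral_add i0 iQ]
  refine (abs_integral_le_integral_abs).trans ?_
  refine (integral_mono (i0.add iQ).abs (i1.add i2) fun x => ?_).trans (integral_add i1 i2).le
  have h1 : ∑ l, pdv l ζ (init x) * P l x + Q x = xi L (x (Fin.last k)) *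
      ((hh (v x) - pdv (Fin.last k) v x) * ∑ l : Fin k, pdv l.castSucc v x * pdv l ζ (init x))
      + ζ (init x) * (deriv (xi L) (x (Fin.last k)) * Tn v (Fin.last k) x) := by
    simp only [hP, hQ, Finset.mul_sum]
    rw [add_sub_left_comm, ← Finset.sum_sub_distrib, add_comm]
    congr 1
    exact Finset.sum_congr rfl fun l _ => by ring
  have h2 : (∑ l : Fin k, pdv l.castSucc v x * pdv l ζ (init x)) ^ 2 ≤
      Tn v (Fin.last k) x * ‖∇ ζ (init x)‖ ^ 2 := by
    rw [← gsq_eq]
    exact (Finset.sum_mul_sq_le_sq_mul_sq _ _ _).trans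
      (mul_le_mul_of_nonneg_right (gh_le_Tn hv x) (gsq_nonneg _ _))
  have h3 := amgm hl (norm_nonneg _) (sq_le_bt v (Fin.last k) x) (Tn_nonneg hv _ x) h2
  have h4 := xi_nonneg L (x (Fin.last k))
  simp only [Pi.add_apply, Pi.mul_apply, Function.comp]
  rw [h1]
  refine (abs_add_le _ _).trans (add_le_add ?_ ?_)
  · rw [abs_mul, abs_of_nonneg h4]
    calc _ ≤ xi L (x (Fin.last k)) * (‖∇ ζ (init x)‖ *
          (lam * bt v (Fin.last k) x + Tn v (Fin.last k) x / lam)) := by gcongr
      _ = _ := by ring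
  · rw [abs_mul, abs_mul, abs_of_nonneg (Tn_nonneg hv _ x)]

theorem exists_om (k : ℕ) : ∃ om : ℝ, 0 < om ∧ ∀ (z : EE k) (ρ : ℝ), 0 < ρ →
    volume.real (ball z ρ) = om * ρ ^ k := by
  refine ⟨volume.real (ball (0 : EE k) 1), ?_, fun z ρ hρ => ?_⟩
  · exact ENNReal.toReal_pos (measure_ball_pos _ _ one_pos).ne' measure_ball_lt_top.ne
  · rw [measureReal_def, Measure.addHaar_ball_of_pos _ _ hρ, ENNReal.toReal_mul,
      ENNReal.toReal_ofReal (by positivity), finrank_euclideanSpace_fin, measureReal_def, mul_comm]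

theorem intOn_ball {f : EE n → ℝ} (hf : Continuous f) (z : EE n) (ρ : ℝ) :
    IntegrableOn f (ball z ρ) :=
  (hf.continuousOn.integrableOn_compact (isCompact_closedBall z ρ)).mono_set ball_subset_closedBall

theorem setint_mono_set {f : EE n → ℝ} {s t : Set (EE n)} (hi : IntegrableOn f t)
    (h0 : ∀ x, 0 ≤ f x) (hst : s ⊆ t) : ∫ x in s, f x ≤ ∫ x in t, f x :=
  setIntegral_mono_set hi (Eventually.of_forall h0) hst.eventuallyLE

theorem col_nonneg {f : EE (k + 1) → ℝ} (h : ∀ x, 0 ≤ f x) (y : EE k) : 0 ≤ col f y :=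
  integral_nonneg fun _ => h _

/-- `∫_{ball} col f = ∫_{cyl} f` -/
theorem int_ball_col {f : EE (k + 1) → ℝ} (hf : Continuous f) {b : ℝ} (hb0 : 0 ≤ b) (hb : VC b f)
    (ρ : ℝ) : ∫ y in ball (0 : EE k) ρ, col f y = ∫ x in cyl k ρ b, f x := by
  rw [setint_cyl hf ρ hb0]
  simp only [col_eq hb0 hb]

theorem colG (k : ℕ) : ∃ C : ℝ, 0 ≤ C ∧ ∀ (v : EE (k + 1) → ℝ) (r H : ℝ), Sol v → 1 ≤ H →
    32 * H ≤ r → Flat v r (ev (Fin.last k)) H → ∀ y : EE k, ‖y‖ ≤ r / 2 →
    col (fun x => |deriv (xi (r / 16)) (x (Fin.last k))| * Tn v (Fin.last k) x) y ≤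
      C * Real.exp (-(r / 16)) := by
  obtain ⟨C, hC, h⟩ := tail k
  obtain ⟨M, hM, -, hx⟩ := exists_cutM
  refine ⟨8 * M * C ^ 2, by positivity, fun v r H hv hH hr hF y hy => ?_⟩
  have hL : 0 < r / 16 := by linarith
  rw [col_eq (b := 2 * (r / 16)) (by linarith) (VC.dxi hL _)]
  have key : ∀ s : ℝ, ‖|deriv (xi (r / 16)) (snoc y s (Fin.last k))| *
      Tn v (Fin.last k) (snoc y s)‖ ≤ M / (r / 16) * (2 * C ^ 2 * Real.exp (-(r / 16))) := by
    intro s
    obtain ⟨h1, h2, -⟩ := hx (r / 16) s hL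
    rw [snoc_last, Real.norm_eq_abs, abs_mul, abs_abs, abs_of_nonneg (Tn_nonneg hv _ _)]
    by_cases hs : |s| ≤ r / 16 ∨ 2 * (r / 16) ≤ |s|
    · rw [h2 hs, abs_zero, zero_mul]; positivity
    push Not at hs
    refine mul_le_mul h1 ?_ (Tn_nonneg hv _ _) (by positivity)
    refine ((Tn_le _ _ _).trans (en_le hv _)).trans ?_
    rw [hh_sq]
    obtain ⟨t1, t2⟩ := h v r H hv (by linarith) hF y s hy (by linarith)
    have hb := abs_lt.1 (hv.lt (snoc y s))
    have e2 : Real.exp (-(r / 16)) = Real.exp (-(r / 32)) ^ 2 := by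
      rw [← Real.exp_nat_mul]; congr 1; push_cast; ring
    have main : ∀ a : ℝ, 0 ≤ a → a ≤ C * Real.exp (-(r / 32)) → a ≤ 2 →
        (a * (2 - a)) ^ 2 / 2 ≤ 2 * C ^ 2 * Real.exp (-(r / 16)) := by
      intro a a0 a1 a2
      have : (a * (2 - a)) ^ 2 ≤ (C * Real.exp (-(r / 32)) * 2) ^ 2 := by
        gcongr
        linarith
      rw [e2]; nlinarith
    rcases le_or_gt 0 s with s0 | s0
    · rw [abs_of_nonneg s0] at hs
      have := main (1 - v (snoc y s)) (by linarith) ((t1 (by linarith)).trans (by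
        gcongr; linarith)) (by linarith)
      calc _ = ((1 - v (snoc y s)) * (2 - (1 - v (snoc y s)))) ^ 2 / 2 := by ring
        _ ≤ _ := this
    · rw [abs_of_neg s0] at hs
      have := main (1 + v (snoc y s)) (by linarith) ((t2 (by linarith)).trans (by
        gcongr; linarith)) (by linarith)
      calc _ = ((1 + v (snoc y s)) * (2 - (1 + v (snoc y s)))) ^ 2 / 2 := by ring
        _ ≤ _ := this
  have := intervalIntegral.norm_integral_le_of_norm_le_const (a := -(2 * (r / 16)))
    (b := 2 * (r / 16)) fun s _ => key s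
  refine (le_abs_self _).trans (this.trans (le_of_eq ?_))
  rw [abs_of_nonneg (by linarith)]
  have : r ≠ 0 := ne_of_gt (by linarith)
  field_simp
  ring

/-- `lineA` on a column -/
theorem colA (k : ℕ) (M : ℝ) (hM : 0 ≤ M) : ∃ C : ℝ, 0 ≤ C ∧ ∀ (v : EE (k + 1) → ℝ) (r H : ℝ),
    Sol v → 1 ≤ H → 32 * H ≤ r → Flat v r (ev (Fin.last k)) H → ∀ (y : EE k) (l : ℝ),
    ‖y‖ ≤ r / 2 → |l| ≤ M * H → |l| ≤ r / 16 → |WW v (r / 16) y| ≤ C * H ∧
    ∫ s in (-(r / 16))..(r / 16), |s - l| * en v (snoc y s) ≤ |s0 * l + WW v (r / 16) y| + C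
      + C * H * ∫ s in (-(r / 16))..(r / 16), bt v (Fin.last k) (snoc y s) := by
  obtain ⟨C0, hC0, h0⟩ := tail k
  obtain ⟨C, hC, h⟩ := lineA C0 M hC0 hM
  refine ⟨C, hC, fun v r H hv hH hr hF y l hy l1 l2 => ?_⟩
  have ht := h0 v r H hv (by linarith) hF y
  have := h (fun s => v (snoc y s)) (fun s => pdv (Fin.last k) v (snoc y s))
    (fun s => en v (snoc y s)) (r / 16) H l (fun s => hasDerivAt_snoc (Sol_diff hv _))
    ((Sol_cont_pdv hv _).comp (cont_snoc y)) ((cont_en hv).comp (cont_snoc y))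
    (fun s => (hv.lt _).le) (fun s => psi_sq_le v _)
    (fun s => by have := en_le hv (snoc y s); rw [hh_sq] at this; linarith)
    (fun s => by have := bt_nonneg v (Fin.last k) (snoc y s); unfold bt at this; linarith)
    (fun s => by
      have := bt_le hv (Fin.last k) (snoc y s); rw [hh_sq] at this; unfold bt at this; linarith)
    hH (by linarith) l1 l2
    (fun s s1 s2 => (ht s hy (by rw [abs_of_nonneg (by linarith)]; linarith)).1 s1)
    (fun s s1 s2 => (ht s hy (by rw [abs_of_nonpos (by linarith)]; linarith)).2 s1)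
  simpa only [WW, col, snoc_last, bt] using this

theorem sq_exp_le {r : ℝ} (hr : 0 ≤ r) : r ^ 2 * Real.exp (-(r / 16)) ≤ 512 := by
  have h := Real.quadratic_le_exp_of_nonneg (x := r / 16) (by linarith)
  rw [Real.exp_neg, ← div_eq_mul_inv, div_le_iff₀ (Real.exp_pos _)]
  nlinarith

/-- affine approximation of `W` -/
theorem approx (k : ℕ) : ∃ B : ℝ, 0 ≤ B ∧ ∀ (θ η : ℝ) (v : EE (k + 1) → ℝ) (r H : ℝ), 0 < θ →
    θ ≤ 1 → 0 < η → Sol v → SLp v → 1 ≤ H → 32 * H ≤ r → Flat v r (ev (Fin.last k)) H →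
    ∃ (a : ℝ) (p : EE k), |a| ≤ B * H ∧ r * ‖p‖ ≤ B * H ∧
      ∫ y in ball (0 : EE k) (θ * (r / 8)), |WW v (r / 16) y - a - ⟪p, y⟫| ≤
        B * (θ ^ 2 * H * (θ * r) ^ k + H * (η + (H / r + Real.exp (-H)) / η) * r ^ k + r ^ k) := by
  obtain ⟨C1, hC1, h1⟩ := colA k 0 le_rfl
  obtain ⟨C2, hC2, h2⟩ := ha k
  obtain ⟨C3, hC3, h3⟩ := colG k
  obtain ⟨C4, hC4, h4⟩ := cac k
  obtain ⟨C5, hC5, h5⟩ := tilt k
  refine ⟨C1 + 8 * C2 * C1 + C2 * C4 + C2 * C5 + 512 * C2 * C3, by positivity,
    fun θ η v r H hθ hθ1 hη hv hs hH hr hF => ?_⟩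
  have r0 : 0 < r := by linarith
  have H0 : 0 < H := by linarith
  have hL : 0 < r / 16 := by linarith
  set lam := H / r / η with hlam
  have hl : 0 < lam := by positivity
  set β := H / r + Real.exp (-H) with hβ
  have β0 : 0 ≤ β := by positivity
  set f : EE (k + 1) → ℝ := fun x => xi (r / 16) (x (Fin.last k)) *
    (lam * bt v (Fin.last k) x + Tn v (Fin.last k) x / lam) with hf
  have cT := cont_Tn hv (Fin.last k)
  have cb := cont_bt hv (Fin.last k)
  have cf0 : Continuous fun x => lam * bt v (Fin.last k) x + Tn v (Fin.last k) x / lam :=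
    (continuous_const.mul cb).add (cT.div_const _)
  have cf : Continuous f := (c1_xil _).continuous.mul cf0
  have vf : VC (2 * (r / 16)) f := VC.xi hL _
  have f00 : ∀ x, 0 ≤ lam * bt v (Fin.last k) x + Tn v (Fin.last k) x / lam := fun x =>
    add_nonneg (mul_nonneg hl.le (bt_nonneg _ _ _)) (div_nonneg (Tn_nonneg hv _ _) hl.le)
  have f0 : ∀ x, 0 ≤ f x := fun x => mul_nonneg (xi_nonneg _ _) (f00 x)
  obtain ⟨a, p, a1, a2, a3⟩ := h2 (WW v (r / 16)) (col f) (C3 * Real.exp (-(r / 16))) (r / 8)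
    (C1 * H) θ (c1_WW hv hL) (cont_col cf vf) (col_nonneg f0) (by positivity) (by linarith) hθ hθ1
    (fun y hy => (h1 v r H hv hH hr hF y 0 (by linarith) (by simp) (by simpa using hL.le)).1)
    (fun ζ hζ hc ht => by
      refine (weakW hv hL hl hζ hc).trans ?_
      have cG : Continuous fun x : EE (k + 1) =>
          |deriv (xi (r / 16)) (x (Fin.last k))| * Tn v (Fin.last k) x :=
        ((cont_dxi _).comp cont_last).abs.mul cT
      have sa : HasCompactSupport fun y => |ζ y| := hc.abs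
      have i1 : Integrable fun y => col f y * ‖∇ ζ y‖ :=
        ((cont_col cf vf).mul (cont_gradient hζ)).integrable_of_hasCompactSupport
          (cs_gradient hc).mul_left
      have i2 : Integrable fun y => C3 * Real.exp (-(r / 16)) * |ζ y| :=
        (hζ.continuous.abs.integrable_of_hasCompactSupport sa).const_mul _
      rw [integral_add i1 i2]
      refine add_le_add (le_of_eq ?_) (integral_mono ?_ i2 fun y => ?_)
      · congr 1; funext y; rw [mul_comm]
      · exact (hζ.continuous.abs.mul (cont_col cG (VC.dxi hL _))).integrable_of_hasCompactSupport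
          sa.mul_right
      · by_cases hy : y ∈ tsupport ζ
        · have := mem_ball_zero_iff.1 (ht hy)
          simp only
          rw [mul_comm]
          exact mul_le_mul_of_nonneg_right (h3 v r H hv hH hr hF y (by linarith)) (abs_nonneg _)
        · simp only [image_eq_zero_of_notMem_tsupport hy, abs_zero, zero_mul, mul_zero, le_refl])
  have e1 : ∫ y in ball (0 : EE k) (2 * (r / 8)), col f y ≤
      H / r * (C5 * (β / η) + C4 * η) * r ^ k := by
    rw [int_ball_col cf (by linarith) vf, show 2 * (r / 8) = r / 4 by ring,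
      show 2 * (r / 16) = r / 8 by ring]
    have i1 := integrableOn_cyl cb (r / 4) (r / 8)
    have i2 := integrableOn_cyl cT (r / 4) (r / 8)
    calc _ ≤ ∫ x in cyl k (r / 4) (r / 8),
          (lam * bt v (Fin.last k) x + Tn v (Fin.last k) x / lam) :=
          integral_mono (integrableOn_cyl cf _ _) (integrableOn_cyl cf0 _ _) fun x =>
            mul_le_of_le_one_left (f00 x) (xi_le_one _ _)
      _ = lam * (∫ x in cyl k (r / 4) (r / 8), bt v (Fin.last k) x)
          + (∫ x in cyl k (r / 4) (r / 8), Tn v (Fin.last k) x) / lam := by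
          rw [integral_add (i1.const_mul _) (i2.div_const _), integral_const_mul, integral_div]
      _ ≤ lam * (C5 * β * r ^ k) + C4 * (H / r) ^ 2 * r ^ k / lam := by
          gcongr
          · exact h5 v r H hv hs hH hr hF
          · exact h4 v r H hv hs hH hr hF
      _ = _ := by rw [hlam]; field_simp
  have hrk : 0 ≤ r ^ k := by positivity
  refine ⟨a, p, a1.trans ?_, ?_, a3.trans ?_⟩
  · have : 0 ≤ (8 * C2 * C1 + C2 * C4 + C2 * C5 + 512 * C2 * C3) * H := by positivity
    linarith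
  · have : 0 ≤ (C1 + C2 * C4 + C2 * C5 + 512 * C2 * C3) * H := by positivity
    linarith
  · have t1 : θ ^ 2 * (C1 * H) * (θ * (r / 8)) ^ k ≤ C1 * (θ ^ 2 * H * (θ * r) ^ k) := by
      calc _ ≤ θ ^ 2 * (C1 * H) * (θ * r) ^ k := by gcongr; linarith
        _ = _ := by ring
    have t2 : r / 8 * ∫ y in ball (0 : EE k) (2 * (r / 8)), col f y ≤
        (C4 + C5) * (H * (η + β / η) * r ^ k) := by
      calc _ ≤ r * (H / r * (C5 * (β / η) + C4 * η) * r ^ k) :=
            mul_le_mul (by linarith) e1 (integral_nonneg (col_nonneg f0)) r0.le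
        _ = H * (C5 * (β / η) + C4 * η) * r ^ k := by field_simp
        _ ≤ H * ((C4 + C5) * (η + β / η)) * r ^ k := by
            have : 0 ≤ C4 * (β / η) + C5 * η := by positivity
            gcongr; linarith
        _ = _ := by ring
    have t3 : (r / 8) ^ 2 * (C3 * Real.exp (-(r / 16))) * (r / 8) ^ k ≤ 512 * C3 * r ^ k := by
      calc _ ≤ r ^ 2 * (C3 * Real.exp (-(r / 16))) * r ^ k := by gcongr <;> linarith
        _ = C3 * (r ^ 2 * Real.exp (-(r / 16))) * r ^ k := by ring
        _ ≤ C3 * 512 * r ^ k := by gcongr; exact sq_exp_le r0.le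
        _ = _ := by ring
    set X := θ ^ 2 * H * (θ * r) ^ k
    set Y := H * (η + β / η) * r ^ k
    have X0 : 0 ≤ X := by positivity
    have Y0 : 0 ≤ Y := by positivity
    calc _ ≤ C2 * (C1 * X + (C4 + C5) * Y + 512 * C3 * r ^ k) := by gcongr
      _ ≤ _ := by
        have : 0 ≤ (C1 + 7 * C2 * C1 + C2 * C4 + C2 * C5 + 512 * C2 * C3) * X
          + (C1 + 8 * C2 * C1 + 512 * C2 * C3) * Y
          + (C1 + 8 * C2 * C1 + C2 * C4 + C2 * C5) * r ^ k := by positivity
        linarith

end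

end Crest.Agent.N067.E
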