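import Crest.Agent.N067.E.MV
import Crest.Agent.N067.E.Step1

/-! # E/Step (helper69): one step of the improvement of flatness, `e = e_last` -/

set_option autoImplicit false

open MeasureTheory Laplacian InnerProductSpace Topology Filter Set Metric
open scoped RealInnerProductSpace ContDiff Gradient

namespace Crest.Agent.N067.E

open Crest.Agent.R077

noncomputable section

variable {n k : ℕ}

theorem cyl_mono {ρ ρ' b b' : ℝ} (h1 : ρ ≤ ρ') (h2 : b ≤ b') : cyl k ρ b ⊆ cyl k ρ' b' :=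
  fun _ hx => ⟨hx.1.trans_le h1, hx.2.trans_le h2⟩

theorem ball_sub_cyl {z : EE (k + 1)} {ρ ρ' b : ℝ} (h1 : ‖z‖ + ρ ≤ ρ') (h2 : ‖z‖ + ρ ≤ b) :
    ball z ρ ⊆ cyl k ρ' b := by
  intro x hx
  have h : ‖x‖ < ‖z‖ + ρ := by
    have := norm_le_norm_add_norm_sub' x z
    have := mem_ball_iff_norm.1 hx
    linarith
  exact ⟨by linarith [norm_init_le x], by linarith [abs_last_le x]⟩

theorem cont_aff (a : EE n) (c : ℝ) : Continuous fun x : EE n => ⟪a, x⟫ - c :=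
  (continuous_const.inner continuous_id).sub continuous_const

theorem norm_snoc_one (p : EE k) : 1 ≤ ‖snoc p 1‖ ∧ ‖snoc p 1‖ ≤ ‖p‖ + 1 := by
  have h1 := abs_last_le (snoc p 1)
  have h2 := norm_le_split (snoc p 1)
  rw [snoc_last, abs_one] at h1 h2
  rw [init_snoc] at h2
  exact ⟨h1, h2⟩

/-- the energy is concentrated near an affine graph -/
theorem height (k : ℕ) : ∃ B : ℝ, 32 ≤ B ∧ ∀ (θ η : ℝ) (v : EE (k + 1) → ℝ) (r H : ℝ), 0 < θ →
    θ ≤ 1 → 0 < η → η ≤ 1 → Sol v → SLp v → 1 ≤ H → B * H ≤ r → Flat v r (ev (Fin.last k)) H →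
    ∃ (p : EE k) (c : ℝ), ‖p‖ ≤ 1 ∧
      ∫ x in cyl k (θ * (r / 8)) (r / 16), |⟪snoc p 1, x⟫ - c| * en v x ≤
        B * (θ ^ 2 * H * (θ * r) ^ k + H * (η + (H / r + Real.exp (-H)) / η) * r ^ k + r ^ k) := by
  obtain ⟨B1, hB1, h1⟩ := approx k
  have s0p := s0_pos
  obtain ⟨C2, hC2, h2⟩ := colA k (2 * B1 / s0) (by positivity)
  obtain ⟨C5, hC5, h5⟩ := tilt k
  obtain ⟨om, hom, hvol⟩ := exists_om k
  have hM : 0 ≤ B1 / s0 := by positivity
  have p1 : 0 ≤ C2 * om := by positivity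
  have p2 : 0 ≤ C2 * C5 := by positivity
  refine ⟨32 + 32 * (B1 / s0) + B1 + C2 * om + C2 * C5, by linarith,
    fun θ η v r H hθ hθ1 hη hη1 hv hs hH hr hF => ?_⟩
  have H0 : 0 < H := by linarith
  have q1 : 0 ≤ B1 / s0 * H := by positivity
  have q2 : 0 ≤ (B1 + C2 * om + C2 * C5) * H := by positivity
  have hr1 : 32 * H ≤ r := by linarith
  have hr2 : 32 * (B1 / s0 * H) ≤ r := by linarith
  have r0 : 0 < r := by linarith
  obtain ⟨a, p, a1, a2, a3⟩ := h1 θ η v r H hθ hθ1 hη hv hs hH hr1 hF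
  set β := H / r + Real.exp (-H) with hβ
  have β0 : 0 ≤ β := by positivity
  have hρ : θ * (r / 8) ≤ r / 8 := mul_le_of_le_one_left (by linarith) hθ1
  refine ⟨s0⁻¹ • p, -(a / s0), ?_, ?_⟩
  · rw [norm_smul, norm_inv, Real.norm_eq_abs, abs_of_pos s0p]
    refine le_of_mul_le_mul_left ?_ r0
    calc r * (s0⁻¹ * ‖p‖) = s0⁻¹ * (r * ‖p‖) := by ring
      _ ≤ s0⁻¹ * (B1 * H) := by gcongr
      _ = B1 / s0 * H := by ring
      _ ≤ r * 1 := by linarith
  have ce := cont_en hv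
  have cb := cont_bt hv (Fin.last k)
  have cf : Continuous fun x => |⟪snoc (s0⁻¹ • p) 1, x⟫ - -(a / s0)| * en v x :=
    (cont_aff _ _).abs.mul ce
  have cW : Continuous fun y => |WW v (r / 16) y - a - ⟪p, y⟫| :=
    (((c1_WW hv (by linarith)).continuous.sub continuous_const).sub
      (continuous_const.inner continuous_id)).abs
  have cI := cont_icol cb (-(r / 16)) (r / 16)
  have i1 := intOn_ball cW 0 (θ * (r / 8))
  have i2 : IntegrableOn (fun _ : EE k => C2) (ball 0 (θ * (r / 8))) :=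
    intOn_ball continuous_const _ _
  have i3 := (intOn_ball cI 0 (θ * (r / 8))).const_mul (C2 * H)
  rw [setint_cyl cf _ (by linarith)]
  have step : ∫ y in ball (0 : EE k) (θ * (r / 8)), ∫ s in (-(r / 16))..(r / 16),
      |⟪snoc (s0⁻¹ • p) 1, snoc y s⟫ - -(a / s0)| * en v (snoc y s) ≤
      ∫ y in ball (0 : EE k) (θ * (r / 8)), (|WW v (r / 16) y - a - ⟪p, y⟫| + C2
        + C2 * H * ∫ s in (-(r / 16))..(r / 16), bt v (Fin.last k) (snoc y s)) := by
    refine setIntegral_mono_on (intOn_ball (cont_icol cf _ _) _ _) ((i1.add i2).add i3)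
      measurableSet_ball fun y hy => ?_
    have hy' := mem_ball_zero_iff.1 hy
    have l1 : |-((a + ⟪p, y⟫) / s0)| ≤ 2 * B1 / s0 * H := by
      rw [abs_neg, abs_div, abs_of_pos s0p, div_mul_eq_mul_div]
      gcongr
      have b1 := abs_real_inner_le_norm p y
      have b2 : ‖p‖ * ‖y‖ ≤ ‖p‖ * r := by gcongr; linarith
      have b3 := abs_add_le a ⟪p, y⟫
      linarith
    have := (h2 v r H hv hH hr1 hF y _ (by linarith) l1 (l1.trans (by
      have : 2 * B1 / s0 * H = 2 * (B1 / s0 * H) := by ring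
      linarith))).2
    have e1 : s0 * -((a + ⟪p, y⟫) / s0) + WW v (r / 16) y = WW v (r / 16) y - a - ⟪p, y⟫ := by
      field_simp; ring
    have e2 : ∀ s, ⟪snoc (s0⁻¹ • p) 1, snoc y s⟫ - -(a / s0) = s - -((a + ⟪p, y⟫) / s0) := by
      intro s
      rw [inner_snoc, init_snoc, snoc_last, real_inner_smul_left]
      field_simp; ring
    simp only [e2]
    rwa [e1] at this
  refine step.trans ?_
  have i12 : IntegrableOn (fun y => |WW v (r / 16) y - a - ⟪p, y⟫| + C2) (ball 0 (θ * (r / 8))) :=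
    i1.add i2
  rw [integral_add i12 i3, integral_add i1 i2, integral_const_mul, setIntegral_const,
    hvol _ _ (by positivity), ← setint_cyl cb _ (by linarith), smul_eq_mul]
  have t1 : ∫ x in cyl k (θ * (r / 8)) (r / 16), bt v (Fin.last k) x ≤ C5 * (β / η) * r ^ k := by
    refine ((setint_mono_set (integrableOn_cyl cb (r / 4) (r / 8)) (bt_nonneg _ _)
      (cyl_mono (by linarith) (by linarith))).trans (h5 v r H hv hs hH hr1 hF)).trans ?_
    gcongr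
    exact le_div_self β0 hη hη1
  have t2 : (θ * (r / 8)) ^ k ≤ r ^ k := by gcongr; linarith
  have t3 : β / η ≤ η + β / η := by linarith
  set X := θ ^ 2 * H * (θ * r) ^ k
  have X0 : 0 ≤ X := by positivity
  have hrk : 0 ≤ r ^ k := by positivity
  set Y := H * (η + β / η) * r ^ k with hY
  have Y0 : 0 ≤ Y := by positivity
  calc _ ≤ B1 * (X + Y + r ^ k) + om * r ^ k * C2 + C2 * H * (C5 * (η + β / η) * r ^ k) := by
        gcongr
        exact t1.trans (by gcongr)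
    _ = B1 * (X + Y + r ^ k) + C2 * om * r ^ k + C2 * C5 * Y := by rw [hY]; ring
    _ ≤ _ := by
        have : 0 ≤ (32 + 32 * (B1 / s0)) * (X + Y + r ^ k) + C2 * om * (X + Y)
          + C2 * C5 * (X + r ^ k) := by positivity
        linarith

theorem zb_alg {A B1 C2 C3 T X Q Y : ℝ} (hT : 1 ≤ T) (hX : 0 ≤ X) (hQ : 1 ≤ Q) (hY : 0 ≤ Y)
    (hB : 32 ≤ B1) (h2 : 0 ≤ C2) (h3 : 0 ≤ C3)
    (h : A - 2 ≤ C2 * (C3 + B1 * (X * T + Q * (Y + 1)))) :
    A ≤ (B1 + (C2 * C3 + C2 * B1 * T)) * (X + Q * (Y + 1)) := by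
  have Z1 : 1 ≤ Q * (Y + 1) := by nlinarith
  generalize Q * (Y + 1) = Z at *
  have B0 : 0 ≤ B1 := by linarith
  have u1 : C2 * B1 * Z * 1 ≤ C2 * B1 * Z * T :=
    mul_le_mul_of_nonneg_left hT (mul_nonneg (mul_nonneg h2 B0) (by linarith))
  have u2 : C2 * C3 ≤ C2 * C3 * Z := le_mul_of_one_le_right (by positivity) Z1
  have u3 : 2 ≤ B1 * Z := by nlinarith
  have u4 : 0 ≤ (B1 + C2 * C3) * X := by positivity
  linarith

/-- zeros are near an affine graph -/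
theorem zero_bound (k : ℕ) (hk : 1 ≤ k) : ∃ B : ℝ, 32 ≤ B ∧
    ∀ (θ η : ℝ) (v : EE (k + 1) → ℝ) (r H : ℝ), 0 < θ → θ ≤ 1 / 2 → 0 < η → η ≤ 1 → Sol v → SLp v →
    1 ≤ H → B * H ≤ r → 32 ≤ θ * r → Flat v r (ev (Fin.last k)) H →
    ∃ (p : EE k) (c : ℝ), ‖p‖ ≤ 1 ∧ ∀ z, ‖z‖ < θ * r / 16 → v z = 0 → |⟪snoc p 1, z⟫ - c| ≤
      B * (θ ^ 2 * H + (16 / θ) ^ k * (H * (η + (H / r + Real.exp (-H)) / η) + 1)) := by
  obtain ⟨B1, hB1, h1⟩ := height k
  obtain ⟨C2, hC2, h2⟩ := mv k hk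
  obtain ⟨C3, hC3, h3⟩ := exists_EN k
  have p1 : 0 ≤ C2 * C3 + C2 * B1 * 16 ^ k := by positivity
  refine ⟨B1 + (C2 * C3 + C2 * B1 * 16 ^ k), by linarith,
    fun θ η v r H hθ hθ1 hη hη1 hv hs hH hr hr2 hF => ?_⟩
  have H0 : 0 < H := by linarith
  have hr1 : B1 * H ≤ r := by nlinarith
  have r0 : 0 < r := by nlinarith
  obtain ⟨p, c, hp, hI⟩ := h1 θ η v r H hθ (by linarith) hη hη1 hv hs hH hr1 hF
  refine ⟨p, c, hp, fun z hz hz0 => ?_⟩
  set β := H / r + Real.exp (-H) with hβ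
  have β0 : 0 ≤ β := by positivity
  set ρ := θ * r / 16 with hρ
  have ρ0 : 0 < ρ := by linarith
  set Q := (16 / θ) ^ k with hQ
  have Q1 : 1 ≤ Q := one_le_pow₀ (by rw [le_div_iff₀ hθ]; linarith)
  have e1 : r ^ k = Q * ρ ^ k := by
    rw [hQ, hρ, ← mul_pow]; congr 1; field_simp
  have e2 : (θ * r) ^ k = 16 ^ k * ρ ^ k := by
    rw [hρ, ← mul_pow]; congr 1; field_simp
  have ce := cont_en hv
  have cf : Continuous fun x => |⟪snoc p 1, x⟫ - c| * en v x := (cont_aff _ _).abs.mul ce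
  have m1 := h2 v hv z (snoc p 1) c ρ hz0 (by linarith)
  have m2 : ∫ x in ball z ρ, Real.sqrt (1 + (⟪snoc p 1, x⟫ - c) ^ 2) * en v x ≤
      (∫ x in ball z ρ, en v x) + ∫ x in ball z ρ, |⟪snoc p 1, x⟫ - c| * en v x := by
    rw [← integral_add (intOn_ball ce _ _) (intOn_ball cf _ _)]
    refine integral_mono (intOn_ball ((continuous_const.add ((cont_aff _ _).pow 2)).sqrt.mul ce) _ _)
      ((intOn_ball ce _ _).add (intOn_ball cf _ _)) fun x => ?_
    have : Real.sqrt (1 + (⟪snoc p 1, x⟫ - c) ^ 2) ≤ 1 + |⟪snoc p 1, x⟫ - c| := by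
      refine Real.sqrt_le_iff.2 ⟨by positivity, ?_⟩
      nlinarith [abs_nonneg (⟪snoc p 1, x⟫ - c), sq_abs (⟪snoc p 1, x⟫ - c)]
    have := mul_le_mul_of_nonneg_right this (Aac.en_nonneg v x)
    simp only
    linarith
  have m3 : ∫ x in ball z ρ, |⟪snoc p 1, x⟫ - c| * en v x ≤
      ∫ x in cyl k (θ * (r / 8)) (r / 16), |⟪snoc p 1, x⟫ - c| * en v x := by
    refine setint_mono_set (integrableOn_cyl cf _ _)
      (fun x => mul_nonneg (abs_nonneg _) (Aac.en_nonneg v x)) (ball_sub_cyl ?_ ?_)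
    · linarith
    · nlinarith
  have m4 := h3 v hv hs z ρ ρ0
  have n1 := (norm_snoc_one p).2
  set Y := H * (η + β / η) with hY
  have Y0 : 0 ≤ Y := by positivity
  have ρk : 0 < ρ ^ k := by positivity
  have m5 : ρ ^ k * (|⟪snoc p 1, z⟫ - c| - 2) ≤
      ρ ^ k * (C2 * (C3 + B1 * (θ ^ 2 * H * 16 ^ k + Q * (Y + 1)))) := by
    calc _ ≤ ρ ^ k * max 1 (|⟪snoc p 1, z⟫ - c| - ‖snoc p 1‖) := by
          gcongr; exact le_trans (by linarith) (le_max_right _ _)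
      _ ≤ C2 * (C3 * ρ ^ k + B1 * (θ ^ 2 * H * (θ * r) ^ k + Y * r ^ k + r ^ k)) := by
          refine m1.trans ?_
          gcongr
          linarith
      _ = _ := by rw [e1, e2]; ring
  have m6 := le_of_mul_le_mul_left m5 ρk
  exact zb_alg (one_le_pow₀ (by norm_num)) (by positivity) Q1 Y0 hB1 hC2.le hC3 m6

theorem pos_of_no_zero {v : EE n → ℝ} (hv : Continuous v) {S : Set (EE n)} (hS : Convex ℝ S)
    (hz : ∀ x ∈ S, v x ≠ 0) {x0 : EE n} (h0 : x0 ∈ S) (hp : 0 < v x0) {x : EE n} (hx : x ∈ S) :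
    0 < v x := by
  by_contra h
  obtain ⟨y, hy, hy0⟩ := hS.isPreconnected.intermediate_value hx h0 hv.continuousOn
    ⟨not_lt.1 h, hp.le⟩
  exact hz y hy hy0

theorem convex_cap (e : EE n) (R D : ℝ) : Convex ℝ {x : EE n | ‖x‖ < R ∧ D < ⟪e, x⟫} := by
  have h1 : Convex ℝ {x : EE n | D < ⟪e, x⟫} :=
    convex_halfSpace_gt (innerSL ℝ e).toLinearMap.isLinear D
  have h2 : Convex ℝ {x : EE n | ‖x‖ < R} := by
    simpa only [ball, dist_zero_right] using convex_ball (0 : EE n) R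
  exact h2.inter h1

theorem flat_of_zeros {v : EE n → ℝ} (hv : Continuous v) {e x0 : EE n} {R D : ℝ}
    (hz : ∀ z, ‖z‖ < R → v z = 0 → |⟪e, z⟫| ≤ D) (h1 : ‖x0‖ < R) (h2 : D < ⟪e, x0⟫)
    (h3 : 0 < v x0) (h4 : v (-x0) < 0) : Flat v R e D := by
  refine ⟨fun x a b => pos_of_no_zero hv (convex_cap e R D) (fun y hy h => ?_) ⟨h1, h2⟩ h3 ⟨a, b⟩,
    fun x a b => ?_⟩
  · exact absurd ((le_abs_self _).trans (hz y hy.1 h)) (not_le.2 hy.2)
  · have := pos_of_no_zero (x0 := -x0) (x := x) hv.neg (convex_cap (-e) R D) (fun y hy h => ?_)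
      ⟨by rwa [norm_neg], by rwa [inner_neg_neg]⟩ (neg_pos.2 h4)
      ⟨a, by rw [inner_neg_left]; linarith⟩
    · exact neg_pos.1 this
    · have h5 := hy.2
      rw [inner_neg_left] at h5
      exact absurd ((neg_le_abs _).trans (hz y hy.1 (neg_eq_zero.1 h))) (not_le.2 h5)

theorem step0 (k : ℕ) (hk : 1 ≤ k) : ∃ θ ε0 K : ℝ, 0 < θ ∧ θ < 1 ∧ 0 < ε0 ∧ 0 < K ∧
    ∀ (v : EE (k + 1) → ℝ) (r H : ℝ), Sol v → SLp v → v 0 = 0 → K ≤ H → H ≤ ε0 * r →
      Flat v r (ev (Fin.last k)) H → ∃ e : EE (k + 1), ‖e‖ = 1 ∧ Flat v (θ * r) e (θ * H / 2) := by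
  obtain ⟨B, hB, h⟩ := zero_bound k hk
  have B0 : 0 < B := by linarith
  obtain ⟨θ, hθ, hθB⟩ : ∃ θ : ℝ, 0 < θ ∧ B * θ = 1 / 256 :=
    ⟨1 / 256 / B, by positivity, by field_simp⟩
  have θ1 : θ ≤ 1 / 2 := by nlinarith
  set Q := (16 / θ) ^ k with hQ
  have Q1 : 1 ≤ Q := one_le_pow₀ (by rw [le_div_iff₀ hθ]; linarith)
  obtain ⟨η, hη, hηB⟩ : ∃ η : ℝ, 0 < η ∧ B * Q * η = θ / 256 :=
    ⟨θ / 256 / (B * Q), by positivity, by field_simp⟩
  have BQ : 32 ≤ B * Q := by nlinarith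
  have η1 : η ≤ θ / 256 := by nlinarith
  have η2 : η * B ≤ 1 := by nlinarith
  refine ⟨θ / 16, η ^ 2 / 2, 2 / η ^ 2, by positivity, by linarith, by positivity, by positivity,
    fun v r H hv hs h0 hK hH hF => ?_⟩
  have e2 : 0 < η ^ 2 := by positivity
  rw [div_le_iff₀ e2] at hK
  have η3 : η ≤ 1 := by linarith
  have η4 : η ^ 2 ≤ η := by nlinarith
  have H0 : 0 < H := by
    by_contra hc
    nlinarith [mul_nonneg (neg_nonneg.2 (not_lt.1 hc)) e2.le]
  have Hη : 2 ≤ H * η := by nlinarith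
  have H1 : 1 ≤ H := by nlinarith
  have r0 : 0 < r := by
    by_contra hc
    nlinarith [mul_nonneg (neg_nonneg.2 (not_lt.1 hc)) e2.le]
  have Hr : 2 * H ≤ η * r := by nlinarith
  have Hr2 : 512 * H ≤ θ * r := by nlinarith
  have Hr3 : B * H ≤ r := by nlinarith
  obtain ⟨p, c, hp, hz⟩ := h θ η v r H hθ θ1 hη η3 hv hs H1 Hr3 (by linarith) hF
  have b1 : (H / r + Real.exp (-H)) / η ≤ η := by
    rw [div_le_iff₀ hη]
    have a1 : H / r ≤ η ^ 2 / 2 := by rw [div_le_iff₀ r0]; exact hH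
    have a2 : Real.exp (-H) ≤ η ^ 2 / 2 := by
      rw [Real.exp_neg, inv_le_comm₀ (Real.exp_pos _) (by positivity), inv_div, div_le_iff₀ e2]
      nlinarith [Real.add_one_le_exp H]
    nlinarith
  have b2 : B * (θ ^ 2 * H + Q * (H * (η + (H / r + Real.exp (-H)) / η) + 1)) ≤ θ * H / 64 := by
    calc _ ≤ B * (θ ^ 2 * H + Q * (H * (η + η) + H * η)) := by gcongr; linarith
      _ = B * θ * (θ * H) + 3 * (B * Q * η) * H := by ring
      _ = _ := by rw [hθB, hηB]; ring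
  have c0 : |c| ≤ θ * H / 64 := by
    have := (hz 0 (by rw [norm_zero]; positivity) h0).trans b2
    rwa [inner_zero_right, zero_sub, abs_neg] at this
  obtain ⟨n1, n2⟩ := norm_snoc_one p
  set a := snoc p 1 with ha
  have a0 : 0 < ‖a‖ := by linarith
  have θr : θ * r ≤ r / 2 := by nlinarith
  have θH : θ * H ≤ H / 2 := by nlinarith
  have nx : ‖(θ * r / 32) • (ev (Fin.last k) : EE (k + 1))‖ = θ * r / 32 := by
    rw [norm_smul, PiLp.norm_single, norm_one, mul_one, Real.norm_eq_abs,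
      abs_of_pos (by linarith)]
  have lx : ⟪ev (Fin.last k), (θ * r / 32) • (ev (Fin.last k) : EE (k + 1))⟫ = θ * r / 32 := by
    rw [inner_last]; simp
  refine ⟨‖a‖⁻¹ • a, norm_smul_inv_norm (norm_pos_iff.1 a0), flat_of_zeros (Sol_cont hv)
    (x0 := (θ * r / 32) • ev (Fin.last k)) (fun z a1 a2 => ?_) (by rw [nx]; linarith) ?_
    (hF.1 _ (by rw [nx]; linarith) (by rw [lx]; linarith))
    (hF.2 _ (by rw [norm_neg, nx]; linarith) (by rw [inner_neg_right, lx]; linarith))⟩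
  · have d1 := (hz z (by linarith) a2).trans b2
    have d2 := abs_add_le (⟪a, z⟫ - c) c
    rw [sub_add_cancel] at d2
    rw [real_inner_smul_left, abs_mul, abs_inv, abs_norm]
    calc _ ≤ 1 * |⟪a, z⟫| := by gcongr; exact inv_le_one_of_one_le₀ n1
      _ ≤ _ := by linarith
  · have d1 : ⟪a, (θ * r / 32) • (ev (Fin.last k) : EE (k + 1))⟫ = θ * r / 32 := by
      rw [real_inner_smul_right, real_inner_comm, inner_last, ha, snoc_last, mul_one]
    rw [real_inner_smul_left, d1, lt_inv_mul_iff₀ a0]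
    have : ‖a‖ * (θ / 16 * H / 2) ≤ 2 * (θ / 16 * H / 2) := by gcongr; linarith
    linarith

end

end Crest.Agent.N067.E
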