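import Crest.Agent.N067.E.Band1
import Crest.Agent.N067.E.PO
import Crest.Agent.N067.E.Step

/-! # E/Band2 (helper69): case (iii) -/

set_option autoImplicit false

open MeasureTheory Laplacian InnerProductSpace Topology Filter Set Metric
open scoped RealInnerProductSpace ContDiff Gradient

namespace Crest.Agent.N067.E

open Crest.Agent.R077

noncomputable section

variable {n k : ℕ}

theorem norm_le_sum_abs (x : EE n) : ‖x‖ ≤ ∑ i, |x i| := by
  refine abs_le_of_sq_le_sq' ?_ (Finset.sum_nonneg fun _ _ => abs_nonneg _) |>.2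
  rw [EuclideanSpace.norm_sq_eq]
  simp only [Real.norm_eq_abs]
  exact Finset.sum_sq_le_sq_sum_of_nonneg fun _ _ => abs_nonneg _

theorem grad_le_sum (f : EE n → ℝ) (x : EE n) : ‖∇ f x‖ ≤ ∑ i, |pdv i f x| := by
  simpa only [grad_apply] using norm_le_sum_abs (∇ f x)

theorem po' (k : ℕ) : ∃ C : ℝ, 0 ≤ C ∧ ∀ (W g : EE k → ℝ) (ρ : ℝ), ContDiff ℝ 1 W → Continuous g →
    0 < ρ → (∀ y, ‖y‖ < 2 * ρ → ‖∇ W y‖ ≤ g y) →
    ∃ a : ℝ, ∫ y in ball (0 : EE k) ρ, |W y - a| ≤ C * ρ * ∫ y in ball (0 : EE k) (2 * ρ), g y := by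
  obtain ⟨C, hC, h⟩ := po k
  refine ⟨C, hC, fun W g ρ hW hg hρ hb => ?_⟩
  obtain ⟨a, ha⟩ := h W ρ hW hρ
  refine ⟨a, ha.trans (mul_le_mul_of_nonneg_left ?_ (by positivity))⟩
  exact setIntegral_mono_on (intOn_ball (cont_gradient hW) _ _) (intOn_ball hg _ _)
    measurableSet_ball fun y hy => hb y (mem_ball_zero_iff.1 hy)

theorem int_le_mean {W : EE k → ℝ} (hW : Continuous W) (a ρ : ℝ) :
    ∫ y in ball (0 : EE k) ρ, W y ≤
      a * volume.real (ball (0 : EE k) ρ) + ∫ y in ball (0 : EE k) ρ, |W y - a| := by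
  have i1 : IntegrableOn (fun _ : EE k => a) (ball 0 ρ) := intOn_ball continuous_const _ _
  have i2 : IntegrableOn (fun y => |W y - a|) (ball 0 ρ) :=
    intOn_ball (hW.sub continuous_const).abs _ _
  rw [mul_comm, ← smul_eq_mul, ← setIntegral_const, ← integral_add i1 i2]
  refine integral_mono (intOn_ball hW _ _) (i1.add i2) fun y => ?_
  have := le_abs_self (W y - a)
  simp only
  linarith

theorem mean_le {W : EE k → ℝ} (hW : Continuous W) (a : ℝ) {ρ A : ℝ}
    (h : ∀ y, ‖y‖ < ρ → |W y| ≤ A) : |a| * volume.real (ball (0 : EE k) ρ) ≤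
      A * volume.real (ball (0 : EE k) ρ) + ∫ y in ball (0 : EE k) ρ, |W y - a| := by
  have i0 : IntegrableOn (fun _ : EE k => |a|) (ball 0 ρ) := intOn_ball continuous_const _ _
  have i1 : IntegrableOn (fun _ : EE k => A) (ball 0 ρ) := intOn_ball continuous_const _ _
  have i2 : IntegrableOn (fun y => |W y - a|) (ball 0 ρ) :=
    intOn_ball (hW.sub continuous_const).abs _ _
  rw [mul_comm, mul_comm A, ← smul_eq_mul, ← smul_eq_mul, ← setIntegral_const, ← setIntegral_const,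
    ← integral_add i1 i2]
  refine setIntegral_mono_on i0 (i1.add i2) measurableSet_ball fun y hy => ?_
  have h1 := h y (mem_ball_zero_iff.1 hy)
  have h2 := abs_sub (W y) (W y - a)
  rw [sub_sub_cancel] at h2
  linarith

/-- a height `L` at which both errors are small -/
theorem small_err (k : ℕ) (κ : ℝ) (hκ : 0 < κ) : ∃ K a : ℝ, 1 ≤ K ∧ 0 < a ∧
    ∀ (u : EE (k + 1) → ℝ) (r : ℝ), Sol u → SLp u → MonoLast u → 0 < r →
      (r ^ 2 * ∫ x in ball (0 : EE (k + 1)) (K * r), sg u x ^ 2 * hsq (dd u) x * psi u x ^ 2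
        ≤ a * r ^ k) → ∃ L μ : ℝ, r ≤ L ∧ 0 < μ ∧ 2 * r + 2 * L ≤ K * r ∧
      L * ∫ y in ball (0 : EE k) (2 * r), (3 * A1 u L μ y + A2 u L y) ≤ κ * r ^ k := by
  obtain ⟨M, hM, h1⟩ := A2_sum
  obtain ⟨C, hC, h2⟩ := exists_EN k
  obtain ⟨om, hom, hvol⟩ := exists_om k
  obtain ⟨J, hJ⟩ := exists_nat_gt (3 * (M * om * 2 ^ k) / κ)
  have J0 : (0 : ℝ) < J := lt_of_le_of_lt (by positivity) hJ
  rw [div_lt_iff₀ hκ] at hJ
  set T : ℝ := 2 ^ J with hT
  have T1 : 1 ≤ T := one_le_pow₀ (by norm_num)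
  set K : ℝ := 2 + 2 * T with hK
  have K0 : 0 < K := by linarith
  obtain ⟨τ, hτ, hτ1⟩ : ∃ τ : ℝ, 0 < τ ∧ 3 * T * (4 * τ * (C * K ^ k)) ≤ κ / 3 := by
    refine ⟨κ / 3 / (12 * T * (C * K ^ k) + 1), by positivity, ?_⟩
    have : 0 ≤ 12 * T * (C * K ^ k) := by positivity
    calc _ = κ / 3 * (12 * T * (C * K ^ k) / (12 * T * (C * K ^ k) + 1)) := by ring
      _ ≤ κ / 3 * 1 := by gcongr; exact div_le_one_of_le₀ (by linarith) (by linarith)
      _ = _ := mul_one _
  refine ⟨K, κ / 3 * τ / (3 * T), by linarith, by positivity, fun u r hu hs hm hr hc => ?_⟩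
  have c2 : ∀ j : ℕ, Continuous (A2 u (2 ^ j * r)) := fun j => cont_A2 hu (by positivity)
  obtain ⟨j, hj, hj2⟩ : ∃ j ∈ Finset.range J, 2 ^ j * r *
      ∫ y in ball (0 : EE k) (2 * r), A2 u (2 ^ j * r) y ≤ κ / 3 * r ^ k := by
    refine Finset.exists_le_of_sum_le (Finset.nonempty_range_iff.2 (by exact_mod_cast J0.ne')) ?_
    simp only [← integral_const_mul]
    rw [← integral_finsetSum _ fun j _ => (intOn_ball (c2 j) _ _).const_mul _]
    calc _ ≤ ∫ _ in ball (0 : EE k) (2 * r), M :=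
          integral_mono (integrable_finsetSum _ fun j _ => (intOn_ball (c2 j) _ _).const_mul _)
            (intOn_ball continuous_const _ _) fun y => h1 k u r J y hu hm hr
      _ = M * om * 2 ^ k * r ^ k := by
          rw [setIntegral_const, hvol _ _ (by positivity), smul_eq_mul, mul_pow]; ring
      _ ≤ J * κ / 3 * r ^ k := by gcongr; linarith
      _ = _ := by rw [Finset.sum_const, Finset.card_range, nsmul_eq_mul]; ring
  have j1 : (1 : ℝ) ≤ 2 ^ j := one_le_pow₀ (by norm_num)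
  have j2 : (2 : ℝ) ^ j ≤ T := pow_le_pow_right₀ (by norm_num) (Finset.mem_range.1 hj).le
  have L0 : 0 < 2 ^ j * r := by positivity
  have L1 : 2 ^ j * r ≤ T * r := by gcongr
  have hKr : 2 * r + 2 * (2 ^ j * r) ≤ K * r := by rw [hK]; linarith
  refine ⟨2 ^ j * r, τ / r, le_mul_of_one_le_left hr.le j1, by positivity, hKr, ?_⟩
  have a1 := int_A1 hu L0 (μ := τ / r) (by positivity) hKr
  have a2 := h2 u hu hs 0 (K * r) (by positivity)
  have a0 : 0 ≤ ∫ y in ball (0 : EE k) (2 * r), A1 u (2 ^ j * r) (τ / r) y :=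
    integral_nonneg fun y => A1_nonneg (by positivity) _ y
  rw [integral_add ((intOn_ball (cont_A1 hu L0 _) _ _).const_mul 3) (intOn_ball (c2 j) _ _),
    integral_const_mul]
  set I := ∫ x in ball (0 : EE (k + 1)) (K * r), sg u x ^ 2 * hsq (dd u) x * psi u x ^ 2
  have a3 : T * r * (3 * ∫ y in ball (0 : EE k) (2 * r), A1 u (2 ^ j * r) (τ / r) y) ≤
      κ / 3 * r ^ k + κ / 3 * r ^ k := by
    calc _ ≤ T * r * (3 * (4 * (τ / r) * (C * (K * r) ^ k) + I / (τ / r))) := by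
          gcongr
          refine a1.trans ?_
          gcongr
      _ = 3 * T * (4 * τ * (C * K ^ k)) * r ^ k + 3 * T / τ * (r ^ 2 * I) := by
          rw [mul_pow]; field_simp
      _ ≤ κ / 3 * r ^ k + 3 * T / τ * (κ / 3 * τ / (3 * T) * r ^ k) := by gcongr
      _ = _ := by field_simp
  have a4 : 2 ^ j * r * (3 * ∫ y in ball (0 : EE k) (2 * r), A1 u (2 ^ j * r) (τ / r) y) ≤
      T * r * (3 * ∫ y in ball (0 : EE k) (2 * r), A1 u (2 ^ j * r) (τ / r) y) := by gcongr
  linarith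

/-- the column barycentre is almost affine -/
theorem affine_fit (k : ℕ) (δ : ℝ) (hδ : 0 < δ) : ∃ m0 B κ0 : ℝ, 0 < m0 ∧ 0 ≤ B ∧ 0 < κ0 ∧
    ∀ (u : EE (k + 1) → ℝ) (r L μ κ : ℝ), Sol u → SLp u → MonoLast u → 0 < r → r ≤ L → 0 < μ →
      0 ≤ κ → κ ≤ κ0 →
      (δ * r ^ k ≤ ∫ x in ball (0 : EE (k + 1)) r, hh (u x) * pdv (Fin.last k) u x) →
      (L * ∫ y in ball (0 : EE k) (2 * r), (3 * A1 u L μ y + A2 u L y) ≤ κ * r ^ k) →
      ∃ (f c : ℝ) (p : EE k), m0 ≤ f ∧
        L * ∫ y in ball (0 : EE k) (r / 2), |FF u L (Fin.last k) y - f| ≤ B * κ * r ^ (k + 1) ∧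
        ∫ y in ball (0 : EE k) (r / 2), |YY u L p y - c * FF u L (Fin.last k) y| ≤
          B * κ * r ^ (k + 1) := by
  obtain ⟨C, hC, h1⟩ := po' k
  obtain ⟨CE, hCE, h2⟩ := exists_EN k
  obtain ⟨om, hom, hvol⟩ := exists_om k
  obtain ⟨τ, hτ, hτ1⟩ : ∃ τ : ℝ, 0 < τ ∧ 4 * τ * CE ≤ δ := by
    refine ⟨δ / (4 * CE + 1), by positivity, ?_⟩
    calc _ = δ * (4 * CE / (4 * CE + 1)) := by ring
      _ ≤ δ * 1 := by gcongr; exact div_le_one_of_le₀ (by linarith) (by linarith)
      _ = _ := mul_one _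
  obtain ⟨N, hN⟩ : ∃ N : ℝ, N = C * k := ⟨_, rfl⟩
  have N0 : 0 ≤ N := by rw [hN]; positivity
  obtain ⟨m0, hm0⟩ : ∃ m0 : ℝ, m0 = τ ^ 3 * δ / (2 * om) := ⟨_, rfl⟩
  have m00 : 0 < m0 := by rw [hm0]; positivity
  have m01 : τ ^ 3 * δ = 2 * (m0 * om) := by rw [hm0]; field_simp
  obtain ⟨P1, hP1⟩ : ∃ P1 : ℝ, P1 = 3 / m0 := ⟨_, rfl⟩
  have P10 : 0 ≤ P1 := by rw [hP1]; positivity
  obtain ⟨B1, hB1⟩ : ∃ B1 : ℝ, B1 = k * (N + P1 * N + (2 + k * P1)) := ⟨_, rfl⟩
  have B10 : 0 ≤ B1 := by rw [hB1]; positivity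
  obtain ⟨B2, hB2⟩ : ∃ B2 : ℝ, B2 = 2 * (2 + k * P1) + C * B1 * 2 ^ k / om := ⟨_, rfl⟩
  have B20 : 0 ≤ B2 := by rw [hB2]; positivity
  obtain ⟨κ0, hκ0, k1, k2, k3⟩ : ∃ κ0 : ℝ, 0 < κ0 ∧ κ0 ≤ 1 ∧ N * κ0 ≤ om ∧ N * κ0 ≤ m0 * om := by
    have : 0 < min om (m0 * om) := by positivity
    refine ⟨min 1 (min om (m0 * om) / (N + 1)), by positivity, min_le_left _ _, ?_⟩
    rw [← le_min_iff]
    calc _ ≤ N * (min om (m0 * om) / (N + 1)) := by gcongr; exact min_le_right _ _
      _ = min om (m0 * om) * (N / (N + 1)) := by ring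
      _ ≤ min om (m0 * om) * 1 := by gcongr; exact div_le_one_of_le₀ (by linarith) (by linarith)
      _ = _ := mul_one _
  refine ⟨m0, N + C * B1 + B2 / m0 * N, κ0, m00, by positivity, hκ0,
    fun u r L μ κ hu hs hm hr hL hμ hκ hκ1 hd hE => ?_⟩
  have L0 : 0 < L := by linarith
  have rk : 0 < r ^ k := by positivity
  set E : EE k → ℝ := fun y => 3 * A1 u L μ y + A2 u L y with hEd
  have cE : Continuous E := (continuous_const.mul (cont_A1 hu L0 μ)).add (cont_A2 hu L0)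
  have E0 : ∀ y, 0 ≤ E y := fun y =>
    add_nonneg (mul_nonneg (by norm_num) (A1_nonneg hμ L y)) (A2_nonneg hu hm L y)
  set D := ∫ y in ball (0 : EE k) (2 * r), E y with hD
  have D0 : 0 ≤ D := integral_nonneg E0
  have cF : ∀ i, Continuous (FF u L i) := fun i => (contDiff_FF hu L0 i).continuous
  have hf : ∀ i, ∃ f : ℝ, ∫ y in ball (0 : EE k) r, |FF u L i y - f| ≤ N * r * D := by
    intro i
    obtain ⟨f, hf⟩ := h1 (FF u L i) (fun y => k * E y) r (contDiff_FF hu L0 i)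
      (continuous_const.mul cE) hr fun y _ => (grad_le_sum _ _).trans (by
        refine (Finset.sum_le_sum fun l _ => abs_pdv_FF hu hm L0 hμ i l y).trans (le_of_eq ?_)
        rw [Finset.sum_const, Finset.card_univ, Fintype.card_fin, nsmul_eq_mul])
    refine ⟨f, hf.trans (le_of_eq ?_)⟩
    rw [integral_const_mul, hN]; ring
  choose f hf using hf
  have G1 : L * (N * r * D) ≤ N * κ * r ^ (k + 1) := by
    calc _ = N * r * (L * D) := by ring
      _ ≤ N * r * (κ * r ^ k) := by gcongr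
      _ = _ := by ring
  have G2 : N * r * D ≤ N * κ * r ^ k := by
    calc _ ≤ N * L * D := by gcongr
      _ = N * (L * D) := by ring
      _ ≤ N * (κ * r ^ k) := by gcongr
      _ = _ := by ring
  have G3 : N * κ ≤ N * κ0 := by gcongr
  have f1 : m0 ≤ f (Fin.last k) := by
    have a1 := int_FF_last hu hm hr hL hτ.le
    have a2 := int_le_mean (cF (Fin.last k)) (f (Fin.last k)) r
    have a3 := h2 u hu hs 0 r hr
    rw [hvol _ _ hr] at a2
    have a4 : 4 * τ ^ 4 * (∫ x in ball (0 : EE (k + 1)) r, en u x) ≤ τ ^ 3 * δ * r ^ k := by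
      calc _ ≤ 4 * τ ^ 4 * (CE * r ^ k) := by gcongr
        _ = τ ^ 3 * (4 * τ * CE) * r ^ k := by ring
        _ ≤ _ := by gcongr
    have a5 : 2 * τ ^ 3 * (δ * r ^ k) ≤ 2 * τ ^ 3 *
        ∫ x in ball (0 : EE (k + 1)) r, hh (u x) * pdv (Fin.last k) u x := by gcongr
    have a6 : N * κ * r ^ k ≤ m0 * om * r ^ k := mul_le_mul_of_nonneg_right (G3.trans k3) rk.le
    have a7 : τ ^ 3 * δ * r ^ k = 2 * (m0 * om) * r ^ k := by rw [m01]
    have a8 := hf (Fin.last k)
    exact le_of_mul_le_mul_right (a := om * r ^ k) (by linarith) (by positivity)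
  have f0 : 0 < f (Fin.last k) := m00.trans_le f1
  have f2 : ∀ i, |f i| ≤ 3 := by
    intro i
    have a1 := mean_le (cF i) (f i) (ρ := r) fun y _ => abs_FF_le hu hm L0 i y
    rw [hvol _ _ hr] at a1
    have a6 : N * κ * r ^ k ≤ om * r ^ k := by gcongr; linarith
    have a8 := hf i
    exact le_of_mul_le_mul_right (a := om * r ^ k) (by linarith) (by positivity)
  set p : EE k := WithLp.toLp 2 fun l => -(f l.castSucc / f (Fin.last k)) with hp
  have p1 : ∀ l, |p l| ≤ P1 := fun l => by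
    show |-(f l.castSucc / f (Fin.last k))| ≤ P1
    rw [abs_neg, abs_div, abs_of_pos f0, hP1]
    gcongr
    exact f2 _
  have p2 : ‖p‖ ≤ k * P1 := by
    refine (norm_le_sum_abs p).trans ((Finset.sum_le_sum fun l _ => p1 l).trans (le_of_eq ?_))
    rw [Finset.sum_const, Finset.card_univ, Fintype.card_fin, nsmul_eq_mul]
  have p3 : ∀ y : EE k, ‖y‖ < r → 2 * L + ‖p‖ * ‖y‖ ≤ (2 + k * P1) * L := fun y hy => by
    have : ‖p‖ * ‖y‖ ≤ k * P1 * L := by gcongr; linarith
    linarith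
  have cA : ∀ i, Continuous fun y => |FF u L i y - f i| := fun i =>
    ((cF i).sub continuous_const).abs
  set g : Fin k → EE k → ℝ := fun l y => |FF u L l.castSucc y - f l.castSucc|
    + (P1 * |FF u L (Fin.last k) y - f (Fin.last k)| + (2 + k * P1) * L * E y) with hg
  have cg : ∀ l, Continuous (g l) := fun l =>
    (cA _).add ((continuous_const.mul (cA _)).add (continuous_const.mul cE))
  obtain ⟨Y, hY⟩ := h1 (YY u L p) (fun y => ∑ l, g l y) (r / 2) (contDiff_YY hu L0 p)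
    (continuous_finsetSum _ fun l _ => cg l) (by linarith) fun y hy =>
    (grad_le_sum _ _).trans (Finset.sum_le_sum fun l _ => by
      have a1 := abs_pdv_YY hu hm L0 hμ p l y
      have a2 : (2 * L + ‖p‖ * ‖y‖) * E y ≤ (2 + k * P1) * L * E y :=
        mul_le_mul_of_nonneg_right (p3 y (by linarith)) (E0 y)
      have a3 : pdv l (YY u L p) y =
          (pdv l (YY u L p) y + FF u L l.castSucc y + p l * FF u L (Fin.last k) y)
          - ((FF u L l.castSucc y - f l.castSucc)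
            + p l * (FF u L (Fin.last k) y - f (Fin.last k))) := by
        have : p l * f (Fin.last k) = -f l.castSucc := by
          show -(f l.castSucc / f (Fin.last k)) * f (Fin.last k) = _
          field_simp
        linarith
      have a4 : |p l * (FF u L (Fin.last k) y - f (Fin.last k))| ≤
          P1 * |FF u L (Fin.last k) y - f (Fin.last k)| := by
        rw [abs_mul]; gcongr; exact p1 l
      rw [a3]
      refine (abs_sub _ _).trans ?_
      have a5 := abs_add_le (FF u L l.castSucc y - f l.castSucc)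
        (p l * (FF u L (Fin.last k) y - f (Fin.last k)))
      simp only [hg]
      linarith)
  rw [show 2 * (r / 2) = r by ring] at hY
  have g1 : ∫ y in ball (0 : EE k) r, ∑ l, g l y ≤ B1 * κ * r ^ k := by
    rw [integral_finsetSum _ fun l _ => intOn_ball (cg l) _ _]
    have a0 : ∫ y in ball (0 : EE k) r, E y ≤ D :=
      setint_mono_set (intOn_ball cE _ _) E0 (ball_subset_ball (by linarith))
    have : ∀ l, ∫ y in ball (0 : EE k) r, g l y ≤ (N + P1 * N + (2 + k * P1)) * κ * r ^ k := by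
      intro l
      have i2 := (intOn_ball (cA (Fin.last k)) 0 r).const_mul P1
      have i3 := (intOn_ball cE 0 r).const_mul ((2 + k * P1) * L)
      have i23 : IntegrableOn (fun y => P1 * |FF u L (Fin.last k) y - f (Fin.last k)|
        + (2 + k * P1) * L * E y) (ball 0 r) := i2.add i3
      simp only [hg]
      rw [integral_add (intOn_ball (cA _) _ _) i23, integral_add i2 i3, integral_const_mul,
        integral_const_mul]
      calc _ ≤ N * κ * r ^ k + (P1 * (N * κ * r ^ k) + (2 + k * P1) * L * D) := by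
            gcongr
            · exact (hf _).trans G2
            · exact (hf _).trans G2
        _ = N * κ * r ^ k + (P1 * (N * κ * r ^ k) + (2 + k * P1) * (L * D)) := by ring
        _ ≤ N * κ * r ^ k + (P1 * (N * κ * r ^ k) + (2 + k * P1) * (κ * r ^ k)) := by gcongr
        _ = _ := by ring
    refine (Finset.sum_le_sum fun l _ => this l).trans (le_of_eq ?_)
    rw [Finset.sum_const, Finset.card_univ, Fintype.card_fin, nsmul_eq_mul, hB1]; ring
  have Y1 : ∫ y in ball (0 : EE k) (r / 2), |YY u L p y - Y| ≤ C * B1 * κ * r ^ (k + 1) := by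
    refine hY.trans ?_
    calc _ ≤ C * r * (B1 * κ * r ^ k) := by
          have : 0 ≤ ∫ y in ball (0 : EE k) r, ∑ l, g l y :=
            integral_nonneg fun y => Finset.sum_nonneg fun l _ => by
              have := E0 y
              simp only [hg]; positivity
          gcongr; linarith
      _ = _ := by ring
  have cY := (contDiff_YY hu L0 p).continuous
  have Y2 : |Y| ≤ B2 * L := by
    have a1 := mean_le cY Y (ρ := r / 2) (A := 2 * ((2 + k * P1) * L)) fun y hy =>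
      (abs_YY_le hu hm L0 p y).trans (by linarith [p3 y (by linarith)])
    rw [hvol _ _ (by linarith)] at a1
    have a2 : C * B1 * κ * r ^ (k + 1) ≤ C * B1 * 2 ^ k / om * L * (om * (r / 2) ^ k) := by
      calc _ = C * B1 * κ * r * r ^ k := by ring
        _ ≤ C * B1 * 1 * L * r ^ k := by gcongr; linarith
        _ = _ := by rw [div_pow]; field_simp
    refine le_of_mul_le_mul_right (a := om * (r / 2) ^ k) ?_ (by positivity)
    rw [hB2]
    linarith
  have F1 : L * ∫ y in ball (0 : EE k) (r / 2), |FF u L (Fin.last k) y - f (Fin.last k)| ≤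
      N * κ * r ^ (k + 1) := by
    refine le_trans ?_ G1
    gcongr
    exact (setint_mono_set (intOn_ball (cA _) _ _) (fun _ => abs_nonneg _)
      (ball_subset_ball (by linarith))).trans (hf _)
  have rk1 : 0 ≤ κ * r ^ (k + 1) := by positivity
  refine ⟨f (Fin.last k), Y / f (Fin.last k), p, f1, F1.trans ?_, ?_⟩
  · have : 0 ≤ (C * B1 + B2 / m0 * N) * (κ * r ^ (k + 1)) := by positivity
    linarith
  · have i1 : IntegrableOn (fun y => |YY u L p y - Y|) (ball 0 (r / 2)) :=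
      intOn_ball (cY.sub continuous_const).abs _ _
    have i2 := (intOn_ball (cA (Fin.last k)) 0 (r / 2)).const_mul (B2 / m0 * L)
    calc _ ≤ ∫ y in ball (0 : EE k) (r / 2), (|YY u L p y - Y|
            + B2 / m0 * L * |FF u L (Fin.last k) y - f (Fin.last k)|) := by
          refine integral_mono (intOn_ball (cY.sub (continuous_const.mul (cF _))).abs _ _)
            (i1.add i2) fun y => ?_
          have a1 : YY u L p y - Y / f (Fin.last k) * FF u L (Fin.last k) y = (YY u L p y - Y)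
              - Y / f (Fin.last k) * (FF u L (Fin.last k) y - f (Fin.last k)) := by
            field_simp; ring
          have a2 : |Y / f (Fin.last k)| ≤ B2 / m0 * L := by
            rw [abs_div, abs_of_pos f0, div_mul_eq_mul_div]; gcongr
          simp only
          rw [a1]
          refine (abs_sub _ _).trans ?_
          rw [abs_mul]
          gcongr
      _ = (∫ y in ball (0 : EE k) (r / 2), |YY u L p y - Y|) + B2 / m0 * (L *
            ∫ y in ball (0 : EE k) (r / 2), |FF u L (Fin.last k) y - f (Fin.last k)|) := by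
          rw [integral_add i1 i2, integral_const_mul]; ring
      _ ≤ C * B1 * κ * r ^ (k + 1) + B2 / m0 * (N * κ * r ^ (k + 1)) := by gcongr
      _ ≤ _ := by
          have : 0 ≤ N * (κ * r ^ (k + 1)) := by positivity
          linarith

/-- `lineB` on a column -/
theorem colB {u : EE (k + 1) → ℝ} (hu : Sol u) (hm : MonoLast u) {L : ℝ} (hL : 0 < L) (p y : EE k)
    (c : ℝ) {w1 w2 : ℝ → ℝ} (c1 : Continuous w1) (c2 : Continuous w2)
    (hw1 : ∀ s, 0 ≤ w1 s ∧ w1 s ≤ 1) (hw2 : ∀ s, 0 ≤ w2 s ∧ w2 s ≤ 1) (z1 : ∀ s, s ≤ 0 → w1 s = 0)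
    (z2 : ∀ s, 0 ≤ s → w2 s = 0) :
    FF u L (Fin.last k) y * ∫ s in (-(2 * L))..(2 * L),
      (w1 (⟪snoc (-p) 1, snoc y s⟫ - c) * Gp (u (snoc y s))
        + w2 (⟪snoc (-p) 1, snoc y s⟫ - c) * Gm (u (snoc y s))) ≤
      |YY u L p y - c * FF u L (Fin.last k) y|
        + 4 * ∫ s in (-(2 * L))..(2 * L), psi u (snoc y s) ^ 2 := by
  set lam : ℝ → ℝ := fun s => xi L s * (sg u (snoc y s) ^ 4 * psi u (snoc y s) ^ 2) with hlam
  have cs : Continuous (sg u) := (B1.sg_sm hu).continuous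
  have cp : Continuous (psi u) := continuous_const.sub ((Sol_cont hu).pow 2)
  have cl : Continuous lam :=
    (c1_xi L).continuous.mul (((cs.pow 4).mul (cp.pow 2)).comp (cont_snoc y))
  have e0 : ∀ s, ⟪snoc (-p) 1, snoc y s⟫ - c = s - (⟪p, y⟫ + c) := fun s => by
    rw [inner_snoc, init_snoc, snoc_last, inner_neg_left]; ring
  have e1 : FF u L (Fin.last k) y = ∫ s in (-(2 * L))..(2 * L), lam s := by
    unfold FF
    rw [col_eq (b := 2 * L) (by linarith) (VC.xi hL _)]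
    congr 1; funext s
    simp only [hlam, snoc_last, sg]; ring
  have e2 : YY u L p y - c * FF u L (Fin.last k) y =
      ∫ s in (-(2 * L))..(2 * L), (s - (⟪p, y⟫ + c)) * lam s := by
    have e3 : YY u L p y = ∫ s in (-(2 * L))..(2 * L), (s - ⟪p, y⟫) * lam s := by
      unfold YY
      rw [col_eq (b := 2 * L) (by linarith) (VC.xi hL _)]
      congr 1; funext s
      simp only [hlam, snoc_last, init_snoc]; ring
    have i1 : IntervalIntegrable (fun s => (s - ⟪p, y⟫) * lam s) volume (-(2 * L)) (2 * L) :=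
      ((continuous_id.sub continuous_const).mul cl).intervalIntegrable _ _
    have i2 : IntervalIntegrable (fun s => c * lam s) volume (-(2 * L)) (2 * L) :=
      (continuous_const.mul cl).intervalIntegrable _ _
    rw [e1, e3, ← intervalIntegral.integral_const_mul, ← intervalIntegral.integral_sub i1 i2]
    congr 1; funext s; ring
  have := lineB (fun s => u (snoc y s)) (fun s => pdv (Fin.last k) u (snoc y s)) lam
    (fun s => w1 (s - (⟪p, y⟫ + c))) (fun s => w2 (s - (⟪p, y⟫ + c))) (2 * L) (⟪p, y⟫ + c)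
    (by linarith) (fun s => hasDerivAt_snoc (Sol_diff hu _))
    ((Sol_cont_pdv hu _).comp (cont_snoc y)) (fun s => (hu.lt _).le) (fun s => (hm _).le) cl
    (fun s => mul_nonneg (xi_nonneg _ _) (by positivity))
    (fun s => by
      rw [hh_mul_pdv hu]
      have a1 := (sg_pos hu hm (snoc y s)).le
      have a2 := B1.sg_le hu (snoc y s)
      have a3 : sg u (snoc y s) ^ 4 ≤ sg u (snoc y s) := pow_le_of_le_one a1 a2 (by norm_num)
      have a4 := xi_le_one L s
      calc lam s ≤ 1 * (sg u (snoc y s) * psi u (snoc y s) ^ 2) := by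
            simp only [hlam]; gcongr
        _ = _ := by unfold sg; ring)
    (c1.comp (continuous_id.sub continuous_const)) (c2.comp (continuous_id.sub continuous_const))
    (fun s => hw1 _) (fun s => hw2 _) (fun s hs => z1 _ (by linarith))
    (fun s hs => z2 _ (by linarith))
  simp only [e0]
  rw [e2, e1]
  exact this

theorem band_core (k : ℕ) (δ κ : ℝ) (hδ : 0 < δ) (hκ : 0 < κ) :
    ∃ K a r1 : ℝ, 1 ≤ K ∧ 0 < a ∧ 0 < r1 ∧ ∀ (u : EE (k + 1) → ℝ) (r : ℝ), Sol u → SLp u →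
      MonoLast u → r1 ≤ r →
      (δ * r ^ k ≤ ∫ x in ball (0 : EE (k + 1)) r, hh (u x) * pdv (Fin.last k) u x) →
      (r ^ 2 * ∫ x in ball (0 : EE (k + 1)) (K * r), sg u x ^ 2 * hsq (dd u) x * psi u x ^ 2
        ≤ a * r ^ k) → ∃ (p : EE k) (c : ℝ), ∀ w1 w2 : ℝ → ℝ, Continuous w1 → Continuous w2 →
        (∀ s, 0 ≤ w1 s ∧ w1 s ≤ 1) → (∀ s, 0 ≤ w2 s ∧ w2 s ≤ 1) → (∀ s, s ≤ 0 → w1 s = 0) →
        (∀ s, 0 ≤ s → w2 s = 0) → ∫ x in ball (0 : EE (k + 1)) (r / 2),
          (w1 (⟪snoc p 1, x⟫ - c) * Gp (u x) + w2 (⟪snoc p 1, x⟫ - c) * Gm (u x)) ≤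
            κ * r ^ (k + 1) := by
  obtain ⟨m0, B, κ0, hm0, hB, hκ0, h1⟩ := affine_fit k δ hδ
  obtain ⟨κ1, k0, k1, k2⟩ : ∃ κ1 : ℝ, 0 < κ1 ∧ κ1 ≤ κ0 ∧ 5 * B * κ1 ≤ m0 * κ / 2 := by
    refine ⟨min κ0 (m0 * κ / 2 / (5 * B + 1)), by positivity, min_le_left _ _, ?_⟩
    calc _ ≤ 5 * B * (m0 * κ / 2 / (5 * B + 1)) := by gcongr; exact min_le_right _ _
      _ = m0 * κ / 2 * (5 * B / (5 * B + 1)) := by ring
      _ ≤ m0 * κ / 2 * 1 := by gcongr; exact div_le_one_of_le₀ (by linarith) (by linarith)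
      _ = _ := mul_one _
  obtain ⟨K, a, hK, ha, h2⟩ := small_err k κ1 k0
  obtain ⟨C, hC, h3⟩ := exists_EN k
  refine ⟨K, a, 16 * C * K ^ k / (m0 * κ / 2) + 1, hK, ha, by positivity,
    fun u r hu hs hm hr hd hc => ?_⟩
  have q0 : 0 ≤ 16 * C * K ^ k / (m0 * κ / 2) := by positivity
  have r0 : 0 < r := by linarith
  have r1 : 16 * C * K ^ k ≤ m0 * κ / 2 * r := by
    rw [mul_comm (m0 * κ / 2), ← div_le_iff₀ (by positivity)]; linarith
  obtain ⟨L, μ, hL, hμ, hKL, hE⟩ := h2 u r hu hs hm r0 hc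
  obtain ⟨f, c, p, f1, f2, f3⟩ := h1 u r L μ κ1 hu hs hm r0 hL hμ k0.le k1 hd hE
  have L0 : 0 < L := by linarith
  refine ⟨-p, c, fun w1 w2 c1 c2 hw1 hw2 z1 z2 => ?_⟩
  have cu := Sol_cont hu
  set g : EE (k + 1) → ℝ := fun x =>
    w1 (⟪snoc (-p) 1, x⟫ - c) * Gp (u x) + w2 (⟪snoc (-p) 1, x⟫ - c) * Gm (u x) with hg
  have cg : Continuous g :=
    ((c1.comp (cont_aff _ _)).mul ((contDiff_Gp (m := 0)).continuous.comp cu)).add
      ((c2.comp (cont_aff _ _)).mul ((contDiff_Gm (m := 0)).continuous.comp cu))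
  have g0 : ∀ x, 0 ≤ g x := fun x => add_nonneg (mul_nonneg (hw1 _).1 (Gp_nonneg (hu.lt x).le))
    (mul_nonneg (hw2 _).1 (Gm_nonneg (hu.lt x).le))
  have g1 : ∀ x, g x ≤ 1 := fun x => by
    have a1 := mul_le_of_le_one_left (Gp_nonneg (hu.lt x).le) (hw1 (⟪snoc (-p) 1, x⟫ - c)).2
    have a2 := mul_le_of_le_one_left (Gm_nonneg (hu.lt x).le) (hw2 (⟪snoc (-p) 1, x⟫ - c)).2
    have a3 := Gm_add_Gp (u x)
    have a4 := s0_le_one
    simp only [hg]; linarith
  have cp : Continuous fun x => psi u x ^ 2 := (continuous_const.sub (cu.pow 2)).pow 2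
  have cI := cont_icol cg (-(2 * L)) (2 * L)
  have cP := cont_icol cp (-(2 * L)) (2 * L)
  have cF := (contDiff_FF hu L0 (Fin.last k)).continuous
  have cY := (contDiff_YY hu L0 p).continuous
  have i1 : IntegrableOn (fun y => |YY u L p y - c * FF u L (Fin.last k) y|) (ball 0 (r / 2)) :=
    intOn_ball (cY.sub (continuous_const.mul cF)).abs _ _
  have i2 := (intOn_ball cP 0 (r / 2)).const_mul 4
  have i3 : IntegrableOn (fun y => 4 * L * |FF u L (Fin.last k) y - f|) (ball 0 (r / 2)) :=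
    (intOn_ball (cF.sub continuous_const).abs _ _).const_mul _
  have i12 : IntegrableOn (fun y => |YY u L p y - c * FF u L (Fin.last k) y|
      + 4 * ∫ s in (-(2 * L))..(2 * L), psi u (snoc y s) ^ 2) (ball 0 (r / 2)) := i1.add i2
  have s1 : ∫ x in ball (0 : EE (k + 1)) (r / 2), g x ≤ ∫ x in cyl k (r / 2) (2 * L), g x :=
    setint_mono_set (integrableOn_cyl cg _ _) g0
      (ball_sub_cyl (by rw [norm_zero]; linarith) (by rw [norm_zero]; linarith))
  have s2 : m0 * ∫ x in cyl k (r / 2) (2 * L), g x ≤ ∫ y in ball (0 : EE k) (r / 2),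
      (|YY u L p y - c * FF u L (Fin.last k) y|
        + (4 * ∫ s in (-(2 * L))..(2 * L), psi u (snoc y s) ^ 2)
        + 4 * L * |FF u L (Fin.last k) y - f|) := by
    rw [setint_cyl cg _ (by linarith), ← integral_const_mul]
    refine integral_mono ((intOn_ball cI _ _).const_mul _) (i12.add i3) fun y => ?_
    have a1 := colB hu hm L0 p y c c1 c2 hw1 hw2 z1 z2
    have a2 : 0 ≤ ∫ s in (-(2 * L))..(2 * L), g (snoc y s) :=
      intervalIntegral.integral_nonneg (by linarith) fun s _ => g0 _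
    have a3 : ∫ s in (-(2 * L))..(2 * L), g (snoc y s) ≤ 4 * L := by
      calc _ ≤ ∫ _ in (-(2 * L))..(2 * L), (1 : ℝ) :=
            intervalIntegral.integral_mono (by linarith)
              ((cg.comp (cont_snoc y)).intervalIntegrable _ _) intervalIntegrable_const
              fun s => g1 _
        _ = _ := by rw [intervalIntegral.integral_const, smul_eq_mul]; ring
    change FF u L (Fin.last k) y * ∫ s in (-(2 * L))..(2 * L), g (snoc y s) ≤ _ at a1
    simp only
    set I := ∫ s in (-(2 * L))..(2 * L), g (snoc y s)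
    have a4 : (m0 - FF u L (Fin.last k) y) * I ≤ |FF u L (Fin.last k) y - f| * (4 * L) :=
      mul_le_mul (by linarith [neg_le_abs (FF u L (Fin.last k) y - f)]) a3 a2 (abs_nonneg _)
    linarith
  have s3 : ∫ y in ball (0 : EE k) (r / 2), ∫ s in (-(2 * L))..(2 * L), psi u (snoc y s) ^ 2 ≤
      4 * (C * (K * r) ^ k) := by
    rw [← setint_cyl cp _ (by linarith)]
    calc _ ≤ ∫ x in ball (0 : EE (k + 1)) (K * r), psi u x ^ 2 :=
          setint_mono_set (intOn_ball cp _ _) (fun _ => sq_nonneg _)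
            ((cyl_subset _ _).trans (ball_subset_ball (by linarith)))
      _ ≤ ∫ x in ball (0 : EE (k + 1)) (K * r), 4 * en u x :=
          integral_mono (intOn_ball cp _ _) ((intOn_ball (cont_en hu) _ _).const_mul _)
            fun x => psi_sq_le u x
      _ ≤ _ := by
          rw [integral_const_mul]
          gcongr
          exact h3 u hu hs 0 _ (by positivity)
  rw [integral_add i12 i3, integral_add i1 i2, integral_const_mul, integral_const_mul] at s2
  have rk : 0 < r ^ k := by positivity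
  have s4 : 16 * C * K ^ k * r ^ k ≤ m0 * κ / 2 * r * r ^ k := by gcongr
  have s5 : 5 * B * κ1 * r ^ (k + 1) ≤ m0 * κ / 2 * r ^ (k + 1) := by gcongr
  have s6 := mul_le_mul_of_nonneg_left s1 hm0.le
  refine le_of_mul_le_mul_left ?_ hm0
  rw [mul_pow] at s3
  rw [pow_succ] at *
  linarith

theorem band (k : ℕ) (hk : 1 ≤ k) (ε δ : ℝ) (hε : 0 < ε) (hδ : 0 < δ) :
    ∃ K a r1 : ℝ, 1 ≤ K ∧ 0 < a ∧ ∀ (u : EE (k + 1) → ℝ) (r : ℝ), Mn u → MonoLast u → u 0 = 0 →
      r1 ≤ r → (δ * r ^ k ≤ ∫ x in ball (0 : EE (k + 1)) r, hh (u x) * pdv (Fin.last k) u x) →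
      (r ^ 2 * ∫ x in ball (0 : EE (k + 1)) (K * r), sg u x ^ 2 * hsq (dd u) x * psi u x ^ 2
        ≤ a * r ^ k) →
      ∃ e : EE (k + 1), ‖e‖ = 1 ∧ Flat u (r / 4) e (ε * r) := by
  obtain ⟨c0, hc0, h1⟩ := clr k hk
  obtain ⟨η, hη, η1, η2⟩ : ∃ η : ℝ, 0 < η ∧ η ≤ 1 / 4 ∧ 4 * η ≤ ε :=
    ⟨min (1 / 4) (ε / 4), by positivity, min_le_left _ _, by linarith [min_le_right (1 / 4) (ε / 4)]⟩
  obtain ⟨K, a, r1, hK, ha, hr1, h2⟩ := band_core k δ (c0 * η ^ (k + 1) / 2) hδ (by positivity)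
  refine ⟨K, a, max r1 (8 / η), hK, ha, fun u r hu hm h0 hr hd hc => ?_⟩
  have r0 : 0 < r := hr1.trans_le ((le_max_left _ _).trans hr)
  have ρ8 : 8 ≤ η * r := by
    rw [mul_comm, ← div_le_iff₀ hη]; exact (le_max_right _ _).trans hr
  obtain ⟨p, c, h⟩ := h2 u r hu.sol hu.slp hm ((le_max_left _ _).trans hr) hd hc
  set ρ := η * r with hρ
  have ρ0 : 0 < ρ := by linarith
  have ρ1 : ρ ≤ r / 4 := by nlinarith
  have hlt : c0 * η ^ (k + 1) / 2 * r ^ (k + 1) < c0 * ρ ^ (k + 1) := by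
    have : 0 < c0 * η ^ (k + 1) * r ^ (k + 1) := by positivity
    rw [hρ, mul_pow]; linarith
  set w : ℝ → ℝ := fun s => min 1 (max 0 (s / ρ)) with hw
  have cw : Continuous w := continuous_const.min (continuous_const.max (continuous_id.div_const _))
  have w0 : ∀ s, 0 ≤ w s ∧ w s ≤ 1 := fun s =>
    ⟨le_min zero_le_one (le_max_left _ _), min_le_left _ _⟩
  have wz : ∀ s, s ≤ 0 → w s = 0 := fun s hs => by
    simp only [hw, max_eq_left (div_nonpos_of_nonpos_of_nonneg hs ρ0.le), min_eq_right zero_le_one]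
  have w1 : ∀ s, ρ ≤ s → w s = 1 := fun s hs =>
    min_eq_left (le_max_of_le_right ((one_le_div ρ0).2 hs))
  obtain ⟨n1, -⟩ := norm_snoc_one p
  set A := snoc p 1 with hA
  have A0 : 0 < ‖A‖ := by linarith
  have cu := Sol_cont hu.sol
  have cp : Continuous fun x => Gp (u x) := (contDiff_Gp (m := 0)).continuous.comp cu
  have cm : Continuous fun x => Gm (u x) := (contDiff_Gm (m := 0)).continuous.comp cu
  have sub : ∀ z : EE (k + 1), ‖z‖ < r / 4 → ball z ρ ⊆ ball 0 (r / 2) := fun z hz =>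
    ball_subset_ball' (by rw [dist_zero_right]; linarith)
  have near : ∀ z x : EE (k + 1), x ∈ ball z ρ → |⟪A, x⟫ - ⟪A, z⟫| ≤ ‖A‖ * ρ := fun z x hx => by
    rw [← inner_sub_right]
    refine (abs_real_inner_le_norm _ _).trans ?_
    gcongr
    exact (mem_ball_iff_norm.1 hx).le
  have Aρ : ρ ≤ ‖A‖ * ρ := le_mul_of_one_le_left ρ0.le n1
  have pos : ∀ z : EE (k + 1), ‖z‖ < r / 4 → 2 * (‖A‖ * ρ) < ⟪A, z⟫ - c → 0 < u z := by
    intro z hz hA'
    by_contra hc'
    have a1 := h1 u hu.sol hu.slp z ρ ρ8 (not_lt.1 hc')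
    have a2 := h w (fun _ => 0) cw continuous_const w0 (fun _ => ⟨le_rfl, zero_le_one⟩) wz
      fun _ _ => rfl
    simp only [zero_mul, add_zero] at a2
    have cg : Continuous fun x => w (⟪A, x⟫ - c) * Gp (u x) := (cw.comp (cont_aff _ _)).mul cp
    have a3 := setint_mono_set (intOn_ball cg 0 (r / 2))
      (fun x => mul_nonneg (w0 _).1 (Gp_nonneg (hu.sol.lt x).le)) (sub z hz)
    have a4 : ∫ x in ball z ρ, w (⟪A, x⟫ - c) * Gp (u x) = ∫ x in ball z ρ, Gp (u x) :=
      setIntegral_congr_fun measurableSet_ball fun x hx => by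
        have := abs_le.1 (near z x hx)
        rw [w1 _ (by linarith), one_mul]
    linarith
  have neg : ∀ z : EE (k + 1), ‖z‖ < r / 4 → ⟪A, z⟫ - c < -(2 * (‖A‖ * ρ)) → u z < 0 := by
    intro z hz hA'
    by_contra hc'
    have a1 := h1 _ (Sol_neg hu.sol) hu.slm z ρ ρ8 (neg_nonpos.2 (not_lt.1 hc'))
    simp only [Gp_neg] at a1
    have a2 := h (fun _ => 0) (fun s => w (-s)) continuous_const (cw.comp continuous_neg)
      (fun _ => ⟨le_rfl, zero_le_one⟩) (fun _ => w0 _) (fun _ _ => rfl)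
      fun s hs => wz _ (neg_nonpos.2 hs)
    simp only [zero_mul, zero_add] at a2
    have cg : Continuous fun x => w (-(⟪A, x⟫ - c)) * Gm (u x) :=
      (cw.comp (cont_aff _ _).neg).mul cm
    have a3 := setint_mono_set (intOn_ball cg 0 (r / 2))
      (fun x => mul_nonneg (w0 _).1 (Gm_nonneg (hu.sol.lt x).le)) (sub z hz)
    have a4 : ∫ x in ball z ρ, w (-(⟪A, x⟫ - c)) * Gm (u x) = ∫ x in ball z ρ, Gm (u x) :=
      setIntegral_congr_fun measurableSet_ball fun x hx => by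
        have := abs_le.1 (near z x hx)
        rw [w1 _ (by linarith), one_mul]
    linarith
  have z0 : ‖(0 : EE (k + 1))‖ < r / 4 := by rw [norm_zero]; linarith
  have c1 : -c ≤ 2 * (‖A‖ * ρ) := by
    by_contra hc'
    exact (pos 0 z0 (by rw [inner_zero_right]; linarith)).ne' h0
  have c2 : c ≤ 2 * (‖A‖ * ρ) := by
    by_contra hc'
    exact (neg 0 z0 (by rw [inner_zero_right]; linarith)).ne h0
  have ε1 : ‖A‖ * (4 * ρ) ≤ ‖A‖ * (ε * r) :=
    mul_le_mul_of_nonneg_left (by nlinarith) A0.le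
  refine ⟨‖A‖⁻¹ • A, norm_smul_inv_norm (norm_pos_iff.1 A0), fun z a1 a2 => pos z a1 ?_,
    fun z a1 a2 => neg z a1 ?_⟩
  · rw [real_inner_smul_left, lt_inv_mul_iff₀ A0] at a2
    linarith
  · rw [real_inner_smul_left, inv_mul_lt_iff₀ A0] at a2
    linarith

end

end Crest.Agent.N067.E
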