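import Crest.Agent.N067.E.Defs

/-! # E/Basic (leaf E-Basic): algebra of `h, G`, pointwise facts, cut-offs, first variation -/

set_option autoImplicit false

open MeasureTheory Laplacian InnerProductSpace Topology Filter Set Metric
open scoped RealInnerProductSpace ContDiff Gradient

namespace Crest.Agent.N067.E

open Crest.Agent.R077

noncomputable section

variable {n k : ℕ}

namespace Bs

theorem sq_le_gsq (v : EE n → ℝ) (j : Fin n) (x : EE n) : pdv j v x ^ 2 ≤ gsq v x :=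
  Finset.single_le_sum (f := fun i => pdv i v x ^ 2) (fun _ _ => sq_nonneg _) (Finset.mem_univ j)

theorem one_le {L s : ℝ} (hL : 0 < L) (h : |s| ≤ L) : 1 ≤ (4 * L ^ 2 - s ^ 2) / (3 * L ^ 2) := by
  have := pow_le_pow_left₀ (abs_nonneg s) h 2
  rw [sq_abs] at this
  rw [one_le_div (by positivity)]; linarith

theorem le_zero {L s : ℝ} (hL : 0 < L) (h : 2 * L ≤ |s|) :
    (4 * L ^ 2 - s ^ 2) / (3 * L ^ 2) ≤ 0 := by
  have := pow_le_pow_left₀ (by positivity) h 2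
  rw [sq_abs] at this
  exact div_nonpos_of_nonpos_of_nonneg (by linarith) (by positivity)

theorem deriv_zero {s : ℝ} (h : s ≤ 0 ∨ 1 ≤ s) : deriv Real.smoothTransition s = 0 := by
  rcases h with h | h
  · refine IsLocalMin.deriv_eq_zero (Eventually.of_forall fun t => ?_)
    rw [Real.smoothTransition.zero_of_nonpos h]; exact Real.smoothTransition.nonneg t
  · refine IsLocalMax.deriv_eq_zero (Eventually.of_forall fun t => ?_)
    rw [Real.smoothTransition.one_of_one_le h]; exact Real.smoothTransition.le_one t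

end Bs

theorem s0_pos : 0 < s0 := by unfold s0; positivity
theorem s0_le_one : s0 ≤ 1 := by
  rw [s0, div_le_one (by positivity)]
  nlinarith [sqrt2_sq, sqrt2_pos]
theorem Gm_add_Gp (s : ℝ) : Gm s + Gp s = s0 := by unfold Gm Gp; ring
theorem Gp_neg (s : ℝ) : Gp (-s) = Gm s := by unfold Gm Gp G0; ring
theorem Gm_neg (s : ℝ) : Gm (-s) = Gp s := by unfold Gm Gp G0; ring
theorem G0_neg (s : ℝ) : G0 (-s) = -G0 s := by unfold G0; ring
theorem hh_neg (s : ℝ) : hh (-s) = hh s := by unfold hh; ring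
theorem Gp_eq (s : ℝ) : Gp s = (1 - s) ^ 2 * (2 + s) / (3 * Real.sqrt 2) := by
  unfold Gp G0 s0; ring
theorem Gm_eq (s : ℝ) : Gm s = (1 + s) ^ 2 * (2 - s) / (3 * Real.sqrt 2) := by
  unfold Gm G0 s0; ring
theorem Gp_nonneg {s : ℝ} (h : |s| ≤ 1) : 0 ≤ Gp s := by
  have : 0 ≤ 2 + s := by linarith [(abs_le.1 h).1]
  rw [Gp_eq]; positivity
theorem Gm_nonneg {s : ℝ} (h : |s| ≤ 1) : 0 ≤ Gm s := by
  rw [← Gp_neg]; exact Gp_nonneg (by rwa [abs_neg])
theorem Gp_le {s : ℝ} (h : |s| ≤ 1) : Gp s ≤ s0 := by linarith [Gm_add_Gp s, Gm_nonneg h]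
theorem Gm_le {s : ℝ} (h : |s| ≤ 1) : Gm s ≤ s0 := by linarith [Gm_add_Gp s, Gp_nonneg h]
theorem Gp_le_sq {s : ℝ} (h : |s| ≤ 1) : Gp s ≤ (1 - s) ^ 2 := by
  rw [Gp_eq, div_le_iff₀ (by positivity)]
  refine mul_le_mul_of_nonneg_left ?_ (sq_nonneg _)
  nlinarith [sqrt2_sq, sqrt2_pos, (abs_le.1 h).2]
theorem Gm_le_sq {s : ℝ} (h : |s| ≤ 1) : Gm s ≤ (1 + s) ^ 2 := by
  have := Gp_le_sq (s := -s) (by rwa [abs_neg])
  rwa [Gp_neg, sub_neg_eq_add] at this
/-- `s ≤ 0 → G0 s ≤ 0` on `[-1,1]` -/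
theorem half_le_Gp {s : ℝ} (h : |s| ≤ 1) (h0 : s ≤ 0) : s0 / 2 ≤ Gp s := by
  have h1 : 3 * s - s ^ 3 ≤ 0 := by
    have := (sq_le_one_iff_abs_le_one s).2 h
    nlinarith
  have h2 : G0 s ≤ 0 := div_nonpos_of_nonpos_of_nonneg h1 (by positivity)
  unfold Gp; linarith
theorem half_le_Gm {s : ℝ} (h : |s| ≤ 1) (h0 : 0 ≤ s) : s0 / 2 ≤ Gm s := by
  rw [← Gp_neg]; exact half_le_Gp (by rwa [abs_neg]) (by linarith)
theorem hh_nonneg {s : ℝ} (h : |s| ≤ 1) : 0 ≤ hh s :=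
  div_nonneg (sub_nonneg.2 ((sq_le_one_iff_abs_le_one s).2 h)) sqrt2_pos.le
theorem hh_le_one (s : ℝ) : hh s ≤ 1 := by
  rw [hh, div_le_one sqrt2_pos]
  nlinarith [sqrt2_sq, sqrt2_pos, sq_nonneg s]
theorem hh_sq (s : ℝ) : hh s ^ 2 = (1 - s ^ 2) ^ 2 / 2 := by rw [hh, div_pow, sqrt2_sq]
theorem hasDerivAt_G0 (s : ℝ) : HasDerivAt G0 (hh s) s := by
  refine ((((hasDerivAt_id' s).const_mul 3).sub (hasDerivAt_pow 3 s)).div_const _).congr_deriv ?_
  have := sqrt2_pos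
  rw [hh]; field_simp; norm_num; ring
theorem hasDerivAt_Gm (s : ℝ) : HasDerivAt Gm (hh s) s := (hasDerivAt_G0 s).const_add _
theorem hasDerivAt_Gp (s : ℝ) : HasDerivAt Gp (-hh s) s := (hasDerivAt_G0 s).const_sub _
theorem contDiff_hh {m : WithTop ℕ∞} : ContDiff ℝ m hh := by unfold hh; fun_prop
theorem contDiff_G0 {m : WithTop ℕ∞} : ContDiff ℝ m G0 := by unfold G0; fun_prop
theorem contDiff_Gm {m : WithTop ℕ∞} : ContDiff ℝ m Gm := contDiff_const.add contDiff_G0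
theorem contDiff_Gp {m : WithTop ℕ∞} : ContDiff ℝ m Gp := contDiff_const.sub contDiff_G0

/-- Modica in `v`-form -/
theorem gsq_le {v : EE n → ℝ} (h : Sol v) (x : EE n) : gsq v x ≤ hh (v x) ^ 2 := by
  rw [h.gsq_v, hh_sq]
  exact mul_le_of_le_one_right (by positivity) (h.gsq_dd_le x)
theorem norm_grad_le {v : EE n → ℝ} (h : Sol v) (x : EE n) : ‖∇ v x‖ ≤ hh (v x) :=
  le_of_sq_le_sq (by rw [← gsq_eq]; exact gsq_le h x) (hh_nonneg (h.lt x).le)
theorem abs_pdv_le_hh {v : EE n → ℝ} (h : Sol v) (j : Fin n) (x : EE n) :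
    |pdv j v x| ≤ hh (v x) := by
  rw [← grad_apply]
  exact (PiLp.norm_apply_le (∇ v x) j).trans (norm_grad_le h x)
theorem en_eq2 (v : EE n → ℝ) (x : EE n) : en v x = (gsq v x + hh (v x) ^ 2) / 2 := by
  rw [en, hh_sq, gsq_eq]; ring
theorem en_le {v : EE n → ℝ} (h : Sol v) (x : EE n) : en v x ≤ hh (v x) ^ 2 := by
  rw [en_eq2]; linarith [gsq_le h x]
theorem gsq_le_en {v : EE n → ℝ} (h : Sol v) (x : EE n) : gsq v x ≤ en v x := by
  rw [en_eq2]; linarith [gsq_le h x]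
theorem psi_sq_le (v : EE n → ℝ) (x : EE n) : psi v x ^ 2 ≤ 4 * en v x := by
  unfold en psi; nlinarith [sq_nonneg ‖∇ v x‖]
theorem en_neg (v : EE n → ℝ) (x : EE n) : en (fun y => -v y) x = en v x := by
  simp only [en_eq2, gsq, pdv_neg, neg_sq, hh_neg]
theorem cont_en {v : EE n → ℝ} (h : Sol v) : Continuous (en v) :=
  (Aac.contDiff_en h.isSol.c2).continuous
theorem cont_Tn {v : EE n → ℝ} (h : Sol v) (j : Fin n) : Continuous (Tn v j) :=
  (cont_en h).sub ((Aac.cont_pdv (h.cd 1) j).pow 2)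
theorem cont_bt {v : EE n → ℝ} (h : Sol v) (j : Fin n) : Continuous (bt v j) :=
  (cont_en h).sub (((contDiff_hh (m := 0)).continuous.comp h.sm.continuous).mul
    (Aac.cont_pdv (h.cd 1) j))
theorem Tn_nonneg {v : EE n → ℝ} (h : Sol v) (j : Fin n) (x : EE n) : 0 ≤ Tn v j x := by
  have h1 := Bs.sq_le_gsq v j x
  have h2 := gsq_le_en h x
  unfold Tn; linarith
theorem Tn_le (v : EE n → ℝ) (j : Fin n) (x : EE n) : Tn v j x ≤ en v x := sub_le_self _ (sq_nonneg _)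
/-- `bt = |∇v - h e_j|²/2 ≥ (h - v_j)²/2` -/
theorem sq_le_bt (v : EE n → ℝ) (j : Fin n) (x : EE n) :
    (hh (v x) - pdv j v x) ^ 2 ≤ 2 * bt v j x := by
  have h1 := Bs.sq_le_gsq v j x
  rw [bt, en_eq2]; linarith
theorem bt_nonneg (v : EE n → ℝ) (j : Fin n) (x : EE n) : 0 ≤ bt v j x := by
  linarith [sq_le_bt v j x, sq_nonneg (hh (v x) - pdv j v x)]
theorem bt_le {v : EE n → ℝ} (h : Sol v) (j : Fin n) (x : EE n) :
    bt v j x ≤ 2 * hh (v x) ^ 2 := by
  have h1 := mul_le_mul_of_nonneg_left (abs_le.1 (abs_pdv_le_hh h j x)).1 (hh_nonneg (h.lt x).le)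
  have h2 := en_le h x
  unfold bt; linarith
/-- `Tn = (|∇' v|² + h² - v_n²)/2 ≥ |∇' v|²` by Modica -/
theorem gh_le_Tn {v : EE (k + 1) → ℝ} (h : Sol v) (x : EE (k + 1)) :
    gh v x ≤ Tn v (Fin.last k) x := by
  have h1 : gsq v x = gh v x + pdv (Fin.last k) v x ^ 2 := Fin.sum_univ_castSucc _
  have h2 := gsq_le_en h x
  unfold Tn; linarith
/-- `h(v) v_j = ψ² d_j / 2` -/
theorem hh_mul_pdv {v : EE n → ℝ} (h : Sol v) (j : Fin n) (x : EE n) :
    hh (v x) * pdv j v x = psi v x ^ 2 * pdv j (dd v) x / 2 := by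
  rw [h.pdv_v, hh, ← mul_assoc, div_mul_div_comm, sqrt2_mul, psi]; ring
theorem sg_pos {u : EE (k + 1) → ℝ} (h : Sol u) (hm : MonoLast u) (x : EE (k + 1)) :
    0 < sg u x := by
  rw [sg, h.pdv_dd]
  exact mul_pos (div_pos sqrt2_pos (h.psi_pos x)) (hm x)
theorem abs_pdv_dd_le {v : EE n → ℝ} (h : Sol v) (j : Fin n) (x : EE n) :
    |pdv j (dd v) x| ≤ 1 := by
  rw [← grad_apply]
  exact (PiLp.norm_apply_le (∇ (dd v) x) j).trans (h.norm_grad_dd_le x)

theorem Sol_neg {v : EE n → ℝ} (h : Sol v) : Sol fun x => -v x :=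
  ⟨h.sm.neg, fun x => by rw [abs_neg]; exact h.lt x, h.isSol.neg.eq⟩
theorem Mn.neg {v : EE n → ℝ} (h : Mn v) : Mn fun x => -v x :=
  ⟨Sol_neg h.sol, h.slm, by simpa only [neg_neg] using h.slp⟩
theorem Sol_shift {v : EE n → ℝ} (h : Sol v) (a : EE n) : Sol fun x => v (x + a) :=
  ⟨h.sm.comp (contDiff_id.add contDiff_const), fun _ => h.lt _, (Aac.isSol_shift h.isSol a).eq⟩
theorem SLp.shift {v : EE n → ℝ} (h : SLp v) (a : EE n) : SLp fun x => v (x + a) := by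
  intro χ h1 h2 h3
  have h4 := h (fun x => χ (x + -a)) (h1.comp (contDiff_id.add contDiff_const))
    (h2.comp_homeomorph (Homeomorph.addRight (-a))) fun x => h3 _
  rw [← integral_add_right_eq_self _ a, ← integral_add_right_eq_self
    (fun x => ‖∇ (fun x => χ (x + -a)) x‖ * Gp (v x)) a] at h4
  simpa only [Aac.en_shift, norm_grad, fderiv_comp_add_right, add_neg_cancel_right] using h4
theorem Mn.shift {v : EE n → ℝ} (h : Mn v) (a : EE n) : Mn fun x => v (x + a) :=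
  ⟨Sol_shift h.sol a, h.slp.shift a, h.slm.shift a⟩
theorem Flat.mono {v : EE n → ℝ} {r r' H H' : ℝ} {e : EE n} (h : Flat v r e H) (hr : r' ≤ r)
    (hH : H ≤ H') : Flat v r' e H' :=
  ⟨fun x hx h1 => h.1 x (hx.trans_le hr) (hH.trans_lt h1),
    fun x hx h1 => h.2 x (hx.trans_le hr) (h1.trans_le (neg_le_neg hH))⟩

/-! ### cut-offs -/

theorem contDiff_cut (z : EE n) (ρ : ℝ) {m : ℕ∞} : ContDiff ℝ m (cut z ρ) :=
  Real.smoothTransition.contDiff.comp ((contDiff_const.sub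
    ((contDiff_id.sub contDiff_const).norm_sq ℝ)).div_const _)
theorem cut_nonneg (z : EE n) (ρ : ℝ) (x : EE n) : 0 ≤ cut z ρ x := Real.smoothTransition.nonneg _
theorem cut_le_one (z : EE n) (ρ : ℝ) (x : EE n) : cut z ρ x ≤ 1 := Real.smoothTransition.le_one _
theorem cut_eq_one {z x : EE n} {ρ : ℝ} (hρ : 0 < ρ) (h : ‖x - z‖ ≤ ρ) : cut z ρ x = 1 :=
  Real.smoothTransition.one_of_one_le (Bs.one_le hρ (by rwa [abs_norm]))
theorem cut_eq_zero {z x : EE n} {ρ : ℝ} (hρ : 0 < ρ) (h : 2 * ρ ≤ ‖x - z‖) : cut z ρ x = 0 :=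
  Real.smoothTransition.zero_of_nonpos (Bs.le_zero hρ (by rwa [abs_norm]))
theorem cs_cut (z : EE n) {ρ : ℝ} (hρ : 0 < ρ) : HasCompactSupport (cut z ρ) :=
  HasCompactSupport.intro (isCompact_closedBall z (2 * ρ)) fun _ hx =>
    cut_eq_zero hρ (not_le.1 (mem_closedBall_iff_norm.not.1 hx)).le
theorem contDiff_xi (L : ℝ) {m : ℕ∞} : ContDiff ℝ m (xi L) :=
  Real.smoothTransition.contDiff.comp ((contDiff_const.sub (contDiff_id.pow 2)).div_const _)
theorem xi_nonneg (L s : ℝ) : 0 ≤ xi L s := Real.smoothTransition.nonneg _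
theorem xi_le_one (L s : ℝ) : xi L s ≤ 1 := Real.smoothTransition.le_one _
theorem xi_neg (L s : ℝ) : xi L (-s) = xi L s := by rw [xi, xi, neg_sq]
theorem xi_eq_one {L s : ℝ} (hL : 0 < L) (h : |s| ≤ L) : xi L s = 1 :=
  Real.smoothTransition.one_of_one_le (Bs.one_le hL h)
theorem xi_eq_zero {L s : ℝ} (hL : 0 < L) (h : 2 * L ≤ |s|) : xi L s = 0 :=
  Real.smoothTransition.zero_of_nonpos (Bs.le_zero hL h)
/-- one constant for all cut-offs (`Aac.exists_deriv_bound`; `Real.smoothTransition.monotone`) -/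
theorem exists_cutM : ∃ M : ℝ, 0 ≤ M ∧
    (∀ (n : ℕ) (z x : EE n) (ρ : ℝ), 0 < ρ → ‖∇ (cut z ρ) x‖ ≤ M / ρ ∧
      (‖x - z‖ < ρ ∨ 2 * ρ ≤ ‖x - z‖ → ∇ (cut z ρ) x = 0)) ∧
    ∀ L s : ℝ, 0 < L → |deriv (xi L) s| ≤ M / L ∧ (|s| ≤ L ∨ 2 * L ≤ |s| → deriv (xi L) s = 0) ∧
      (s ≤ 0 → 0 ≤ deriv (xi L) s) := by
  obtain ⟨M, hM, h⟩ := Aac.exists_deriv_bound
  have hT : ∀ s, HasDerivAt Real.smoothTransition (deriv Real.smoothTransition s) s := fun s =>
    ((Real.smoothTransition.contDiff (n := 1)).differentiable (by norm_num) s).hasDerivAt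
  have h0 : ∀ {L s : ℝ}, 0 < L → |s| ≤ L ∨ 2 * L ≤ |s| →
      deriv Real.smoothTransition ((4 * L ^ 2 - s ^ 2) / (3 * L ^ 2)) = 0 := fun hL hs =>
    Bs.deriv_zero (hs.symm.imp (Bs.le_zero hL) (Bs.one_le hL))
  have h1 : ∀ {L s : ℝ}, 0 < L →
      |deriv Real.smoothTransition ((4 * L ^ 2 - s ^ 2) / (3 * L ^ 2)) * (-2 / (3 * L ^ 2))| * |s| ≤
        2 * M / L := fun {L s} hL => by
    rcases le_total (2 * L) |s| with hs | hs
    · rw [h0 hL (Or.inr hs), zero_mul, abs_zero, zero_mul]; positivity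
    · rw [abs_mul, abs_div, abs_neg, abs_two, abs_of_pos (by positivity : 0 < 3 * L ^ 2)]
      calc _ ≤ M * (2 / (3 * L ^ 2)) * (2 * L) := by gcongr; exact (h _).1
        _ = 4 / 3 * (M / L) := by field_simp; norm_num
        _ ≤ 2 * (M / L) := by gcongr; norm_num
        _ = _ := by ring
  refine ⟨2 * M, by positivity, fun n z x ρ hρ => ?_, fun L s hL => ?_⟩
  · have e : ∇ (cut z ρ) x = (deriv Real.smoothTransition ((4 * ρ ^ 2 - ‖x - z‖ ^ 2) / (3 * ρ ^ 2)) *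
        (-2 / (3 * ρ ^ 2))) • (x - z) := by
      ext i
      have d1 : DifferentiableAt ℝ (fun y : EE n => ‖y - z‖ ^ 2) x :=
        ((contDiff_id.sub contDiff_const).norm_sq ℝ (n := 1)).differentiable (by norm_num) x
      have d2 := pdv_comp (f := fun y : EE n => ‖y - z‖ ^ 2) (x := x)
        (φ := fun t => Real.smoothTransition ((4 * ρ ^ 2 - t) / (3 * ρ ^ 2)))
        ((hT _).comp _ (((hasDerivAt_id' (‖x - z‖ ^ 2)).const_sub (4 * ρ ^ 2)).div_const
          (3 * ρ ^ 2))) d1 i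
      rw [grad_apply]
      refine d2.trans ?_
      simp only [pdv_normSq, PiLp.smul_apply, PiLp.sub_apply, smul_eq_mul]
      ring
    rw [e]
    refine ⟨?_, fun hx => ?_⟩
    · simpa only [norm_smul, Real.norm_eq_abs, abs_norm] using h1 (s := ‖x - z‖) hρ
    · rw [h0 hρ (by rw [abs_norm]; exact hx.imp_left le_of_lt), zero_mul, zero_smul]
  · have e : deriv (xi L) s = deriv Real.smoothTransition ((4 * L ^ 2 - s ^ 2) / (3 * L ^ 2)) *
        (-2 / (3 * L ^ 2)) * s := by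
      refine (((hT _).comp s (((hasDerivAt_pow 2 s).const_sub (4 * L ^ 2)).div_const
        (3 * L ^ 2))).deriv).trans ?_
      norm_num; ring
    rw [e]
    refine ⟨by rw [abs_mul]; exact h1 hL, fun hs => by rw [h0 hL hs, zero_mul, zero_mul],
      fun hs => ?_⟩
    rw [mul_assoc]
    exact mul_nonneg Real.smoothTransition.monotone.deriv_nonneg (mul_nonneg_of_nonpos_of_nonpos
      (div_nonpos_of_nonpos_of_nonneg (by norm_num) (by positivity)) hs)

/-! ### first variation and the energy bound -/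

/-- `div T = 0` in weak form (`Aac.pdv_en`, `ibp_right`) -/
theorem fv {v φ : EE n → ℝ} (hv : IsSol v) (hφ : ContDiff ℝ 1 φ) (hc : HasCompactSupport φ)
    (j : Fin n) : ∫ x, (en v x * pdv j φ x - pdv j v x * gin v φ x) = 0 := by
  have p1 : ∀ i, ContDiff ℝ 1 (pdv i v) := fun i => contDiff_pdv hv.c2 (by norm_num) i
  have p2 : ∀ i, ContDiff ℝ 1 fun y => pdv i v y * pdv j v y := fun i => (p1 i).mul (p1 j)
  have i1 : ∀ i, Integrable fun z => pdv i (fun y => pdv i v y * pdv j v y) z * φ z := fun i =>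
    ((Aac.cont_pdv (p2 i) i).mul hφ.continuous).integrable_of_hasCompactSupport hc.mul_left
  have i2 : ∀ i, Integrable fun z => pdv i v z * pdv j v z * pdv i φ z := fun i =>
    ((p2 i).continuous.mul (Aac.cont_pdv hφ i)).integrable_of_hasCompactSupport
      (hasCompactSupport_pdv hc i).mul_left
  have i3 : Integrable fun z => en v z * pdv j φ z :=
    ((Aac.contDiff_en hv.c2).continuous.mul (Aac.cont_pdv hφ j)).integrable_of_hasCompactSupport
      (hasCompactSupport_pdv hc j).mul_left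
  have e : ∫ z, pdv j (en v) z * φ z = -∫ z, ∑ i, pdv i v z * pdv j v z * pdv i φ z := by
    rw [integral_finsetSum _ fun i _ => i2 i, ← Finset.sum_neg_distrib,
      ← Finset.sum_congr rfl fun i _ => ibp_right (p2 i) hφ hc i,
      ← integral_finsetSum _ fun i _ => i1 i]
    refine integral_congr_ae (ae_of_all _ fun z => ?_)
    simp only [Aac.pdv_en hv, Finset.sum_mul]
  have e2 : ∀ z, pdv j v z * gin v φ z = ∑ i, pdv i v z * pdv j v z * pdv i φ z := fun z => by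
    rw [gin, Finset.mul_sum]; exact Finset.sum_congr rfl fun i _ => by ring
  rw [ibp_right (Aac.contDiff_en hv.c2) hφ hc, neg_inj] at e
  simp only [e2]
  rw [integral_sub i3 (integrable_finsetSum _ fun i _ => i2 i), e, sub_self]

/-- energy bound from the sliding inequality with `χ = cut z ρ` -/
theorem exists_EN (k : ℕ) : ∃ C : ℝ, 0 ≤ C ∧ ∀ v : EE (k + 1) → ℝ, Sol v → SLp v →
    ∀ (z : EE (k + 1)) (ρ : ℝ), 0 < ρ → ∫ x in ball z ρ, en v x ≤ C * ρ ^ k := by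
  obtain ⟨M, hM, h, -⟩ := exists_cutM
  refine ⟨M * 2 ^ (k + 1) * volume.real (ball (0 : EE (k + 1)) 1), by positivity,
    fun v hv hs z ρ hρ => ?_⟩
  refine (Aac.setInt_le (cont_en hv) (Aac.en_nonneg v) (contDiff_cut z ρ (m := 0)).continuous
    (cs_cut z hρ) (cut_nonneg z ρ) fun x hx => cut_eq_one hρ (mem_ball_iff_norm.1 hx).le).trans
    ((hs _ (contDiff_cut z ρ (m := 1)) (cs_cut z hρ) (cut_nonneg z ρ)).trans ?_)
  rw [← setIntegral_eq_integral_of_forall_compl_eq_zero (s := closedBall z (2 * ρ)) fun x hx => by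
    rw [(h _ z x ρ hρ).2 (Or.inr (not_le.1 (mem_closedBall_iff_norm.not.1 hx)).le), norm_zero,
      zero_mul]]
  refine ((Real.le_norm_self _).trans (norm_setIntegral_le_of_norm_le_const (C := M / ρ)
    measure_closedBall_lt_top fun x _ => ?_)).trans_eq ?_
  · have h1 := (hv.lt x).le
    rw [norm_mul, norm_norm, Real.norm_of_nonneg (Gp_nonneg h1)]
    exact (mul_le_of_le_one_right (norm_nonneg _) ((Gp_le h1).trans s0_le_one)).trans
      (h _ z x ρ hρ).1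
  · rw [Measure.addHaar_real_closedBall _ z (by positivity), finrank_euclideanSpace_fin]
    field_simp
    ring

end

end Crest.Agent.N067.E
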