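import Crest.Agent.N067.E.Basic

/-! # E/Col (leaf E-Col): `EE (k+1) = EE k × ℝ`, Fubini, column integrals -/

set_option autoImplicit false

open MeasureTheory Laplacian InnerProductSpace Topology Filter Set Metric
open scoped RealInnerProductSpace ContDiff Gradient

namespace Crest.Agent.N067.E

open Crest.Agent.R077

noncomputable section

variable {n k : ℕ}

@[simp] theorem init_snoc (y : EE k) (s : ℝ) : init (snoc y s) = y := by
  ext i; simp [init, snoc]
@[simp] theorem snoc_last (y : EE k) (s : ℝ) : snoc y s (Fin.last k) = s := by simp [snoc]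
@[simp] theorem snoc_castSucc (y : EE k) (s : ℝ) (l : Fin k) : snoc y s l.castSucc = y l := by
  simp [snoc]
theorem init_apply (x : EE (k + 1)) (l : Fin k) : init x l = x l.castSucc := rfl
theorem snoc_init (x : EE (k + 1)) : snoc (init x) (x (Fin.last k)) = x := by
  ext i
  refine Fin.lastCases ?_ (fun j => ?_) i <;> simp [init_apply]
theorem norm_sq_split (x : EE (k + 1)) : ‖x‖ ^ 2 = ‖init x‖ ^ 2 + x (Fin.last k) ^ 2 := by
  simp only [EuclideanSpace.real_norm_sq_eq, Fin.sum_univ_castSucc, init_apply]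
theorem norm_init_le (x : EE (k + 1)) : ‖init x‖ ≤ ‖x‖ := by
  refine (abs_le_of_sq_le_sq' ?_ (norm_nonneg _)).2
  rw [norm_sq_split x]; nlinarith [sq_nonneg (x (Fin.last k))]
theorem abs_last_le (x : EE (k + 1)) : |x (Fin.last k)| ≤ ‖x‖ := by
  simpa using PiLp.norm_apply_le x (Fin.last k)
theorem norm_le_split (x : EE (k + 1)) : ‖x‖ ≤ ‖init x‖ + |x (Fin.last k)| := by
  refine abs_le_of_sq_le_sq' ?_ (by positivity) |>.2
  rw [norm_sq_split x, add_sq, sq_abs]
  nlinarith [mul_nonneg (norm_nonneg (init x)) (abs_nonneg (x (Fin.last k)))]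
theorem inner_snoc (p : EE k) (a : ℝ) (x : EE (k + 1)) :
    ⟪snoc p a, x⟫ = ⟪p, init x⟫ + a * x (Fin.last k) := by
  simp only [inner_eq_sum, Fin.sum_univ_castSucc, snoc_castSucc, snoc_last, init_apply]
theorem inner_last (x : EE (k + 1)) : ⟪ev (Fin.last k), x⟫ = x (Fin.last k) := by
  simp [EuclideanSpace.inner_single_left]
theorem init_add (x x' : EE (k + 1)) : init (x + x') = init x + init x' := rfl
theorem init_sub (x x' : EE (k + 1)) : init (x - x') = init x - init x' := rfl
namespace Cl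

/-- `init` as a continuous linear map -/
def initL (k : ℕ) : EE (k + 1) →L[ℝ] EE k :=
  LinearMap.toContinuousLinearMap
    { toFun := init, map_add' := fun _ _ => rfl, map_smul' := fun _ _ => rfl }

/-- `snoc` as a continuous linear map -/
def snocL (k : ℕ) : EE k × ℝ →L[ℝ] EE (k + 1) :=
  LinearMap.toContinuousLinearMap
    { toFun := fun p => snoc p.1 p.2
      map_add' := fun _ _ => by ext i; refine Fin.lastCases ?_ (fun j => ?_) i <;> simp
      map_smul' := fun _ _ => by ext i; refine Fin.lastCases ?_ (fun j => ?_) i <;> simp }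

/-- `y ↦ snoc y 0` -/
def inL (k : ℕ) : EE k →L[ℝ] EE (k + 1) := (snocL k).comp (ContinuousLinearMap.inl ℝ _ _)

theorem inL_apply (y : EE k) : inL k y = snoc y 0 := rfl

theorem fderiv_init {f : EE k → ℝ} {z : EE (k + 1)} (hf : DifferentiableAt ℝ f (init z))
    (w : EE (k + 1)) : fderiv ℝ (fun z => f (init z)) z w = fderiv ℝ f (init z) (init w) := by
  have h := hf.hasFDerivAt.comp z (initL k).hasFDerivAt
  have h2 : fderiv ℝ (fun z => f (init z)) z = _ := h.fderiv
  rw [h2]; rfl

/-- `ℝᵏ × ℝ ≃ ℝᵏ⁺¹` -/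
def snocE (k : ℕ) : EE k × ℝ ≃ᵐ EE (k + 1) :=
  MeasurableEquiv.prodComm.trans
    (((MeasurableEquiv.refl ℝ).prodCongr (MeasurableEquiv.toLp 2 (Fin k → ℝ)).symm).trans
      ((MeasurableEquiv.piFinSuccAbove (fun _ => ℝ) (Fin.last k)).symm.trans
        (MeasurableEquiv.toLp 2 (Fin (k + 1) → ℝ))))

theorem snocE_apply (p : EE k × ℝ) : snocE k p = snoc p.1 p.2 := by
  ext i
  simp [snocE, snoc, MeasurableEquiv.piFinSuccAbove, MeasurableEquiv.prodCongr,
    MeasurableEquiv.prodComm, Fin.insertNthEquiv, Fin.insertNth_last']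

theorem mp_snocE : MeasurePreserving (snocE k) volume volume := by
  refine MeasurePreserving.trans Measure.measurePreserving_swap (MeasurePreserving.trans ?_
    (MeasurePreserving.trans (volume_preserving_piFinSuccAbove (fun _ => ℝ) (Fin.last k)).symm
      (PiLp.volume_preserving_toLp (Fin (k + 1)))))
  exact (MeasurePreserving.id volume).prod (PiLp.volume_preserving_ofLp (Fin k))

theorem cont_vert (y : EE k) : Continuous fun s : ℝ => snoc y s :=
  (snocL k).continuous.comp (Continuous.prodMk_right y)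

theorem col_eq {f : EE (k + 1) → ℝ} {b : ℝ} (hb : VC b f) (y : EE k) :
    col f y = ∫ s in (-b)..b, f (snoc y s) := by
  refine (intervalIntegral.integral_eq_integral_of_support_subset fun s hs => ?_).symm
  have h : |s| < b := not_le.1 fun h => hs (hb _ (by rwa [snoc_last]))
  exact ⟨(abs_lt.1 h).1, (abs_lt.1 h).2.le⟩

theorem cont_icol {F : Type} [NormedAddCommGroup F] [NormedSpace ℝ F] {f : EE (k + 1) → F}
    (hf : Continuous f) (a b : ℝ) : Continuous fun y : EE k => ∫ s in a..b, f (snoc y s) :=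
  intervalIntegral.continuous_parametric_intervalIntegral_of_continuous'
    (f := fun y s => f (snoc y s)) (hf.comp (snocL k).continuous) a b

theorem cont_D {f : EE (k + 1) → ℝ} (hf : ContDiff ℝ 1 f) :
    Continuous fun x => (fderiv ℝ f x).comp (inL k) :=
  (hf.continuous_fderiv one_ne_zero).clm_comp continuous_const

theorem hasFDerivAt_icol {f : EE (k + 1) → ℝ} (hf : ContDiff ℝ 1 f) (a b : ℝ) (y : EE k) :
    HasFDerivAt (fun y : EE k => ∫ s in a..b, f (snoc y s))
      (∫ s in a..b, (fderiv ℝ f (snoc y s)).comp (inL k)) y := by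
  obtain ⟨M, hM⟩ := ((isCompact_closedBall y 1).prod (isCompact_uIcc (a := a) (b := b))
    ).exists_bound_of_continuousOn ((cont_D hf).comp (snocL k).continuous).continuousOn
  refine intervalIntegral.hasFDerivAt_integral_of_dominated_of_fderiv_le (bound := fun _ => M)
    (F' := fun y s => (fderiv ℝ f (snoc y s)).comp (inL k)) (closedBall_mem_nhds y one_pos)
    (Eventually.of_forall fun x => (hf.continuous.comp (cont_vert x)).aestronglyMeasurable)
    ((hf.continuous.comp (cont_vert y)).intervalIntegrable _ _)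
    ((cont_D hf).comp (cont_vert y)).aestronglyMeasurable
    (Eventually.of_forall fun t ht x hx => hM (x, t) ⟨hx, uIoc_subset_uIcc ht⟩)
    intervalIntegrable_const (Eventually.of_forall fun t _ x _ => ?_)
  exact (hf.differentiable one_ne_zero _).hasFDerivAt.comp x
    ((snocL k).hasFDerivAt.comp x (hasFDerivAt_prodMk_left x t))

end Cl

theorem contDiff_init {m : WithTop ℕ∞} : ContDiff ℝ m (init : EE (k + 1) → EE k) :=
  (Cl.initL k).contDiff
theorem contDiff_last {m : WithTop ℕ∞} : ContDiff ℝ m fun x : EE (k + 1) => x (Fin.last k) :=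
  (EuclideanSpace.proj (Fin.last k) : EE (k + 1) →L[ℝ] ℝ).contDiff
theorem contDiff_snoc {m : WithTop ℕ∞} :
    ContDiff ℝ m fun p : EE k × ℝ => snoc p.1 p.2 := (Cl.snocL k).contDiff
theorem measurePreserving_snoc :
    MeasurePreserving (fun p : EE k × ℝ => snoc p.1 p.2) volume volume := by
  rw [← show (Cl.snocE k : EE k × ℝ → EE (k + 1)) = fun p => snoc p.1 p.2 from
    funext Cl.snocE_apply]
  exact Cl.mp_snocE

theorem hasDerivAt_snoc {f : EE (k + 1) → ℝ} {y : EE k} {s : ℝ}
    (hf : DifferentiableAt ℝ f (snoc y s)) :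
    HasDerivAt (fun s => f (snoc y s)) (pdv (Fin.last k) f (snoc y s)) s := by
  have h : HasDerivAt (fun s => snoc y s) (ev (Fin.last k)) s := by
    have e : (fun s => snoc y s) = fun s : ℝ => snoc y 0 + s • ev (Fin.last k) := by
      funext s; rw [Aac.snoc_eq]; simp
    rw [e]
    simpa using ((hasDerivAt_id s).smul_const (ev (Fin.last k) : EE (k + 1))).const_add (snoc y 0)
  exact hf.hasFDerivAt.comp_hasDerivAt s h
theorem pdv_init_cs {ζ : EE k → ℝ} {x : EE (k + 1)} (h : DifferentiableAt ℝ ζ (init x)) (l : Fin k) :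
    pdv l.castSucc (fun x => ζ (init x)) x = pdv l ζ (init x) := by
  rw [pdv, Cl.fderiv_init h, pdv]
  congr 1
  ext j; simp [init_apply]
theorem pdv_init_last {ζ : EE k → ℝ} {x : EE (k + 1)} (h : DifferentiableAt ℝ ζ (init x)) :
    pdv (Fin.last k) (fun x => ζ (init x)) x = 0 := by
  have e : init (ev (Fin.last k)) = 0 := by
    ext j; simp [init_apply, (Fin.castSucc_lt_last j).ne]
  rw [pdv, Cl.fderiv_init h, e, map_zero]
theorem pdv_vert_cs {ξ : ℝ → ℝ} {x : EE (k + 1)} (h : DifferentiableAt ℝ ξ (x (Fin.last k)))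
    (l : Fin k) : pdv l.castSucc (fun x => ξ (x (Fin.last k))) x = 0 := by
  rw [pdv_comp (f := fun x => x (Fin.last k)) h.hasDerivAt
    ((contDiff_last (m := 1)).differentiable one_ne_zero x), pdv_coord,
    if_neg (Fin.castSucc_lt_last l).ne', mul_zero]
theorem pdv_vert_last {ξ : ℝ → ℝ} {x : EE (k + 1)} (h : DifferentiableAt ℝ ξ (x (Fin.last k))) :
    pdv (Fin.last k) (fun x => ξ (x (Fin.last k))) x = deriv ξ (x (Fin.last k)) := by
  rw [pdv_comp (f := fun x => x (Fin.last k)) h.hasDerivAt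
    ((contDiff_last (m := 1)).differentiable one_ne_zero x), pdv_coord, if_pos rfl, mul_one]
theorem gin_split (f g : EE (k + 1) → ℝ) (x : EE (k + 1)) : gin f g x =
    ∑ l : Fin k, pdv l.castSucc f x * pdv l.castSucc g x
      + pdv (Fin.last k) f x * pdv (Fin.last k) g x := Fin.sum_univ_castSucc _
theorem cs_prod {ζ : EE k → ℝ} (hζ : HasCompactSupport ζ) {f : EE (k + 1) → ℝ} {b : ℝ}
    (hb : VC b f) : HasCompactSupport fun x => ζ (init x) * f x := by
  refine HasCompactSupport.intro
    ((hζ.isCompact.prod (isCompact_Icc (a := -b) (b := b))).image (Cl.snocL k).continuous)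
    fun z hz => ?_
  by_contra h
  have h1 : |z (Fin.last k)| < b := not_le.1 fun h2 => right_ne_zero_of_mul h (hb z h2)
  exact hz ⟨(init z, z (Fin.last k)), ⟨subset_tsupport _ (left_ne_zero_of_mul h),
    abs_le.1 h1.le⟩, snoc_init z⟩
theorem VC.xi {L : ℝ} (hL : 0 < L) (f : EE (k + 1) → ℝ) :
    VC (2 * L) fun x => xi L (x (Fin.last k)) * f x := fun x hx => by
  simp only [xi_eq_zero hL hx, zero_mul]
theorem VC.dxi {L : ℝ} (hL : 0 < L) (f : EE (k + 1) → ℝ) :
    VC (2 * L) fun x => |deriv (E.xi L) (x (Fin.last k))| * f x := fun x hx => by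
  obtain ⟨M, -, -, h⟩ := exists_cutM
  simp only [(h L _ hL).2.1 (Or.inr hx), abs_zero, zero_mul]
theorem VC.pdv {f : EE (k + 1) → ℝ} {b : ℝ} (hb : VC b f) (i : Fin (k + 1)) :
    VC (b + 1) (pdv i f) := fun x hx => by
  have h1 : {z : EE (k + 1) | b < |z (Fin.last k)|} ∈ 𝓝 x :=
    (isOpen_lt continuous_const (contDiff_last (m := 0)).continuous.abs).mem_nhds
      (by show b < _; linarith)
  have h2 : f =ᶠ[𝓝 x] fun _ => 0 := by
    filter_upwards [h1] with z hz using hb z (le_of_lt hz)
  rw [pdv_congr h2, pdv_const]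

theorem integrable_col {f : EE (k + 1) → ℝ} {b : ℝ} (hf : Continuous f) (hb : VC b f) (y : EE k) :
    Integrable fun s => f (snoc y s) :=
  (hf.comp (Cl.cont_vert y)).integrable_of_hasCompactSupport
    (HasCompactSupport.intro (isCompact_Icc (a := -b) (b := b)) fun s hs =>
      hb _ (by rw [snoc_last]; exact (not_le.1 fun h => hs (abs_le.1 h)).le))
theorem col_eq {f : EE (k + 1) → ℝ} {b : ℝ} (hb0 : 0 ≤ b) (hb : VC b f) (y : EE k) :
    col f y = ∫ s in (-b)..b, f (snoc y s) := Cl.col_eq hb y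
theorem cont_col {f : EE (k + 1) → ℝ} {b : ℝ} (hf : Continuous f) (hb : VC b f) :
    Continuous (col f) := by
  rw [funext (Cl.col_eq hb)]
  exact Cl.cont_icol hf _ _
theorem contDiff_col {f : EE (k + 1) → ℝ} {b : ℝ} (hf : ContDiff ℝ 1 f) (hb : VC b f) :
    ContDiff ℝ 1 (col f) := by
  rw [funext (Cl.col_eq hb)]
  refine contDiff_one_iff_fderiv.2 ⟨fun y => (Cl.hasFDerivAt_icol hf _ _ y).differentiableAt, ?_⟩
  rw [funext fun y => (Cl.hasFDerivAt_icol hf (-b) b y).fderiv]
  exact Cl.cont_icol (Cl.cont_D hf) _ _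
theorem pdv_col {f : EE (k + 1) → ℝ} {b : ℝ} (hf : ContDiff ℝ 1 f) (hb : VC b f) (l : Fin k)
    (y : EE k) : pdv l (col f) y = col (pdv l.castSucc f) y := by
  have hb' : VC (b + 1) f := fun x hx => hb x (by linarith)
  rw [funext (Cl.col_eq hb'), Cl.col_eq (hb.pdv _), pdv, (Cl.hasFDerivAt_icol hf _ _ y).fderiv,
    ContinuousLinearMap.intervalIntegral_apply
      (φ := fun s => (fderiv ℝ f (snoc y s)).comp (Cl.inL k)) (((Cl.cont_D hf).comp (Cl.cont_vert y)).intervalIntegrable _ _)]
  have e : Cl.inL k (ev l) = ev l.castSucc := by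
    ext i
    refine Fin.lastCases ?_ (fun j => ?_) i
    · simp [Cl.inL_apply, (Fin.castSucc_lt_last l).ne']
    · simp [Cl.inL_apply]
  simp only [ContinuousLinearMap.comp_apply, e, pdv]
theorem col_pdv_last {f : EE (k + 1) → ℝ} {b : ℝ} (hf : ContDiff ℝ 1 f) (hb : VC b f) (y : EE k) :
    col (pdv (Fin.last k) f) y = 0 :=
  integral_eq_zero_of_hasDerivAt_of_integrable
    (fun _ => hasDerivAt_snoc (hf.differentiable one_ne_zero _))
    (integrable_col (contDiff_pdv (m := 0) hf (by simp) _).continuous (hb.pdv _) y)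
    (integrable_col hf.continuous hb y)
theorem cont_icol {f : EE (k + 1) → ℝ} (hf : Continuous f) (a b : ℝ) :
    Continuous fun y : EE k => ∫ s in a..b, f (snoc y s) := Cl.cont_icol hf a b

/-- Fubini -/
theorem integral_snoc {f : EE (k + 1) → ℝ} (hf : Integrable f) : ∫ x, f x = ∫ y, col f y := by
  rw [← Cl.mp_snocE.integral_comp' f]
  simp only [Cl.snocE_apply]
  exact integral_prod _ (measurePreserving_snoc.integrable_comp_of_integrable hf)
theorem int_col {ζ : EE k → ℝ} (hζ : Continuous ζ) (hc : HasCompactSupport ζ)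
    {f : EE (k + 1) → ℝ} {b : ℝ} (hf : Continuous f) (hb : VC b f) :
    ∫ x, ζ (init x) * f x = ∫ y, ζ y * col f y := by
  rw [integral_snoc (f := fun x => ζ (init x) * f x) (((hζ.comp (contDiff_init (m := 0)).continuous).mul
    hf).integrable_of_hasCompactSupport (cs_prod hc hb))]
  simp only [col, init_snoc, integral_const_mul]
theorem isOpen_cyl (ρ b : ℝ) : IsOpen (cyl k ρ b) :=
  (isOpen_lt (contDiff_init (m := 0)).continuous.norm continuous_const).inter
    (isOpen_lt (contDiff_last (m := 0)).continuous.abs continuous_const)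
theorem cyl_subset (ρ b : ℝ) : cyl k ρ b ⊆ ball 0 (ρ + b) := fun x hx => by
  rw [mem_ball_zero_iff]
  linarith [norm_le_split x, hx.1, hx.2]
theorem integrableOn_cyl {f : EE (k + 1) → ℝ} (hf : Continuous f) (ρ b : ℝ) :
    IntegrableOn f (cyl k ρ b) :=
  (hf.continuousOn.integrableOn_compact (isCompact_closedBall 0 (ρ + b))).mono_set
    ((cyl_subset ρ b).trans ball_subset_closedBall)
theorem setint_cyl {f : EE (k + 1) → ℝ} (hf : Continuous f) (ρ : ℝ) {b : ℝ} (hb : 0 ≤ b) :
    ∫ x in cyl k ρ b, f x = ∫ y in ball (0 : EE k) ρ, ∫ s in (-b)..b, f (snoc y s) := by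
  have e : Cl.snocE k ⁻¹' cyl k ρ b = ball (0 : EE k) ρ ×ˢ Ioo (-b) b := by
    ext p; simp [cyl, Cl.snocE_apply, abs_lt]
  have h := (Cl.mp_snocE.integrableOn_comp_preimage (Cl.snocE k).measurableEmbedding).2
    (integrableOn_cyl hf ρ b)
  rw [← Cl.mp_snocE.setIntegral_preimage_emb (Cl.snocE k).measurableEmbedding, e] at *
  refine (setIntegral_prod _ h).trans (integral_congr_ae (Eventually.of_forall fun y => ?_))
  simp only [Function.comp, Cl.snocE_apply]
  rw [intervalIntegral.integral_of_le (by linarith), integral_Ioc_eq_integral_Ioo]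

end

end Crest.Agent.N067.E
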