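import Crest.Agent.N067.E.Basic
import Crest.Agent.N067.A.Harn

/-! # E/Gib (leaf E-Gib): Gibbons in `d`-variables

`half`: if `m = sup w > 0`, maximise `w - ε(1 + ‖x‖²)` on the closed half space; interior maximum
`x_ε`, `w x_ε ≥ m/2`, `Δ w x_ε ≤ 2nε`, contradiction for small `ε`.
`dd_near`: `ballS` gives `v ≥ 0.9` on `{⟪e,x⟫ ≥ A}`, `A = |K| + R₀`; `half` for `w = tanh((⟪e,x⟫ - A)/√2) - v`
(`s³ - s` has slope `≥ 1` on `[0.9,1]`) gives `dd v ≥ ⟪e,x⟫ - A` on `{⟪e,x⟫ ≥ A}`; same for `-v, -e`; the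
bounds extend to all `x` by `abs_dd_sub_le`.
`gib`: for `⟪e',e⟫ > 0` put `ω_t x = dd v (x + t e') - dd v x`.  The set of `t > 0` with `ω_t ≥ 0` is closed,
nonempty (`dd_near`) and open: `|Δ ω_t| ≤ 3 ‖D ω_t‖ + 3 |ω_t|` (`lap_dd`), so `harnack_glob` and the telescoping
sum `∑_{i<m} ω(x + i t e') ≥ m t ⟪e',e⟫ - 2A` give `inf ω_t > 0`.  Hence `∇ dd v x = N(x) e`, `P = ψ² tt` is
constant and `→ 0` deep in the half space (`ballS`), so `tt = 0`, `oneD`. -/

set_option autoImplicit false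

open MeasureTheory Laplacian InnerProductSpace Topology Filter Set Metric
open scoped RealInnerProductSpace ContDiff Gradient

namespace Crest.Agent.N067.E

open Crest.Agent.R077

noncomputable section

variable {n k : ℕ}

theorem half {w : EE n → ℝ} {e : EE n} {A B : ℝ} (hw : ContDiff ℝ 2 w) (hB : ∀ x, w x ≤ B)
    (h0 : ∀ x, ⟪e, x⟫ = A → w x ≤ 0) (hL : ∀ x, A < ⟪e, x⟫ → 0 < w x → w x ≤ (Δ w) x) :
    ∀ x, A ≤ ⟪e, x⟫ → w x ≤ 0 := by
  intro x0 hx0
  by_contra! hp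
  obtain ⟨ε, hε, hε'⟩ : ∃ ε : ℝ, 0 < ε ∧ ε * (2 * n) < w x0 :=
    ⟨w x0 / (2 * n + 1), by positivity, by
      rw [div_mul_eq_mul_div, div_lt_iff₀ (by positivity)]; linarith⟩
  have hB0 : 0 < B := hp.trans_le (hB x0)
  have ci : Continuous fun x : EE n => ⟪e, x⟫ := by fun_prop
  have cq := (contDiff_sq x0 (k := 2)).const_smul ε
  obtain ⟨y, ⟨hy1, hy2⟩, hmax⟩ := ((isCompact_closedBall x0 (B / ε + 1)).inter_right
    (isClosed_le continuous_const ci : IsClosed {x | A ≤ ⟪e, x⟫})).exists_isMaxOn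
    ⟨x0, mem_closedBall_self (by positivity), hx0⟩ (hw.sub cq).continuous.continuousOn
  have h1 : w x0 ≤ w y - ε * ‖y - x0‖ ^ 2 := by
    simpa using hmax (a := x0) ⟨mem_closedBall_self (by positivity), hx0⟩
  have h2 : w x0 ≤ w y := h1.trans (sub_le_self _ (by positivity))
  have h3 : A < ⟪e, y⟫ := lt_of_le_of_ne hy2 fun h => by linarith [h0 y h.symm]
  have h4 : y ∈ ball x0 (B / ε + 1) := by
    rw [mem_ball, dist_eq_norm]
    by_contra! h
    have h5 : B = ε * (B / ε) := by field_simp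
    have h6 : 0 < B / ε := by positivity
    nlinarith [hB y, pow_le_pow_left₀ (by positivity) h 2]
  have h5 := lap_of_max (hw.sub cq).contDiffAt (hmax.isLocalMax (inter_mem
    (mem_of_superset (isOpen_ball.mem_nhds h4) ball_subset_closedBall)
    (mem_of_superset ((isOpen_lt continuous_const ci).mem_nhds h3) fun z (hz : A < _) => hz.le)))
  simp only [smul_eq_mul] at h5 cq
  rw [lap_sub' hw.contDiffAt cq.contDiffAt, lap_const_mul (contDiff_sq x0).contDiffAt,
    lap_normSq] at h5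
  linarith [hL y h3 (hp.trans_le h2)]

namespace Gb

theorem contDiff_tanh : ContDiff ℝ 2 Real.tanh := by
  rw [show Real.tanh = fun t => Real.sinh t / Real.cosh t from funext Real.tanh_eq_sinh_div_cosh]
  exact Real.contDiff_sinh.div Real.contDiff_cosh fun t => (Real.cosh_pos t).ne'

theorem tanh_lip (a b : ℝ) : |Real.tanh a - Real.tanh b| ≤ |a - b| := by
  have := (lipschitzWith_of_nnnorm_deriv_le (C := 1)
    (fun s => (Aac.hasDerivAt_tanh s).differentiableAt) fun s => by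
      rw [(Aac.hasDerivAt_tanh s).deriv, ← NNReal.coe_le_coe, coe_nnnorm, Real.norm_eq_abs, abs_le]
      constructor <;> push_cast <;> nlinarith [Real.tanh_sq_lt_one s, sq_nonneg (Real.tanh s)]
    ).dist_le_mul a b
  rwa [NNReal.coe_one, one_mul] at this

theorem lap_prof {e : EE n} (he : ‖e‖ = 1) (A : ℝ) :
    ContDiff ℝ 2 (fun x => Real.tanh ((√2)⁻¹ * (⟪e, x⟫ - A))) ∧
    ∀ x, (Δ fun x => Real.tanh ((√2)⁻¹ * (⟪e, x⟫ - A))) x =
      Real.tanh ((√2)⁻¹ * (⟪e, x⟫ - A)) ^ 3 - Real.tanh ((√2)⁻¹ * (⟪e, x⟫ - A)) := by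
  have hin : ContDiff ℝ 2 fun y : EE n => ⟪e, y⟫ := contDiff_const.inner ℝ contDiff_id
  have h1 := hin.sub (contDiff_const (c := A))
  have h2 := (contDiff_const (c := (√2)⁻¹)).mul h1
  refine ⟨contDiff_tanh.comp h2, fun x => ?_⟩
  have h3 : gsq (fun x => (√2)⁻¹ * (⟪e, x⟫ - A)) x = 1 / 2 := by
    simp only [gsq, pdv_const_mul (h1.differentiable (by norm_num) x), pdv_sub_const, pdv_inner,
      mul_pow, ← Finset.mul_sum, ← EuclideanSpace.real_norm_sq_eq, he, inv_pow, sqrt2_sq]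
    norm_num
  rw [lap_comp h2.contDiffAt contDiff_tanh.contDiffAt (.of_forall Aac.hasDerivAt_tanh)
    (((Aac.hasDerivAt_tanh _).fun_pow 2).const_sub 1), h3, lap_const_mul h1.contDiffAt,
    lap_sub_const hin.contDiffAt, lap_inner]
  push_cast
  ring

theorem lower {v : EE n → ℝ} (hv : Sol v) {e : EE n} {K : ℝ} (he : ‖e‖ = 1)
    (hp : ∀ x, K < ⟪e, x⟫ → 0 < v x) : ∃ A : ℝ, ∀ x, ⟪e, x⟫ - A ≤ dd v x := by
  obtain ⟨R, hR, hb⟩ := ballS n (1 / 10) (by norm_num)
  obtain ⟨c, hl⟩ := lap_prof he (K + R)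
  have h9 : ∀ x, K + R ≤ ⟪e, x⟫ → 1 - 1 / 10 ≤ v x := fun x hx =>
    hb v hv.isSol x fun y hy => hp y (by
      have := abs_real_inner_le_norm e (x - y)
      rw [he, one_mul, inner_sub_right, ← dist_eq_norm, dist_comm] at this
      linarith [mem_ball.1 hy, le_abs_self (⟪e, x⟫ - ⟪e, y⟫)])
  have key := half (e := e) (A := K + R) (B := 2) (c.sub (hv.cd 2))
    (fun x => by linarith [Real.tanh_lt_one ((√2)⁻¹ * (⟪e, x⟫ - (K + R))), (abs_lt.1 (hv.lt x)).1])
    (fun x hx => by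
      simp only [hx, sub_self, mul_zero, Real.tanh_zero]; linarith [h9 x hx.ge])
    fun x hx h0 => by
      rw [lap_sub' c.contDiffAt (hv.cd 2).contDiffAt, hl, hv.eq]
      have := h9 x hx.le
      generalize Real.tanh _ = T at h0 ⊢
      nlinarith [mul_nonneg h0.le (show 0 ≤ T ^ 2 + T * v x + v x ^ 2 - 2 by nlinarith)]
  have k2 : ∀ x, K + R ≤ ⟪e, x⟫ → ⟪e, x⟫ - (K + R) ≤ dd v x := fun x hx => by
    have := mul_le_mul_of_nonneg_left (Real.artanh_le_artanh (Real.neg_one_lt_tanh _)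
      (abs_lt.1 (hv.lt x)).2 (sub_nonpos.1 (key x hx))) sqrt2_pos.le
    rwa [Real.artanh_tanh, mul_inv_cancel_left₀ sqrt2_pos.ne'] at this
  refine ⟨K + R, fun x => (le_total _ _).elim (k2 x) fun hx => ?_⟩
  have h1 : ⟪e, x + (K + R - ⟪e, x⟫) • e⟫ = K + R := by
    rw [inner_add_right, real_inner_smul_right, real_inner_self_eq_norm_sq, he]; ring
  have h2 := k2 _ h1.ge
  have h3 := hv.abs_dd_sub_le (x + (K + R - ⟪e, x⟫) • e) x
  rw [add_sub_cancel_left, norm_smul, he, Real.norm_of_nonneg (by linarith)] at h3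
  linarith [(abs_le.1 h3).2]

theorem dd_neg {v : EE n → ℝ} (hv : Sol v) (x : EE n) : dd (fun y => -v y) x = -dd v x := by
  rw [dd, hv.eq_tanh x, ← Real.tanh_neg, Real.artanh_tanh, mul_neg, mul_div_cancel₀ _ sqrt2_pos.ne']

/-- the difference of two solutions in `d`-variables -/
theorem lap_diff {u v : EE n → ℝ} (hu : Sol u) (hv : Sol v) (x : EE n) :
    |(Δ fun y => dd u y - dd v y) x| ≤
      3 * ‖fderiv ℝ (fun y => dd u y - dd v y) x‖ + 3 * |dd u x - dd v x| := by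
  have h1 : |tt u x - tt v x| ≤ 2 * ‖fderiv ℝ (fun y => dd u y - dd v y) x‖ := by
    have e : ‖fderiv ℝ (fun y => dd u y - dd v y) x‖ = ‖∇ (dd u) x - ∇ (dd v) x‖ := by
      rw [fderiv_fun_sub (hu.dd_diff x) (hv.dd_diff x), gradient, gradient, ← map_sub,
        LinearIsometryEquiv.norm_map]
    have a := abs_norm_sub_norm_le (∇ (dd u) x) (∇ (dd v) x)
    rw [e, tt, tt, show ∀ a b : ℝ, 1 - a ^ 2 - (1 - b ^ 2) = -((a + b) * (a - b)) from
      fun a b => by ring, abs_neg, abs_mul, abs_of_nonneg (by positivity)]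
    exact mul_le_mul (by linarith [hu.norm_grad_dd_le x, hv.norm_grad_dd_le x]) a (abs_nonneg _)
      zero_le_two
  have h2 : √2 * |u x - v x| ≤ |dd u x - dd v x| := by
    have := tanh_lip (dd u x / √2) (dd v x / √2)
    rwa [← hu.eq_tanh, ← hv.eq_tanh, ← sub_div, abs_div, abs_of_pos sqrt2_pos,
      le_div_iff₀' sqrt2_pos] at this
  have h3 : √2 ≤ 3 / 2 := Real.sqrt_le_iff.2 ⟨by norm_num, by norm_num⟩
  rw [lap_sub' (hu.dd_cd 2).contDiffAt (hv.dd_cd 2).contDiffAt, hu.lap_dd, hv.lap_dd,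
    show -√2 * u x * tt u x - -√2 * v x * tt v x =
      -(√2 * (u x * (tt u x - tt v x)) + √2 * ((u x - v x) * tt v x)) by ring, abs_neg]
  refine (abs_add_le _ _).trans (add_le_add ?_ ?_)
  · rw [abs_mul, abs_mul, abs_of_pos sqrt2_pos]
    have := mul_le_mul (hu.lt x).le h1 (abs_nonneg _) zero_le_one
    exact (mul_le_mul h3 this (by positivity) (by norm_num)).trans_eq (by ring)
  · rw [abs_mul, abs_mul, abs_of_pos sqrt2_pos, abs_of_nonneg (hv.tt_nonneg x), ← mul_assoc]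
    exact (mul_le_mul h2 (tt_le_one v x) (hv.tt_nonneg x) (abs_nonneg _)).trans
      (by linarith [abs_nonneg (dd u x - dd v x)])

/-- sliding in a direction `e'` with `⟪e, e'⟫ > 0` -/
theorem slide {v : EE n → ℝ} (hv : Sol v) {e e' : EE n} {A : ℝ} (hA : ∀ x, |dd v x - ⟪e, x⟫| ≤ A)
    (he : 0 < ⟪e, e'⟫) {t : ℝ} (ht : 0 < t) (x : EE n) : dd v x ≤ dd v (x + t • e') := by
  have big : ∀ (t : ℝ) x, t * ⟪e, e'⟫ - 2 * A ≤ dd v (x + t • e') - dd v x := fun t x => by
    have h1 := (abs_le.1 (hA (x + t • e'))).1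
    rw [inner_add_right, real_inner_smul_right] at h1
    linarith [(abs_le.1 (hA x)).2]
  have hA0 : 0 ≤ A := (abs_nonneg _).trans (hA 0)
  have hc := hv.dd_diff.continuous
  refine ((isPreconnected_Ioi (a := (0 : ℝ))).subset_of_closure_inter_subset
    (u := {t | 0 < t ∧ ∀ x, dd v x ≤ dd v (x + t • e')}) ?_
    ⟨(2 * A + 1) / ⟪e, e'⟫, by simp only [mem_Ioi]; positivity, by positivity, fun x => ?_⟩
    (fun t ⟨h1, h2⟩ => ⟨h2, fun x => ?_⟩) ht).2 x
  · refine Metric.isOpen_iff.2 fun t ⟨ht, h⟩ => ?_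
    obtain ⟨C, hC, H⟩ := harnack_glob n (B := 3) (by norm_num)
    have hu := Sol_shift hv (t • e')
    have H := (H (fun y => dd v (y + t • e') - dd v y) ((hu.dd_cd 2).sub (hv.dd_cd 2))
      (fun z => sub_nonneg.2 (h z)) fun z => by
        have := lap_diff hu hv z
        rwa [abs_of_nonneg (a := dd _ z - dd v z) (sub_nonneg.2 (h z))] at this).2
    obtain ⟨m, hm⟩ := exists_nat_gt (2 * A / (t * ⟪e, e'⟫ / 2))
    rw [div_lt_iff₀ (by positivity)] at hm
    set c := t * ⟪e, e'⟫ / 2 / Real.exp (C * (m * ‖t • e'‖)) with hc'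
    have low : ∀ x, c ≤ dd v (x + t • e') - dd v x := fun x => by
      obtain ⟨i, hi, h1⟩ := Finset.exists_lt_of_sum_lt (s := Finset.range m)
        (f := fun _ => t * ⟪e, e'⟫ / 2)
        (g := fun i => dd v (x + ((i + 1 : ℕ) * t) • e') - dd v (x + (i * t) • e')) (by
          rw [Finset.sum_range_sub (fun i : ℕ => dd v (x + (i * t) • e')), Finset.sum_const,
            Finset.card_range, nsmul_eq_mul, Nat.cast_zero, zero_mul, zero_smul, add_zero]
          linarith [big (m * t) x])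
      have h2 := H x (x + (i * t) • e')
      rw [add_assoc, ← add_smul, ← add_one_mul, ← Nat.cast_succ, add_sub_cancel_left,
        show ‖((i : ℝ) * t) • e'‖ = i * ‖t • e'‖ by rw [mul_smul, norm_smul, Real.norm_natCast]] at h2
      rw [hc', div_le_iff₀' (Real.exp_pos _)]
      refine (h1.le.trans h2).trans (mul_le_mul_of_nonneg_right (Real.exp_le_exp.2 ?_)
        (sub_nonneg.2 (h x)))
      have : (i : ℝ) ≤ m := Nat.cast_le.2 (Finset.mem_range.1 hi).le
      gcongr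
    have c0 : 0 < c := by positivity
    refine ⟨min t (c / (‖e'‖ + 1)), by positivity, fun s hs => ?_⟩
    rw [mem_ball, Real.dist_eq, lt_min_iff, lt_div_iff₀ (by positivity)] at hs
    refine ⟨by linarith [(abs_lt.1 hs.1).1], fun x => ?_⟩
    have h1 := hv.abs_dd_sub_le (x + s • e') (x + t • e')
    rw [add_sub_add_left_eq_sub, ← sub_smul, norm_smul, Real.norm_eq_abs] at h1
    nlinarith [(abs_le.1 h1).1, low x, abs_nonneg (s - t)]
  · have := big ((2 * A + 1) / ⟪e, e'⟫) x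
    rw [div_mul_cancel₀ _ he.ne'] at this
    linarith
  · exact closure_minimal (t := {t : ℝ | dd v x ≤ dd v (x + t • e')}) (fun s hs => hs.2 x)
      (isClosed_le continuous_const (by fun_prop)) h1

theorem dir_nonneg {f : EE n → ℝ} {x a : EE n} (hf : DifferentiableAt ℝ f x)
    (h : ∀ t : ℝ, 0 < t → f x ≤ f (x + t • a)) : 0 ≤ fderiv ℝ f x a :=
  ge_of_tendsto (hf.hasFDerivAt.hasLineDerivAt a).tendsto_slope_zero_right
    (eventually_nhdsWithin_of_forall fun t ht =>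
      smul_nonneg (inv_nonneg.2 (le_of_lt ht)) (sub_nonneg.2 (h t ht)))

/-- a vector that is nonnegative on an open half space is parallel to the normal -/
theorem parallel {g e : EE n} (he : ‖e‖ = 1) (h : ∀ a, 0 < ⟪e, a⟫ → 0 ≤ ⟪g, a⟫) :
    g = ⟪g, e⟫ • e := by
  have ee : ⟪e, e⟫ = 1 := by rw [real_inner_self_eq_norm_sq, he, one_pow]
  set p := g - ⟪g, e⟫ • e with hp
  have h1 : ⟪e, p⟫ = 0 := by
    rw [hp, inner_sub_right, real_inner_smul_right, ee, real_inner_comm]; ring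
  have h2 : ⟪g, p⟫ = ‖p‖ ^ 2 := by
    rw [← real_inner_self_eq_norm_sq, ← sub_eq_zero, ← inner_sub_left, hp, sub_sub_cancel,
      real_inner_smul_left, h1, mul_zero]
  refine sub_eq_zero.1 (by_contra fun h0 => ?_)
  have h3 : 0 < ‖p‖ ^ 2 := pow_pos (norm_pos_iff.2 h0) 2
  have h4 := h (e - ((|⟪g, e⟫| + 1) / ‖p‖ ^ 2) • p) (by
    rw [inner_sub_right, real_inner_smul_right, h1, ee]; norm_num)
  rw [inner_sub_right, real_inner_smul_right, h2, div_mul_cancel₀ _ h3.ne'] at h4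
  linarith [le_abs_self ⟪g, e⟫]

end Gb
open Gb

theorem dd_near {v : EE n → ℝ} (hv : Sol v) {e : EE n} {K : ℝ} (he : ‖e‖ = 1)
    (hp : ∀ x, K < ⟪e, x⟫ → 0 < v x) (hq : ∀ x, ⟪e, x⟫ < -K → v x < 0) :
    ∃ A : ℝ, ∀ x, |dd v x - ⟪e, x⟫| ≤ A := by
  obtain ⟨A, h⟩ := lower hv he hp
  obtain ⟨A', h'⟩ := lower (K := K) (Sol_neg hv) ((norm_neg e).trans he) fun x hx =>
    neg_pos.2 (hq x (by rw [inner_neg_left] at hx; linarith))
  refine ⟨max A A', fun x => abs_le.2 ⟨by linarith [h x, le_max_left A A'], ?_⟩⟩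
  have := h' x
  rw [dd_neg hv, inner_neg_left] at this
  linarith [le_max_right A A']

theorem gib {v : EE n → ℝ} (hv : Sol v) {e : EE n} {K : ℝ} (he : ‖e‖ = 1)
    (hp : ∀ x, K < ⟪e, x⟫ → 0 < v x) (hq : ∀ x, ⟪e, x⟫ < -K → v x < 0) : Planar v := by
  obtain ⟨A, hA⟩ := dd_near hv he hp hq
  have h1 : ∀ j, pdv j (dd v) = fun x => fderiv ℝ (dd v) x e * e j := fun j => funext fun x => by
    rw [← grad_apply, parallel (g := ∇ (dd v) x) he fun a ha => by
      rw [inner_grad]; exact dir_nonneg (hv.dd_diff x) fun t ht => slide hv hA ha ht x, inner_grad]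
    rfl
  have dN : Differentiable ℝ fun x => fderiv ℝ (dd v) x e :=
    (St.contDiff_dir (m := 1) (hv.dd_cd 2) (by norm_num) e).differentiable (by norm_num)
  have h2 : ∀ i x, gin (dd v) (pdv i (dd v)) x = pdv i (dd v) x * (Δ (dd v)) x := fun i x => by
    rw [lap_eq (hv.dd_cd 2).contDiffAt, gin, Finset.mul_sum]
    refine Finset.sum_congr rfl fun j _ => ?_
    simp only [h1, mul_comm _ (e _), pdv_const_mul (dN x)]
    ring
  have dp := hv.psi_sm.differentiable (by simp)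
  have h3 := const_of_pdv (f := fun x => psi v x ^ 2 * tt v x) ((dp.pow 2).mul hv.tt_diff)
    fun i x => by
      rw [pdv_mul ((dp.fun_pow 2) x) (hv.tt_diff x), pdv_sq (dp x), hv.pdv_psi, hv.pdv_tt, h2, hv.lap_dd]
      ring
  refine oneD n v hv 0 (le_antisymm (nonpos_of_mul_nonpos_right (le_of_forall_pos_le_add
    fun ε hε => ?_) (pow_pos (hv.psi_pos 0) 2)) (hv.tt_nonneg 0))
  obtain ⟨R, hR, hb⟩ := ballS n (ε / 2) (by positivity)
  have h4 := hb v hv.isSol ((K + R) • e) fun y hy => hp y (by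
    have := abs_real_inner_le_norm e ((K + R) • e - y)
    rw [he, one_mul, inner_sub_right, ← dist_eq_norm, dist_comm, real_inner_smul_right,
      real_inner_self_eq_norm_sq, he] at this
    linarith [mem_ball.1 hy, (abs_le.1 this).2])
  have h5 := hv.psi_pos ((K + R) • e)
  have h6 := abs_lt.1 (hv.lt ((K + R) • e))
  have h7 : psi v ((K + R) • e) ≤ ε := by unfold psi; nlinarith
  rw [h3 0 ((K + R) • e), zero_add]
  refine (mul_le_of_le_one_right (sq_nonneg _) (tt_le_one _ _)).trans ?_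
  nlinarith [psi_le_one v ((K + R) • e)]

end

end Crest.Agent.N067.E
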