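import Crest.Agent.N067.E.Basic

/-! # E/HA (leaf E-HA): harmonic approximation in `L¹`, no kernels

Fix a smooth `η~ ≥ 0` on `ℝ` vanishing on `[1/2, ∞)`, `η y = η~(‖y‖²)` with `∫ η = 1`, and
`Φ y = -(1/2) ∫_{‖y‖²}^1 η~` (so `∇Φ y = η y • y`, `Φ = 0` for `‖y‖² ≥ 1/2`).  `A_s x = ∫ W (x - s y) η y dy`.
`d/ds A_s x = -∫ ⟪∇W(x - s y), ∇Φ y⟫ dy = s^(1-k) ∫ gin W ζ` for `ζ w = Φ((x - w)/s)`, so the weak
inequality gives `|d/ds A_s x| ≤ ∫ (F(x - s y) ‖y‖ η y + s f0 |Φ y|) dy`; integrate over `s ∈ (0,ρ)` and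
`x ∈ ball 0 (θρ)`: `∫ |W - A_ρ| ≤ C ρ ∫_{ball 0 2ρ} F + C ρ² f0 ρ^k`.  `A_ρ x = ∫ W w ρ^(-k) η((x-w)/ρ) dw`; Taylor
for `η`: `|η(q + b) - η q - Dη q b| ≤ M ‖b‖²`, so `a = A_ρ 0`, `p = ∫ W w ρ^(-k-1) ∇η(-w/ρ) dw`. -/

set_option autoImplicit false

open MeasureTheory Laplacian InnerProductSpace Topology Filter Set Metric
open scoped RealInnerProductSpace ContDiff Gradient

namespace Crest.Agent.N067.E

open Crest.Agent.R077

noncomputable section

variable {n k : ℕ}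

namespace HA

/-- a radial mollifier `η` and its potential `Φ`, `∇Φ y = η y • y` -/
structure Ker (η Φ : EE k → ℝ) : Prop where
  sm : ContDiff ℝ ∞ η
  c1 : ContDiff ℝ 1 Φ
  nn : ∀ y, 0 ≤ η y
  one : ∫ y, η y = 1
  z : ∀ y, 1 ≤ ‖y‖ → η y = 0 ∧ Φ y = 0
  d : ∀ y, HasFDerivAt Φ (η y • innerSL ℝ y) y

theorem cs_of {V : Type} [Zero V] {f : EE k → V} {r : ℝ} (h : ∀ y, r < ‖y‖ → f y = 0) :
    HasCompactSupport f :=
  HasCompactSupport.intro (isCompact_closedBall 0 r) fun y hy =>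
    h y (by rwa [mem_closedBall_zero_iff, not_le] at hy)

theorem exists_ker (k : ℕ) : ∃ η Φ : EE k → ℝ, Ker η Φ := by
  obtain ⟨R, hR, hR0⟩ : ∃ R : ℝ → ℝ, (∀ x, HasDerivAt R (Real.smoothTransition x) x) ∧
      ∀ x ≤ 0, R x = 0 := by
    refine ⟨fun x => ∫ s in (0 : ℝ)..x, Real.smoothTransition s, fun x =>
      (Real.smoothTransition.continuous.integral_hasStrictDerivAt 0 x).hasDerivAt, fun x hx => ?_⟩
    beta_reduce
    rw [intervalIntegral.integral_congr (g := fun _ => (0 : ℝ)), intervalIntegral.integral_zero]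
    intro s hs
    rw [uIcc_of_ge hx] at hs
    exact Real.smoothTransition.zero_of_nonpos hs.2
  have hR1 : ContDiff ℝ 1 R := contDiff_one_iff_deriv.2 ⟨fun x => (hR x).differentiableAt, by
    rw [show deriv R = Real.smoothTransition from funext fun x => (hR x).deriv]
    exact Real.smoothTransition.continuous⟩
  have hs : ContDiff ℝ ∞ fun y : EE k => Real.smoothTransition (1 - ‖y‖ ^ 2) :=
    Real.smoothTransition.contDiff.comp (contDiff_const.sub (contDiff_norm_sq ℝ))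
  have hz : ∀ y : EE k, 1 ≤ ‖y‖ → 1 - ‖y‖ ^ 2 ≤ 0 := fun y hy => by nlinarith
  have hc : 0 < ∫ y : EE k, Real.smoothTransition (1 - ‖y‖ ^ 2) :=
    hs.continuous.integral_pos_of_hasCompactSupport_nonneg_nonzero (x := 0)
      (cs_of (r := 1) fun y hy => Real.smoothTransition.zero_of_nonpos (hz y hy.le))
      (fun y => Real.smoothTransition.nonneg _) (by simp)
  obtain ⟨c, hcd⟩ : ∃ c, c = ∫ y : EE k, Real.smoothTransition (1 - ‖y‖ ^ 2) := ⟨_, rfl⟩
  rw [← hcd] at hc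
  refine ⟨fun y => c⁻¹ * Real.smoothTransition (1 - ‖y‖ ^ 2),
    fun y => -(2 * c)⁻¹ * R (1 - ‖y‖ ^ 2), contDiff_const.mul hs,
    contDiff_const.mul (hR1.comp (contDiff_const.sub (contDiff_norm_sq ℝ))),
    fun y => mul_nonneg (inv_pos.2 hc).le (Real.smoothTransition.nonneg _), ?_, fun y hy => ?_,
    fun y => ?_⟩
  · rw [integral_const_mul, ← hcd, inv_mul_cancel₀ hc.ne']
  · simp only [Real.smoothTransition.zero_of_nonpos (hz y hy), hR0 _ (hz y hy), mul_zero,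
      and_self]
  · have h1 := ((hR (1 - ‖y‖ ^ 2)).comp_hasFDerivAt y
      ((hasStrictFDerivAt_norm_sq y).hasFDerivAt.const_sub 1)).const_mul (-(2 * c)⁻¹)
    refine h1.congr_fderiv ?_
    ext v
    simp
    field_simp

variable {η Φ W F : EE k → ℝ} {f0 ρ : ℝ}

theorem scale (g : EE k → ℝ) (x : EE k) {s : ℝ} (hs : 0 < s) :
    ∫ w, g (s⁻¹ • (x - w)) = s ^ k * ∫ y, g y := by
  rw [integral_sub_left_eq_self (fun w => g (s⁻¹ • w)) volume x,
    Measure.integral_comp_inv_smul_of_nonneg _ _ hs.le, finrank_euclideanSpace_fin, smul_eq_mul]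

/-- the weak inequality tested with `Φ ((x - ·) / s)` -/
theorem Ker.slope (h : Ker η Φ)
    (hw : ∀ ζ : EE k → ℝ, ContDiff ℝ 1 ζ → HasCompactSupport ζ → tsupport ζ ⊆ ball 0 (2 * ρ) →
      |∫ y, gin W ζ y| ≤ ∫ y, (F y * ‖∇ ζ y‖ + f0 * |ζ y|))
    {x : EE k} (hx : ‖x‖ < ρ) {s : ℝ} (hs : 0 < s) (hsρ : s ≤ ρ) :
    |∫ y, η y * fderiv ℝ W (x - s • y) y| ≤
      ∫ y, (F (x - s • y) * (η y * ‖y‖) + s * f0 * |Φ y|) := by
  have hsup : tsupport (fun w => Φ (s⁻¹ • (x - w))) ⊆ closedBall x s := by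
    refine closure_minimal (fun w hw => ?_) isClosed_closedBall
    by_contra hc
    rw [mem_closedBall', dist_eq_norm, not_le] at hc
    refine hw (h.z _ ?_).2
    rw [norm_smul, Real.norm_of_nonneg (inv_pos.2 hs).le, le_inv_mul_iff₀ hs, mul_one]
    exact hc.le
  have hg : ∀ w, ∇ (fun w => Φ (s⁻¹ • (x - w))) w =
      (-s⁻¹ * η (s⁻¹ • (x - w))) • s⁻¹ • (x - w) := fun w => by
    refine ext_inner_right ℝ fun v => ?_
    have h1 := (h.d (s⁻¹ • (x - w))).comp w (((hasFDerivAt_id w).const_sub x).const_smul s⁻¹)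
    rw [inner_grad, show fderiv ℝ (fun w => Φ (s⁻¹ • (x - w))) w = _ from h1.fderiv]
    simp [inner_smul_left, inner_sub_left]
    ring
  have h1 := hw (fun w => Φ (s⁻¹ • (x - w)))
    (h.c1.comp ((contDiff_const.sub contDiff_id).const_smul s⁻¹))
    ((isCompact_closedBall x s).of_isClosed_subset (isClosed_tsupport _) hsup)
    (hsup.trans (closedBall_subset_ball' (by rw [dist_zero_right]; linarith)))
  have e0 : ∀ w, x - s • s⁻¹ • (x - w) = w := fun w => by
    rw [smul_inv_smul₀ hs.ne', sub_sub_cancel]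
  have e1 := scale (fun y => -s⁻¹ * (η y * fderiv ℝ W (x - s • y) y)) x hs
  have e2 := scale (fun y => s⁻¹ * (F (x - s • y) * (η y * ‖y‖) + s * f0 * |Φ y|)) x hs
  simp only [e0] at e1 e2
  have e3 : ∀ w, gin W (fun w => Φ (s⁻¹ • (x - w))) w =
      -s⁻¹ * (η (s⁻¹ • (x - w)) * fderiv ℝ W w (s⁻¹ • (x - w))) := fun w => by
    rw [gin_eq, hg, inner_smul_right, inner_grad, mul_assoc]
  have e4 : ∀ w, F w * ‖∇ (fun w => Φ (s⁻¹ • (x - w))) w‖ + f0 * |Φ (s⁻¹ • (x - w))| =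
      s⁻¹ * (F w * (η (s⁻¹ • (x - w)) * ‖s⁻¹ • (x - w)‖) + s * f0 * |Φ (s⁻¹ • (x - w))|) :=
    fun w => by
      rw [hg, norm_smul (-s⁻¹ * _), Real.norm_eq_abs, abs_mul, abs_neg, abs_of_pos (inv_pos.2 hs),
        abs_of_nonneg (h.nn _)]
      field_simp
  simp only [e3, e4] at h1
  rw [e1, e2, integral_const_mul, integral_const_mul, abs_mul, abs_mul, abs_neg,
    abs_of_pos (inv_pos.2 hs), abs_of_pos (pow_pos hs k)] at h1
  exact le_of_mul_le_mul_left (le_of_mul_le_mul_left h1 (pow_pos hs k)) (inv_pos.2 hs)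

theorem Ker.cs (h : Ker η Φ) : HasCompactSupport η := cs_of (r := 1) fun y hy => (h.z y hy.le).1

theorem Ker.int (h : Ker η Φ) {g : EE k → ℝ} (hg : Continuous g) : Integrable fun y => η y * g y :=
  (h.sm.continuous.mul hg).integrable_of_hasCompactSupport h.cs.mul_right

/-- the fundamental theorem of calculus along rays, and Fubini -/
theorem Ker.ftc (h : Ker η Φ) (hW : ContDiff ℝ 1 W) (hρ : 0 < ρ) (x : EE k) :
    W x - ∫ y, η y * W (x - ρ • y) = ∫ s in Ioc 0 ρ, ∫ y, η y * fderiv ℝ W (x - s • y) y := by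
  have hc : Continuous fun q : ℝ × EE k => η q.2 * fderiv ℝ W (x - q.1 • q.2) q.2 :=
    (h.sm.continuous.comp continuous_snd).mul
      (((hW.continuous_fderiv one_ne_zero).comp (by fun_prop)).clm_apply continuous_snd)
  have hi : Integrable (Function.uncurry fun (s : ℝ) (y : EE k) => η y * fderiv ℝ W (x - s • y) y)
      ((volume.restrict (uIoc 0 ρ)).prod volume) := by
    rw [← Measure.restrict_univ (μ := (volume : Measure (EE k))), Measure.prod_restrict]
    refine IntegrableOn.of_forall_sdiff_eq_zero (s := Icc 0 ρ ×ˢ closedBall 0 1)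
      (hc.continuousOn.integrableOn_compact (isCompact_Icc.prod (isCompact_closedBall 0 1)))
      (measurableSet_uIoc.prod MeasurableSet.univ) fun q hq => ?_
    have h1 : q.1 ∈ Icc 0 ρ := Ioc_subset_Icc_self (uIoc_of_le hρ.le ▸ hq.1.1)
    have h2 : 1 < ‖q.2‖ := by
      by_contra h2
      exact hq.2 ⟨h1, mem_closedBall_zero_iff.2 (not_lt.1 h2)⟩
    change η q.2 * _ = 0
    rw [(h.z _ h2.le).1, zero_mul]
  have e : ∀ y : EE k, ∫ s in (0 : ℝ)..ρ, η y * fderiv ℝ W (x - s • y) y =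
      η y * W x - η y * W (x - ρ • y) := fun y => by
    have h1 := intervalIntegral.integral_eq_sub_of_hasDerivAt (a := 0) (b := ρ)
      (f := fun s : ℝ => -(η y * W (x - s • y))) (f' := fun s => η y * fderiv ℝ W (x - s • y) y)
      (fun s _ => ?_) ((hc.comp (continuous_id.prodMk continuous_const)).intervalIntegrable _ _)
    · rw [h1, zero_smul, sub_zero]
      ring
    · have h2 := ((hW.differentiable one_ne_zero (x - s • y)).hasFDerivAt.comp_hasDerivAt s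
        (((hasDerivAt_id s).smul_const y).const_sub x)).const_mul (η y) |>.neg
      exact h2.congr_deriv (by simp)
  rw [← intervalIntegral.integral_of_le hρ.le, intervalIntegral_integral_swap hi]
  simp only [e]
  have hc' : Continuous fun y : EE k => W (x - ρ • y) := hW.continuous.comp (by fun_prop)
  rw [integral_sub (h.int continuous_const) (h.int hc'), integral_mul_const, h.one, one_mul]

theorem Ker.enorm_le (h : Ker η Φ) (hW : ContDiff ℝ 1 W) (hF : ∀ y, 0 ≤ F y) (hf : 0 ≤ f0)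
    (hρ : 0 < ρ)
    (hw : ∀ ζ : EE k → ℝ, ContDiff ℝ 1 ζ → HasCompactSupport ζ → tsupport ζ ⊆ ball 0 (2 * ρ) →
      |∫ y, gin W ζ y| ≤ ∫ y, (F y * ‖∇ ζ y‖ + f0 * |ζ y|))
    {M : ℝ} (hM : ∀ y, η y * ‖y‖ ≤ M ∧ |Φ y| ≤ M) {x : EE k} (hx : ‖x‖ < ρ) :
    ‖W x - ∫ y, η y * W (x - ρ • y)‖ₑ ≤ ∫⁻ s in Ioc 0 ρ, ∫⁻ y in ball (0 : EE k) 1,
      ENNReal.ofReal (M * (F (x - s • y) + ρ * f0)) := by
  rw [h.ftc hW hρ]
  refine (enorm_integral_le_lintegral_enorm _).trans
    (setLIntegral_mono' measurableSet_Ioc fun s hs => ?_)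
  have h1 := (h.slope hw hx hs.1 hs.2).trans (le_abs_self _)
  rw [Real.enorm_eq_ofReal_abs]
  refine (ENNReal.ofReal_le_ofReal h1).trans ?_
  rw [← Real.enorm_eq_ofReal_abs, ← lintegral_indicator measurableSet_ball]
  refine (enorm_integral_le_lintegral_enorm _).trans (lintegral_mono fun y => ?_)
  by_cases hy : y ∈ ball (0 : EE k) 1
  · have h2 := hF (x - s • y)
    have h3 := h.nn y
    have h4 := hs.1
    rw [indicator_of_mem hy, Real.enorm_eq_ofReal_abs, abs_of_nonneg (by positivity)]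
    refine ENNReal.ofReal_le_ofReal ?_
    have h5 := mul_le_mul_of_nonneg_left (hM y).1 h2
    have h6 : s * f0 * |Φ y| ≤ ρ * f0 * M :=
      mul_le_mul (mul_le_mul_of_nonneg_right hs.2 hf) (hM y).2 (abs_nonneg _) (by positivity)
    linarith
  · rw [mem_ball_zero_iff, not_lt] at hy
    simp [(h.z y hy).1, (h.z y hy).2]

theorem vol_ball (x : EE k) {r : ℝ} (hr : 0 < r) :
    volume.real (ball x r) = r ^ k * volume.real (ball (0 : EE k) 1) := by
  rw [measureReal_def, Measure.addHaar_ball_of_pos _ _ hr, ENNReal.toReal_mul,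
    ENNReal.toReal_ofReal (by positivity), finrank_euclideanSpace_fin, measureReal_def]

theorem vol_eq (x : EE k) (r : ℝ) : volume (ball x r) = ENNReal.ofReal (volume.real (ball x r)) :=
  (ENNReal.ofReal_toReal measure_ball_lt_top.ne).symm

/-- Tonelli -/
theorem swap {H : EE k → ENNReal} (hH : Measurable H) {r : ℝ} (hr : r ≤ ρ) :
    ∫⁻ x in ball (0 : EE k) r, ∫⁻ s in Ioc 0 ρ, ∫⁻ y in ball (0 : EE k) 1, H (x - s • y) ≤
      (∫⁻ w in ball (0 : EE k) (2 * ρ), H w) * volume (ball (0 : EE k) 1) * ENNReal.ofReal ρ := by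
  rw [lintegral_lintegral_swap (Measurable.lintegral_prod_right'
    (f := fun q : (EE k × ℝ) × EE k => H (q.1.1 - q.1.2 • q.2)) (by fun_prop)).aemeasurable]
  refine (setLIntegral_mono' (g := fun _ => (∫⁻ w in ball (0 : EE k) (2 * ρ), H w) *
    volume (ball (0 : EE k) 1)) measurableSet_Ioc fun s hs => ?_).trans (by simp)
  rw [lintegral_lintegral_swap (Measurable.aemeasurable
    (f := fun q : EE k × EE k => H (q.1 - s • q.2)) (by fun_prop)), ← setLIntegral_const]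
  refine setLIntegral_mono' measurableSet_ball fun y hy => ?_
  rw [← lintegral_indicator measurableSet_ball, ← lintegral_indicator measurableSet_ball,
    ← lintegral_sub_right_eq_self ((ball (0 : EE k) (2 * ρ)).indicator H) (s • y)]
  refine lintegral_mono fun x => ?_
  by_cases hx : x ∈ ball (0 : EE k) r
  · rw [indicator_of_mem hx, indicator_of_mem]
    rw [mem_ball_zero_iff] at hx hy ⊢
    have h1 := norm_sub_le x (s • y)
    rw [norm_smul, Real.norm_of_nonneg hs.1.le] at h1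
    nlinarith [hs.1, hs.2]
  · rw [indicator_of_notMem hx]
    exact zero_le

theorem norm_int_le {V : Type} [NormedAddCommGroup V] [NormedSpace ℝ V] {g : EE k → V} {c : ℝ}
    (h0 : ∀ y, 2 ≤ ‖y‖ → g y = 0) (h : ∀ y, ‖y‖ < 2 → ‖g y‖ ≤ c) :
    ‖∫ y, g y‖ ≤ c * (2 ^ k * volume.real (ball (0 : EE k) 1)) := by
  rw [← setIntegral_eq_integral_of_forall_compl_eq_zero (s := ball 0 2)
    fun y hy => h0 y (by rwa [mem_ball_zero_iff, not_lt] at hy), ← vol_ball 0 two_pos]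
  exact norm_setIntegral_le_of_norm_le_const measure_ball_lt_top
    fun y hy => h y (mem_ball_zero_iff.1 hy)

theorem Ker.fd_zero (h : Ker η Φ) {y : EE k} (hy : 1 < ‖y‖) : fderiv ℝ η y = 0 := by
  have : η =ᶠ[𝓝 y] fun _ => 0 := by
    filter_upwards [(isOpen_lt continuous_const continuous_norm).mem_nhds hy] with z hz
    exact (h.z z (le_of_lt hz)).1
  rw [this.fderiv_eq, fderiv_fun_const, Pi.zero_apply]

theorem Ker.bound (h : Ker η Φ) : ∃ M : ℝ, 0 ≤ M ∧ (∀ y, η y * ‖y‖ ≤ M ∧ |Φ y| ≤ M) ∧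
    (∀ y, ‖∇ η y‖ ≤ M) ∧ ∀ y b, |η (y + b) - η y - fderiv ℝ η y b| ≤ M * ‖b‖ ^ 2 := by
  obtain ⟨M1, h1⟩ := (h.cs.mul_right (f' := fun y => ‖y‖)).exists_bound_of_continuous
    (h.sm.continuous.mul continuous_norm)
  obtain ⟨M2, h2⟩ := (cs_of (r := 1) fun y hy => (h.z y hy.le).2).exists_bound_of_continuous
    h.c1.continuous
  obtain ⟨M3, h3⟩ := (h.cs.fderiv ℝ).exists_bound_of_continuous (h.sm.continuous_fderiv (by simp))
  obtain ⟨M4, h4⟩ := ContDiff.lipschitzWith_of_hasCompactSupport (h.cs.fderiv ℝ)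
    (h.sm.fderiv_right (m := 1) (by norm_cast)) one_ne_zero
  have a1 := (norm_nonneg _).trans (h1 0)
  have a2 := (norm_nonneg _).trans (h2 0)
  have a3 := (norm_nonneg _).trans (h3 0)
  have a4 := M4.2
  refine ⟨M1 + M2 + M3 + M4, by positivity, fun y => ⟨?_, ?_⟩, fun y => ?_, fun y b => ?_⟩
  · have := (le_abs_self _).trans (h1 y)
    simp only [Pi.mul_apply] at this
    linarith [M4.coe_nonneg]
  · linarith [h2 y, Real.norm_eq_abs (Φ y), M4.coe_nonneg]
  · rw [St.norm_grad]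
    linarith [h3 y, M4.coe_nonneg]
  · have h5 := (convex_closedBall y ‖b‖).norm_image_sub_le_of_norm_fderiv_le' (f := η)
      (φ := fderiv ℝ η y) (C := M4 * ‖b‖) (fun z _ => h.sm.differentiable (by simp) z)
      (fun z hz => (h4.norm_sub_le z y).trans (mul_le_mul_of_nonneg_left
        (mem_closedBall_iff_norm.1 hz) M4.coe_nonneg)) (mem_closedBall_self (norm_nonneg b))
      (y := y + b) (by simp)
    rw [add_sub_cancel_left, Real.norm_eq_abs] at h5
    nlinarith [mul_nonneg (add_nonneg (add_nonneg a1 a2) a3) (sq_nonneg ‖b‖)]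

/-- the mollified function is almost affine -/
theorem Ker.taylor (h : Ker η Φ) (hW : Continuous W) (hρ : 0 < ρ) {A M : ℝ} (hM : 0 ≤ M)
    (hA : ∀ y, ‖y‖ < 2 * ρ → |W y| ≤ A) (h1 : ∀ y, ‖∇ η y‖ ≤ M)
    (h2 : ∀ y b, |η (y + b) - η y - fderiv ℝ η y b| ≤ M * ‖b‖ ^ 2) :
    ∃ (a : ℝ) (p : EE k), |a| ≤ A ∧
      ρ * ‖p‖ ≤ A * M * (2 ^ k * volume.real (ball (0 : EE k) 1)) ∧ ∀ (θ : ℝ) (x : EE k), θ ≤ 1 →
        ‖x‖ < θ * ρ → |(∫ y, η y * W (x - ρ • y)) - a - ⟪p, x⟫| ≤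
          M * θ ^ 2 * A * (2 ^ k * volume.real (ball (0 : EE k) 1)) := by
  have hA0 : 0 ≤ A := (abs_nonneg _).trans (hA 0 (by simpa using hρ))
  have hc : Continuous fun y : EE k => W (-(ρ • y)) := hW.comp (by fun_prop)
  have hb : ∀ y : EE k, ‖y‖ < 2 → |W (-(ρ • y))| ≤ A := fun y hy => hA _ (by
    rw [norm_neg, norm_smul, Real.norm_of_nonneg hρ.le]
    nlinarith)
  have hg : ∀ y : EE k, 1 < ‖y‖ → ∇ η y = 0 := fun y hy => by
    rw [← norm_eq_zero, St.norm_grad, h.fd_zero hy, norm_zero]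
  have hi : Integrable fun y : EE k => W (-(ρ • y)) • ∇ η y :=
    (hc.smul (St.continuous_grad (contDiff_infty.1 h.sm 1))).integrable_of_hasCompactSupport
      (cs_of (r := 1) fun y hy => by
        change W (-(ρ • y)) • ∇ η y = 0
        rw [hg y hy, smul_zero])
  refine ⟨∫ y, η y * W (-(ρ • y)), ρ⁻¹ • ∫ y, W (-(ρ • y)) • ∇ η y, ?_, ?_, fun θ x hθ hx => ?_⟩
  · rw [← Real.norm_eq_abs]
    refine (norm_integral_le_of_norm_le (h.int (continuous_const (y := A)))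
      (Eventually.of_forall fun y => ?_)).trans (by rw [integral_mul_const, h.one, one_mul])
    rcases lt_or_ge ‖y‖ 2 with hy | hy
    · rw [norm_mul, Real.norm_of_nonneg (h.nn y)]
      exact mul_le_mul_of_nonneg_left (hb y hy) (h.nn y)
    · simp [(h.z y (by linarith)).1]
  · rw [norm_smul, Real.norm_of_nonneg (inv_pos.2 hρ).le, mul_inv_cancel_left₀ hρ.ne']
    refine norm_int_le (fun y hy => by rw [hg y (by linarith), smul_zero]) fun y hy => ?_
    rw [norm_smul]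
    exact mul_le_mul (hb y hy) (h1 y) (norm_nonneg _) hA0
  · have hn : ‖ρ⁻¹ • x‖ < θ := by
      rwa [norm_smul, Real.norm_of_nonneg (inv_pos.2 hρ).le, inv_mul_lt_iff₀' hρ]
    have e1 : ∫ y, η y * W (x - ρ • y) = ∫ y, η (y + ρ⁻¹ • x) * W (-(ρ • y)) := by
      rw [← integral_add_right_eq_self (fun y => η y * W (x - ρ • y)) (ρ⁻¹ • x)]
      simp only [smul_add, smul_inv_smul₀ hρ.ne', sub_add_cancel_right]
    have e2 : ⟪ρ⁻¹ • ∫ y, W (-(ρ • y)) • ∇ η y, x⟫ =
        ∫ y, fderiv ℝ η y (ρ⁻¹ • x) * W (-(ρ • y)) := by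
      rw [real_inner_smul_left, ← real_inner_smul_right, real_inner_comm, ← integral_inner hi]
      refine integral_congr_ae (Eventually.of_forall fun y => ?_)
      beta_reduce
      rw [real_inner_smul_right, real_inner_comm, inner_grad, mul_comm]
    generalize ρ⁻¹ • x = b at hn e1 e2
    have hz : ∀ y : EE k, 2 ≤ ‖y‖ → η (y + b) = 0 := fun y hy => (h.z _ (by
      have := norm_sub_le (y + b) b
      rw [add_sub_cancel_right] at this
      linarith)).1
    have i1 : Integrable fun y => η (y + b) * W (-(ρ • y)) :=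
      ((h.sm.continuous.comp (continuous_id.add continuous_const)).mul hc
        ).integrable_of_hasCompactSupport (cs_of (r := 2) fun y hy => by
          change η (y + b) * _ = 0
          rw [hz y hy.le, zero_mul])
    have i2 := h.int hc
    have i3 : Integrable fun y => fderiv ℝ η y b * W (-(ρ • y)) :=
      (((h.sm.continuous_fderiv (by simp)).clm_apply continuous_const).mul hc
        ).integrable_of_hasCompactSupport (cs_of (r := 1) fun y hy => by
          change fderiv ℝ η y b * _ = 0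
          rw [h.fd_zero hy, zero_apply, zero_mul])
    have i4 : Integrable fun y => η (y + b) * W (-(ρ • y)) - η y * W (-(ρ • y)) := i1.sub i2
    rw [e1, e2, ← integral_sub i1 i2, ← integral_sub i4 i3, ← Real.norm_eq_abs]
    refine norm_int_le (fun y hy => ?_) fun y hy => ?_
    · rw [hz y hy, (h.z y (by linarith)).1, h.fd_zero (by linarith)]
      simp
    · rw [← sub_mul, ← sub_mul, norm_mul]
      refine mul_le_mul ((h2 y b).trans ?_) (hb y hy) (norm_nonneg _) (by positivity)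
      gcongr

end HA

open HA in
theorem ha (k : ℕ) : ∃ C : ℝ, 0 ≤ C ∧ ∀ (W F : EE k → ℝ) (f0 ρ A θ : ℝ), ContDiff ℝ 1 W →
    Continuous F → (∀ y, 0 ≤ F y) → 0 ≤ f0 → 0 < ρ → 0 < θ → θ ≤ 1 →
    (∀ y, ‖y‖ < 2 * ρ → |W y| ≤ A) →
    (∀ ζ : EE k → ℝ, ContDiff ℝ 1 ζ → HasCompactSupport ζ → tsupport ζ ⊆ ball 0 (2 * ρ) →
      |∫ y, gin W ζ y| ≤ ∫ y, (F y * ‖∇ ζ y‖ + f0 * |ζ y|)) →
    ∃ (a : ℝ) (p : EE k), |a| ≤ A ∧ ρ * ‖p‖ ≤ C * A ∧
      ∫ y in ball (0 : EE k) (θ * ρ), |W y - a - ⟪p, y⟫| ≤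
        C * (θ ^ 2 * A * (θ * ρ) ^ k + ρ * (∫ y in ball (0 : EE k) (2 * ρ), F y)
          + ρ ^ 2 * f0 * ρ ^ k) := by
  obtain ⟨η, Φ, h⟩ := exists_ker k
  obtain ⟨M, hM, hM1, hM2, hM3⟩ := h.bound
  obtain ⟨V, hV⟩ : ∃ V, V = volume.real (ball (0 : EE k) 1) := ⟨_, rfl⟩
  have hV0 : 0 ≤ V := hV ▸ measureReal_nonneg
  have h2k : (1 : ℝ) ≤ 2 ^ k := one_le_pow₀ one_le_two
  refine ⟨M * (2 ^ k * (V + 1) ^ 2), by positivity, ?_⟩
  intro W F f0 ρ A θ hW hFc hF hf hρ hθ hθ1 hA hw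
  have hA0 : 0 ≤ A := (abs_nonneg _).trans (hA 0 (by simpa using hρ))
  obtain ⟨a, p, ha, hp, ht⟩ := h.taylor hW.continuous hρ hM hA hM2 hM3
  rw [← hV] at hp ht
  have hV1 : V ≤ (V + 1) ^ 2 := by nlinarith
  have hV2 : V * V ≤ (V + 1) ^ 2 := by nlinarith
  refine ⟨a, p, ha, hp.trans ?_, ?_⟩
  · calc A * M * (2 ^ k * V) ≤ A * M * (2 ^ k * (V + 1) ^ 2) := by gcongr
      _ = _ := by ring
  obtain ⟨I, hI⟩ : ∃ I, I = ∫ y in ball (0 : EE k) (2 * ρ), F y := ⟨_, rfl⟩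
  have hI0 : 0 ≤ I := hI ▸ integral_nonneg hF
  have hFi : IntegrableOn F (ball (0 : EE k) (2 * ρ)) :=
    (hFc.continuousOn.integrableOn_compact (isCompact_closedBall 0 (2 * ρ))).mono_set
      ball_subset_closedBall
  have hci : IntegrableOn (fun _ : EE k => ρ * f0) (ball (0 : EE k) (2 * ρ)) :=
    integrableOn_const measure_ball_lt_top.ne
  have e1 : ∫⁻ w in ball (0 : EE k) (2 * ρ), ENNReal.ofReal (M * (F w + ρ * f0)) =
      ENNReal.ofReal (M * (I + (2 * ρ) ^ k * V * (ρ * f0))) := by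
    have hi : Integrable (fun w => M * (F w + ρ * f0)) (volume.restrict (ball 0 (2 * ρ))) :=
      (hFi.add hci).const_mul M
    rw [← ofReal_integral_eq_lintegral_ofReal hi
      (Eventually.of_forall fun w => mul_nonneg hM (add_nonneg (hF w) (by positivity))),
      integral_const_mul, integral_add hFi hci, setIntegral_const, vol_ball 0 (by positivity),
      ← hI, ← hV, smul_eq_mul]
  have hθρ : θ * ρ ≤ ρ := mul_le_of_le_one_left hρ.le hθ1
  have h1 := swap (H := fun w => ENNReal.ofReal (M * (F w + ρ * f0))) (by fun_prop) hθρ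
  have hc : Continuous fun y => W y - a - ⟪p, y⟫ :=
    (hW.continuous.sub continuous_const).sub (continuous_const.inner continuous_id)
  have h2 : ∫⁻ x in ball (0 : EE k) (θ * ρ), ‖W x - a - ⟪p, x⟫‖ₑ ≤
      ∫⁻ x in ball (0 : EE k) (θ * ρ), ((∫⁻ s in Ioc 0 ρ, ∫⁻ y in ball (0 : EE k) 1,
        ENNReal.ofReal (M * (F (x - s • y) + ρ * f0))) +
          ENNReal.ofReal (M * θ ^ 2 * A * (2 ^ k * V))) := by
    refine setLIntegral_mono' measurableSet_ball fun x hx => ?_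
    rw [mem_ball_zero_iff] at hx
    rw [show W x - a - ⟪p, x⟫ = (W x - ∫ y, η y * W (x - ρ • y)) +
      ((∫ y, η y * W (x - ρ • y)) - a - ⟪p, x⟫) by ring]
    refine (enorm_add_le _ _).trans (add_le_add (h.enorm_le hW hF hf hρ hw hM1 (by linarith)) ?_)
    rw [Real.enorm_eq_ofReal_abs]
    exact ENNReal.ofReal_le_ofReal (ht θ x hθ1 hx)
  rw [lintegral_add_right _ measurable_const, setLIntegral_const] at h2
  have h3 := h2.trans (add_le_add_left h1 _)
  rw [e1, vol_eq 0 1, vol_eq 0 (θ * ρ), vol_ball 0 (mul_pos hθ hρ), ← hV,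
    ← ENNReal.ofReal_mul (by positivity), ← ENNReal.ofReal_mul (by positivity),
    ← ENNReal.ofReal_mul (by positivity),
    ← ENNReal.ofReal_add (by positivity) (by positivity)] at h3
  have h4 := integral_norm_eq_lintegral_enorm (μ := volume.restrict (ball (0 : EE k) (θ * ρ)))
    hc.aestronglyMeasurable
  simp only [Real.norm_eq_abs] at h4
  rw [h4, ← hI]
  refine (ENNReal.toReal_le_of_le_ofReal (by positivity) h3).trans ?_
  have b1 : M * (2 ^ k * (V * V)) * (θ ^ 2 * A * (θ * ρ) ^ k) ≤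
      M * (2 ^ k * (V + 1) ^ 2) * (θ ^ 2 * A * (θ * ρ) ^ k) := by gcongr
  have b2 : M * (1 * V) * (ρ * I) ≤ M * (2 ^ k * (V + 1) ^ 2) * (ρ * I) := by gcongr
  have b3 : M * (2 ^ k * (V * V)) * (ρ ^ 2 * f0 * ρ ^ k) ≤
      M * (2 ^ k * (V + 1) ^ 2) * (ρ ^ 2 * f0 * ρ ^ k) := by gcongr
  rw [mul_pow 2 ρ]
  linarith

end

end Crest.Agent.N067.E
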