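import Crest.Agent.N067.E.Basic

/-! # E/MV (leaf E-MV): mean value inequality and clearing-out

Proof of `mv`.  `f x = √(1 + (⟪a,x⟫ - c)²)` (smooth, `D²f = φ''·a⊗a`, `φ'' ≥ 0`), `τ = ‖x - z‖²`,
`γ(τ) = (1+τ)^(-k/2) κ(τ/ρ²)` with `κ` smooth decreasing, `κ = 1` on `τ ≤ 1/4`, `0` on `τ ≥ 1`
(`κ s = smoothTransition ((1 - s)·4/3)`), `g x = g~(τ) = -∫_τ^{ρ²} γ ≤ 0`, `C²`, compact support.
Write `T(A) = en·tr A - A(∇v,∇v)`.  Summing `fv` with `φ = f·∂_j g` and with `φ = g·∂_j f` gives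
`∫ f T(D²g) = ∫ g T(D²f) ≤ 0` (`T(a⊗a) = en |a|² - ⟪a,∇v⟫² ≥ 0` by `gsq_le_en`).
`D²g = 2γ I + 4γ' (x-z)⊗(x-z)`, `γ ≥ 0 ≥ γ'`, `T(I) = (k+1) en - gsq ≥ k en`,
`0 ≤ T(w⊗w) ≤ en |w|²`, so `T(D²g) ≥ en (2kγ + 4τγ') ≥ en (2k κ (1+τ)^(-k/2-1) - C ρ^(-k) 1_{ball z ρ})`.
For `ρ ≥ 2` this gives `∫_{ball z 1} f en ≤ C ρ^(-k) ∫_{ball z ρ} f en` (`k ≥ 1`); on `ball z 1`,
`|v| ≤ 1/√2` (`norm_grad_le`, `hh ≤ 1/√2`), so `en ≥ 1/16`, and `f ≥ max 1 (|⟪a,z⟫-c| - ‖a‖)`.
`clr`: either `v` has a zero `z'` in `ball z (ρ/4)`: `mv` (a = 0, c = 0) at radius `ρ/4` and `SLp` with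
`cut z' (ρ/4)`; or `v < 0` on that ball (connected): `half_le_Gp`. -/

set_option autoImplicit false

open MeasureTheory Laplacian InnerProductSpace Topology Filter Set Metric
open scoped RealInnerProductSpace ContDiff Gradient

namespace Crest.Agent.N067.E

open Crest.Agent.R077

noncomputable section

variable {n k : ℕ}

namespace MV'

theorem intOn {f : EE n → ℝ} (hf : Continuous f) (y : EE n) (r : ℝ) : IntegrableOn f (ball y r) :=
  (hf.continuousOn.integrableOn_compact (isCompact_closedBall y r)).mono_set ball_subset_closedBall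

theorem alg (u a w : EE n) (e p q r s : ℝ) {D : Fin n → Fin n → ℝ}
    (hD : ∀ i j, D i j = p * (a i * w j) - p * (w i * a j) + q * (w i * w j) - s * (a i * a j) +
      if j = i then r else 0) :
    ∑ j, (e * D j j - u j * ∑ i, u i * D i j) = q * (e * ‖w‖ ^ 2 - ⟪u, w⟫ ^ 2) +
      r * (n * e - ‖u‖ ^ 2) - s * (e * ‖a‖ ^ 2 - ⟪u, a⟫ ^ 2) := by
  have e1 : ∀ (c d : ℝ) (f : EE n), ∑ i, u i * (c * (f i * d)) = c * ⟪u, f⟫ * d := fun c d f => by
    rw [inner_eq_sum, Finset.mul_sum, Finset.sum_mul]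
    exact Finset.sum_congr rfl fun i _ => by ring
  have e2 : ∀ (c : ℝ) (f : EE n), ∑ i, u i * (c * f i) = c * ⟪u, f⟫ := fun c f => by
    simpa using e1 c 1 f
  have e3 : ∑ j, u j * (u j * r) = r * ⟪u, u⟫ := by
    rw [← e2]; exact Finset.sum_congr rfl fun i _ => by ring
  simp only [hD, mul_add, mul_sub, Finset.sum_add_distrib, Finset.sum_sub_distrib, e1, e2, e3,
    mul_ite, mul_zero, Finset.sum_ite_eq, Finset.mem_univ, if_true, Finset.sum_const,
    Finset.card_univ, Fintype.card_fin, ← Finset.mul_sum, ← inner_eq_sum,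
    real_inner_self_eq_norm_sq, nsmul_eq_mul, real_inner_comm a w]
  ring

theorem phi : ∃ φ : ℝ → ℝ, ContDiff ℝ 1 φ ∧ ∀ s, HasDerivAt (fun s => √(1 + s ^ 2)) (φ s) s ∧
    0 ≤ deriv φ s := by
  have h0 : ∀ s : ℝ, 0 < 1 + s ^ 2 := fun s => by positivity
  have h1 : ∀ s : ℝ, HasDerivAt (fun s => √(1 + s ^ 2)) (s / √(1 + s ^ 2)) s := fun s => by
    convert (((hasDerivAt_id' s).fun_pow 2).const_add 1).sqrt (h0 s).ne' using 1
    simp; field_simp
  refine ⟨fun s => s / √(1 + s ^ 2), contDiff_id.div (ContDiff.sqrt (by fun_prop)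
    fun s => (h0 s).ne') fun s => (Real.sqrt_pos.2 (h0 s)).ne', fun s => ⟨h1 s, ?_⟩⟩
  have h2 := Real.sqrt_pos.2 (h0 s)
  rw [((hasDerivAt_id' s).fun_div (h1 s) h2.ne').deriv]
  refine div_nonneg ?_ (sq_nonneg _)
  rw [sub_nonneg, ← mul_div_assoc, div_le_iff₀ h2]
  nlinarith [Real.mul_self_sqrt (h0 s).le]

theorem prof (k : ℕ) (hk : 1 ≤ k) : ∃ c C : ℝ, 0 < c ∧ 0 < C ∧ ∀ r : ℝ, 1 ≤ r → ∃ g γ : ℝ → ℝ,
    ContDiff ℝ 1 γ ∧ (∀ t, HasDerivAt g (γ t) t ∧ g t ≤ 0 ∧ 0 ≤ γ t ∧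
      (4 * r ^ 2 ≤ t → g t = 0 ∧ γ t = 0 ∧ deriv γ t = 0)) ∧
    ∀ t e T : ℝ, 0 ≤ t → 0 ≤ e → 0 ≤ T → T ≤ e * t →
      (if t ≤ 1 then c * e else 0) ≤ 4 * deriv γ t * T + 2 * γ t * (k * e) + C / r ^ k * e := by
  obtain ⟨M, hM, hd⟩ := Aac.exists_deriv_bound
  refine ⟨(2 : ℝ) ^ (-(k / 4 : ℝ) - 1), 6 * (M + 1), by positivity, by positivity, fun r hr => ?_⟩
  have h0 : ∀ s : ℝ, 0 < 1 + s ^ 2 := fun s => by positivity
  have r0 : 0 < r := by linarith
  have r2 : 1 ≤ r ^ 2 := one_le_pow₀ hr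
  set γ : ℝ → ℝ := fun t => (1 + t ^ 2) ^ (-(k / 4 : ℝ)) *
    Real.smoothTransition ((4 * r ^ 2 - t) / (3 * r ^ 2)) with hγ
  have hc : ContDiff ℝ 1 γ := (ContDiff.rpow_const_of_ne (by fun_prop) fun s => (h0 s).ne').mul
    (Real.smoothTransition.contDiff.comp (by fun_prop))
  have hp : ∀ t, 0 ≤ γ t := fun t =>
    mul_nonneg (Real.rpow_nonneg (h0 t).le _) (Real.smoothTransition.nonneg _)
  have hz : ∀ t, 4 * r ^ 2 ≤ t → γ t = 0 := fun t ht => by
    simp only [hγ]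
    rw [Real.smoothTransition.zero_of_nonpos (div_nonpos_of_nonpos_of_nonneg (by linarith)
      (by positivity)), mul_zero]
  have hg : ∀ t, 4 * r ^ 2 ≤ t → ∫ s in 4 * r ^ 2..t, γ s = 0 := fun t ht => by
    rw [intervalIntegral.integral_congr (g := fun _ => 0) fun s hs => hz s
      (by rw [uIcc_of_le ht] at hs; exact hs.1), intervalIntegral.integral_zero]
  refine ⟨fun t => ∫ s in 4 * r ^ 2..t, γ s, γ, hc, fun t =>
    ⟨(hc.continuous.integral_hasStrictDerivAt _ t).hasDerivAt, ?_, hp t, fun ht =>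
      ⟨hg t ht, hz t ht, IsLocalMin.deriv_eq_zero (.of_forall fun s => ?_)⟩⟩,
    fun t e T ht he hT hT' => ?_⟩
  · rcases le_total (4 * r ^ 2) t with h | h
    · exact (hg t h).le
    · beta_reduce
      rw [intervalIntegral.integral_symm, neg_nonpos]
      exact intervalIntegral.integral_nonneg h fun s _ => hp s
  · rw [hz t ht]; exact hp s
  have h1 := ((((hasDerivAt_id' t).fun_pow 2).const_add 1).rpow_const (p := -(k / 4 : ℝ))
    (.inl (h0 t).ne')).fun_mul (((Real.smoothTransition.contDiff (n := 1)).differentiable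
      (by simp) _).hasDerivAt.comp t (((hasDerivAt_id' t).const_sub (4 * r ^ 2)).div_const
        (3 * r ^ 2)))
  have h2 : deriv γ t = _ := h1.deriv
  have h3 : (1 + t ^ 2) ^ (-(k / 4 : ℝ)) = (1 + t ^ 2) ^ (-(k / 4 : ℝ) - 1) * (1 + t ^ 2) := by
    rw [Real.rpow_sub_one (h0 t).ne', div_mul_cancel₀ _ (h0 t).ne']
  obtain ⟨d1, d2⟩ := hd ((4 * r ^ 2 - t) / (3 * r ^ 2))
  rw [h2]
  simp only [hγ, Function.comp_def]
  set κ := Real.smoothTransition ((4 * r ^ 2 - t) / (3 * r ^ 2)) with hκ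
  set δ := deriv Real.smoothTransition ((4 * r ^ 2 - t) / (3 * r ^ 2))
  have b0 := Real.rpow_nonneg (h0 t).le (-(k / 4 : ℝ) - 1)
  have κ0 : 0 ≤ κ := Real.smoothTransition.nonneg _
  have k1 : (1 : ℝ) ≤ k := by exact_mod_cast hk
  have a1 : (if t ≤ 1 then (2 : ℝ) ^ (-(k / 4 : ℝ) - 1) * e else 0) ≤
      2 * k * (κ * (1 + t ^ 2) ^ (-(k / 4 : ℝ) - 1) * e) := by
    split_ifs with h
    · rw [hκ, Real.smoothTransition.one_of_one_le ((one_le_div (by positivity)).2 (by linarith))]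
      have := mul_le_mul_of_nonneg_right (Real.rpow_le_rpow_of_nonpos (z := -(k / 4 : ℝ) - 1) (h0 t)
        (show 1 + t ^ 2 ≤ 2 by nlinarith) (by linarith)) he
      nlinarith [mul_nonneg b0 he]
    · positivity
  have a2 : 4 * ((1 + t ^ 2) ^ (-(k / 4 : ℝ)) * (δ * (1 / (3 * r ^ 2)))) * T ≤
      6 * (M + 1) / r ^ k * e := by
    by_cases h : δ = 0
    · rw [h]; simp only [zero_mul, mul_zero]; positivity
    obtain ⟨u1, u2⟩ := not_or.1 (mt d2 h)
    rw [not_lt, le_div_iff₀ (by positivity)] at u1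
    rw [not_lt, div_le_one (by positivity)] at u2
    have u3 : (1 + t ^ 2) ^ (-(k / 4 : ℝ)) ≤ (r ^ k)⁻¹ := by
      refine (Real.rpow_le_rpow_of_nonpos (x := r ^ (4 : ℝ)) (by positivity) ?_
        (by linarith)).trans_eq ?_
      · rw [Real.rpow_ofNat]; nlinarith
      · rw [← Real.rpow_mul r0.le, ← Real.rpow_natCast, ← Real.rpow_neg r0.le]; congr 1; ring
    calc _ ≤ 4 * ((r ^ k)⁻¹ * ((M + 1) * (1 / (3 * r ^ 2)))) * (e * (4 * r ^ 2)) := by
          refine (mul_le_mul_of_nonneg_right (mul_le_mul_of_nonneg_left ((le_abs_self _).trans ?_)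
            (by positivity)) hT).trans (mul_le_mul_of_nonneg_left (hT'.trans ?_) (by positivity))
          · rw [abs_mul, abs_mul, abs_of_nonneg (Real.rpow_nonneg (h0 t).le _),
              abs_of_nonneg (a := 1 / _) (by positivity)]
            gcongr; linarith
          · gcongr; linarith
      _ = 16 / 3 * ((M + 1) / r ^ k * e) := by field_simp; ring
      _ ≤ 6 * ((M + 1) / r ^ k * e) := by gcongr; norm_num
      _ = _ := by ring
  have a3 := mul_le_mul_of_nonneg_left hT' (show 0 ≤ 2 * k * t * κ *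
    (1 + t ^ 2) ^ (-(k / 4 : ℝ) - 1) by positivity)
  rw [h3] at a2 ⊢
  simp only [Nat.cast_ofNat, Nat.add_one_sub_one, pow_one, neg_div] at *
  nlinarith

end MV'

open MV' in
theorem mv (k : ℕ) (hk : 1 ≤ k) : ∃ C : ℝ, 0 < C ∧ ∀ v : EE (k + 1) → ℝ, Sol v →
    ∀ (z a : EE (k + 1)) (c ρ : ℝ), v z = 0 → 2 ≤ ρ →
      ρ ^ k * max 1 (|⟪a, z⟫ - c| - ‖a‖) ≤
        C * ∫ x in ball z ρ, Real.sqrt (1 + (⟪a, x⟫ - c) ^ 2) * en v x := by
  obtain ⟨c0, C, hc0, hC, hP⟩ := prof k hk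
  obtain ⟨φ, hφ, hφ'⟩ := phi
  have hV : 0 < volume.real (ball (0 : EE (k + 1)) (1 / 2)) :=
    ENNReal.toReal_pos (measure_ball_pos _ _ (by norm_num)).ne' measure_ball_lt_top.ne
  refine ⟨C * 2 ^ k / (c0 * (9 / 64) * volume.real (ball (0 : EE (k + 1)) (1 / 2))), by positivity,
    fun v h z a c ρ hz hρ => ?_⟩
  obtain ⟨g, γ, hγ, hg, hI⟩ := hP (ρ / 2) (by linarith)
  have hg1 : ContDiff ℝ 1 g := contDiff_one_iff_deriv.2 ⟨fun t => (hg t).1.differentiableAt,
    (funext fun t => (hg t).1.deriv : deriv g = γ) ▸ hγ.continuous⟩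
  have hs : ContDiff ℝ 1 fun x : EE (k + 1) => ⟪a, x⟫ - c :=
    (contDiff_const.inner ℝ contDiff_id).sub contDiff_const
  have hτ : ContDiff ℝ 1 fun x : EE (k + 1) => ‖x - z‖ ^ 2 :=
    (contDiff_id.sub contDiff_const).norm_sq ℝ
  have hf : ContDiff ℝ 1 fun x : EE (k + 1) => √(1 + (⟪a, x⟫ - c) ^ 2) :=
    (contDiff_const.add (hs.pow 2)).sqrt fun x => by positivity
  have hw : ∀ j, ContDiff ℝ 1 fun x : EE (k + 1) => x j - z j := fun j =>
    (contDiff_euclidean.1 contDiff_id j).sub contDiff_const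
  set X : Fin (k + 1) → EE (k + 1) → ℝ := fun j x => √(1 + (⟪a, x⟫ - c) ^ 2) *
    (2 * γ (‖x - z‖ ^ 2) * (x j - z j)) - g (‖x - z‖ ^ 2) * (a j * φ (⟪a, x⟫ - c)) with hXd
  have hX : ∀ j, ContDiff ℝ 1 (X j) := fun j =>
    (hf.mul ((contDiff_const.mul (hγ.comp hτ)).mul (hw j))).sub
      ((hg1.comp hτ).mul (contDiff_const.mul (hφ.comp hs)))
  have hfar : ∀ x, x ∉ ball z ρ → 4 * (ρ / 2) ^ 2 ≤ ‖x - z‖ ^ 2 := fun x hx => by
    have := not_lt.1 (mt mem_ball_iff_norm.2 hx); nlinarith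
  have hXc : ∀ j, HasCompactSupport (X j) := fun j =>
    HasCompactSupport.intro (isCompact_closedBall z ρ) fun x hx => by
      obtain ⟨u1, u2, -⟩ := (hg _).2.2.2 (hfar x (mt (@ball_subset_closedBall _ _ _ _ x) hx))
      simp [hXd, u1, u2]
  have hv1 : ContDiff ℝ 1 v := contDiff_infty.1 h.sm 1
  have hGi : ∀ j, Integrable fun x => en v x * pdv j (X j) x - pdv j v x * gin v (X j) x := fun j =>
    (((cont_en h).mul (Aac.cont_pdv (hX j) j)).integrable_of_hasCompactSupport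
      (hasCompactSupport_pdv (hXc j) j).mul_left).sub (by
        simp only [gin, Finset.mul_sum]
        exact integrable_finsetSum _ fun i _ => (((Aac.cont_pdv hv1 j).mul ((Aac.cont_pdv hv1 i).mul
          (Aac.cont_pdv (hX j) i))).integrable_of_hasCompactSupport
            (hasCompactSupport_pdv (hXc j) i).mul_left.mul_left))
  have h0 : ∫ x, ∑ j, (en v x * pdv j (X j) x - pdv j v x * gin v (X j) x) = 0 := by
    rw [integral_finsetSum _ fun j _ => hGi j]
    exact Finset.sum_eq_zero fun j _ => fv h.isSol (hX j) (hXc j) j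
  set m := max 1 (|⟪a, z⟫ - c| - ‖a‖) with hm
  have hE := (intOn (f := fun x => C / (ρ / 2) ^ k * (√(1 + (⟪a, x⟫ - c) ^ 2) * en v x))
    (continuous_const.mul (hf.continuous.mul (cont_en h))) z ρ).integrable_indicator
      measurableSet_ball
  have key : ∫ _ in ball z (1 / 2), c0 * (9 / 64) * m ≤
      C / (ρ / 2) ^ k * ∫ x in ball z ρ, √(1 + (⟪a, x⟫ - c) ^ 2) * en v x := by
    have hG := integrable_finsetSum Finset.univ fun j _ => hGi j
    rw [← integral_const_mul, ← integral_indicator measurableSet_ball,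
      ← integral_indicator measurableSet_ball, ← zero_add (∫ x, indicator (ball z ρ) _ x), ← h0,
      ← integral_add hG hE]
    refine integral_mono ((intOn continuous_const z _).integrable_indicator measurableSet_ball)
      (hG.add hE) fun x => ?_
    have d := fun {F : EE (k + 1) → ℝ} (hF : ContDiff ℝ 1 F) => hF.differentiable one_ne_zero x
    have h1 := alg (∇ v x) a (x - z) (en v x) (2 * γ (‖x - z‖ ^ 2) * φ (⟪a, x⟫ - c))
      (4 * deriv γ (‖x - z‖ ^ 2) * √(1 + (⟪a, x⟫ - c) ^ 2))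
      (2 * γ (‖x - z‖ ^ 2) * √(1 + (⟪a, x⟫ - c) ^ 2)) (g (‖x - z‖ ^ 2) * deriv φ (⟪a, x⟫ - c))
      (D := fun i j => pdv i (X j) x) fun i j => by
        have e1 := pdv_comp (hφ' _).1 (d hs) i
        have e2 := pdv_comp (hγ.differentiable one_ne_zero _).hasDerivAt (d hτ) i
        have e3 := pdv_comp (hg _).1 (d hτ) i
        have e4 := pdv_comp (hφ.differentiable one_ne_zero _).hasDerivAt (d hs) i
        have e5 := d (hγ.comp hτ)
        have e6 := d (hg1.comp hτ)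
        have e7 := d (hφ.comp hs)
        simp only [Function.comp_def] at e5 e6 e7
        rw [hXd, pdv_sub ((d hf).fun_mul ((e5.const_mul 2).fun_mul (d (hw j))))
          (e6.fun_mul (e7.const_mul _)), pdv_mul (d hf) ((e5.const_mul 2).fun_mul (d (hw j))),
          pdv_mul (e5.const_mul 2) (d (hw j)), pdv_mul e6 (e7.const_mul _), pdv_const_mul e5,
          pdv_const_mul e7, e1, e2, e3, e4, pdv_normSq, pdv_sub_const, pdv_sub_const, pdv_inner,
          pdv_coord]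
        simp only [PiLp.sub_apply]
        split_ifs <;> ring
    simp only [grad_apply] at h1
    simp only [gin]
    rw [h1]
    have he := Aac.en_nonneg v x
    have hu : ‖∇ v x‖ ^ 2 ≤ en v x := gsq_eq v x ▸ gsq_le_en h x
    have hT : ∀ w : EE (k + 1), 0 ≤ en v x * ‖w‖ ^ 2 - ⟪∇ v x, w⟫ ^ 2 := fun w => by
      have := mul_le_mul_of_nonneg_right hu (sq_nonneg ‖w‖)
      nlinarith [real_inner_mul_inner_self_le (∇ v x) w, real_inner_self_eq_norm_sq (∇ v x),
        real_inner_self_eq_norm_sq w]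
    by_cases hx : x ∈ ball z ρ
    swap
    · obtain ⟨u1, u2, u3⟩ := (hg _).2.2.2 (hfar x hx)
      rw [indicator_of_notMem hx, indicator_of_notMem (mt (@ball_subset_ball _ _ _ _ _
        (by linarith) x) hx), u1, u2, u3]
      simp
    have hf0 := Real.sqrt_nonneg (1 + (⟪a, x⟫ - c) ^ 2)
    have h2 := mul_le_mul_of_nonneg_left (hI _ _ _ (sq_nonneg ‖x - z‖) he (hT (x - z))
      (sub_le_self _ (sq_nonneg _))) hf0
    have h3 := mul_nonneg (mul_nonneg (neg_nonneg.2 (hg (‖x - z‖ ^ 2)).2.1) (hφ' (⟪a, x⟫ - c)).2)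
      (hT a)
    have h4 := mul_nonneg (mul_nonneg (hg (‖x - z‖ ^ 2)).2.2.1 hf0) (sub_nonneg.2 hu)
    have h5 : indicator (ball z (1 / 2)) (fun _ => c0 * (9 / 64) * m) x ≤
        √(1 + (⟪a, x⟫ - c) ^ 2) * if ‖x - z‖ ^ 2 ≤ 1 then c0 * en v x else 0 := by
      by_cases hx' : x ∈ ball z (1 / 2)
      swap
      · rw [indicator_of_notMem hx']; split_ifs <;> positivity
      have n1 := mem_ball_iff_norm.1 hx'
      rw [indicator_of_mem hx', if_pos (by nlinarith [norm_nonneg (x - z)]), mul_comm]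
      have a1 := Convex.norm_image_sub_le_of_norm_fderiv_le (𝕜 := ℝ) (C := 1) (f := v)
        (fun y _ => hv1.differentiable one_ne_zero y) (fun y _ => by
          have := (norm_grad_le h y).trans (hh_le_one _)
          rwa [gradient, LinearIsometryEquiv.norm_map] at this) convex_univ (mem_univ z) (mem_univ x)
      rw [hz, sub_zero, Real.norm_eq_abs] at a1
      have a3 : 9 / 64 ≤ en v x := by
        have : v x ^ 2 ≤ 1 / 4 := by nlinarith [sq_abs (v x), abs_nonneg (v x)]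
        unfold en; nlinarith [sq_nonneg ‖∇ v x‖]
      have a4 : m ≤ √(1 + (⟪a, x⟫ - c) ^ 2) := by
        refine max_le (Real.one_le_sqrt.2 (by nlinarith)) (le_trans ?_ (Real.abs_le_sqrt
          (x := ⟪a, x⟫ - c) (by linarith)))
        have b1 := abs_real_inner_le_norm a (x - z)
        have b2 := abs_sub_abs_le_abs_sub (⟪a, z⟫ - c) (⟪a, x⟫ - c)
        rw [sub_sub_sub_cancel_right, abs_sub_comm ⟪a, z⟫ ⟪a, x⟫, ← inner_sub_right] at b2
        nlinarith [norm_nonneg a]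
      gcongr
    rw [indicator_of_mem hx]
    push_cast
    nlinarith
  rw [setIntegral_const, Measure.addHaar_real_ball_center, smul_eq_mul] at key
  rw [div_mul_eq_mul_div, le_div_iff₀ (by positivity)]
  have := mul_le_mul_of_nonneg_left key (show 0 ≤ ρ ^ k by positivity)
  refine le_of_eq_of_le (by ring) (this.trans_eq ?_)
  rw [div_pow]; field_simp

open MV' in
theorem clr (k : ℕ) (hk : 1 ≤ k) : ∃ c : ℝ, 0 < c ∧ ∀ v : EE (k + 1) → ℝ, Sol v → SLp v →
    ∀ (z : EE (k + 1)) (ρ : ℝ), 8 ≤ ρ → v z ≤ 0 →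
      c * ρ ^ (k + 1) ≤ ∫ x in ball z ρ, Gp (v x) := by
  obtain ⟨C, hC, hm⟩ := mv k hk
  obtain ⟨M, hM, hc, -⟩ := exists_cutM
  have hV : 0 < volume.real (ball (0 : EE (k + 1)) 1) :=
    ENNReal.toReal_pos (measure_ball_pos _ _ one_pos).ne' measure_ball_lt_top.ne
  have hs := s0_pos
  refine ⟨min (1 / (C * (M + 1))) (s0 / 2 * volume.real (ball (0 : EE (k + 1)) 1)) / 4 ^ (k + 1),
    by positivity, fun v h hS z ρ hρ hz => ?_⟩
  have hG : Continuous fun x => Gp (v x) := (contDiff_Gp (m := 0)).continuous.comp h.sm.continuous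
  have hG0 : ∀ x, 0 ≤ Gp (v x) := fun x => Gp_nonneg (h.lt x).le
  have hsub : ∀ {y : EE (k + 1)} {r : ℝ}, ball y r ⊆ ball z ρ →
      ∫ x in ball y r, Gp (v x) ≤ ∫ x in ball z ρ, Gp (v x) := fun hy =>
    setIntegral_mono_set (intOn hG _ _) (.of_forall hG0) hy.eventuallyLE
  rw [div_mul_eq_mul_div, mul_div_assoc, ← div_pow]
  set r := ρ / 4 with hr
  have r0 : 0 < r := by linarith
  by_cases hA : ∀ x ∈ ball z r, v x ≤ 0
  · refine le_trans ?_ (hsub (ball_subset_ball (show r ≤ ρ by linarith)))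
    refine le_trans ?_ (setIntegral_ge_of_const_le_real measurableSet_ball measure_ball_lt_top.ne
      (fun x hx => half_le_Gp (h.lt x).le (hA x hx)) (intOn hG _ _))
    rw [Measure.real, Measure.real, Measure.addHaar_ball_of_pos _ z r0, finrank_euclideanSpace_fin,
      ENNReal.toReal_mul, ENNReal.toReal_ofReal (by positivity), mul_left_comm, mul_comm]
    gcongr; exact min_le_right _ _
  push Not at hA
  obtain ⟨x, hx, hx'⟩ := hA
  obtain ⟨y, hy, hy'⟩ := (convex_ball z r).isPreconnected.intermediate_value (mem_ball_self r0) hx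
    h.sm.continuous.continuousOn ⟨hz, hx'.le⟩
  have h1 := hm v h y 0 0 r hy' (by linarith)
  have h2 := Aac.setInt_le (cont_en h) (Aac.en_nonneg v) (contDiff_cut y r (m := 0)).continuous
    (cs_cut y r0) (cut_nonneg y r) (x := y) (R := r) fun w hw =>
      cut_eq_one r0 (mem_ball_iff_norm.1 hw).le
  have h3 := hS _ (contDiff_cut y r (m := 1)) (cs_cut y r0) (cut_nonneg y r)
  have h4 : ∫ x, ‖∇ (cut y r) x‖ * Gp (v x) ≤ (M + 1) / r * ∫ x in ball y (2 * r), Gp (v x) := by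
    rw [← integral_const_mul, ← integral_indicator measurableSet_ball]
    refine integral_mono_of_nonneg (.of_forall fun w => mul_nonneg (norm_nonneg _) (hG0 w))
      ((intOn (continuous_const.mul hG) _ _).integrable_indicator measurableSet_ball)
      (.of_forall fun w => ?_)
    by_cases hw : w ∈ ball y (2 * r)
    · rw [indicator_of_mem hw]
      exact mul_le_mul_of_nonneg_right ((hc _ y w r r0).1.trans (by gcongr; linarith)) (hG0 w)
    · simp [indicator_of_notMem hw, (hc _ y w r r0).2 (.inr (not_lt.1 (mt mem_ball_iff_norm.2 hw)))]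
  have h5 := hsub (ball_subset_ball' (x := y) (ε₁ := 2 * r) (by linarith [mem_ball.1 hy]))
  simp only [inner_zero_left, sub_zero, abs_zero, norm_zero, zero_le_one, max_eq_left, mul_one,
    ne_eq, OfNat.ofNat_ne_zero, not_false_eq_true, zero_pow, add_zero, Real.sqrt_one, one_mul] at h1
  have h6 := h1.trans (mul_le_mul_of_nonneg_left ((h2.trans h3).trans (h4.trans
    (mul_le_mul_of_nonneg_left h5 (by positivity)))) hC.le)
  calc _ ≤ 1 / (C * (M + 1)) * (r ^ k * r) := by rw [pow_succ]; gcongr; exact min_le_left _ _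
    _ ≤ 1 / (C * (M + 1)) * (C * ((M + 1) / r * ∫ x in ball z ρ, Gp (v x)) * r) := by gcongr
    _ = _ := by field_simp

end

end Crest.Agent.N067.E
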