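import Crest.Agent.N067.E.Step
import Crest.Agent.N067.A.Grad

/-! # E/Rot (leaf E-Rot): rotation invariance and iteration

`step`: a reflection `R` with `R e_last = e` (`Submodule.reflection_sub`), apply `step0` to `v ∘ R`.
`slab`: from `Flat v R e (ε0 R)` induct on `i`: while `θ^i R ≥ K/ε0` one has
`Flat v (θ^(i+1) R) e_i (max K (ε0 θ^(i+1) R / 2^(i+1)))` (apply `step` with `H = max K (ε0 θ^i R/2^i)`, `Flat.mono`).
Fix `ρ ≥ K/ε0`; for `R` large take `i` with `θ^(i+1) R < ρ ≤ θ^i R`: `Flat v ρ e_ρ K` as soon as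
`ε0 ρ/(θ 2^i) ≤ K`.  A subsequence of `e_ρ`, `ρ = m → ∞`, converges on the sphere: slab of half width `K`. -/

set_option autoImplicit false

open MeasureTheory Laplacian InnerProductSpace Topology Filter Set Metric
open scoped RealInnerProductSpace ContDiff Gradient

namespace Crest.Agent.N067.E

open Crest.Agent.R077

noncomputable section

variable {n k : ℕ}

theorem Sol_iso {v : EE n → ℝ} (h : Sol v) (R : EE n ≃ₗᵢ[ℝ] EE n) : Sol fun x => v (R x) :=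
  ⟨h.sm.comp R.contDiff, fun _ => h.lt _, fun x => (lap_comp_iso h.isSol.c2 R x).trans (h.eq _)⟩

theorem norm_grad_iso (f : EE n → ℝ) (R : EE n ≃ₗᵢ[ℝ] EE n) (x : EE n) :
    ‖∇ (fun y => f (R y)) x‖ = ‖∇ f (R x)‖ := by
  have := R.norm_iteratedFDeriv_comp_right f x 1
  rw [norm_iteratedFDeriv_one, norm_iteratedFDeriv_one] at this
  simpa [gradient, Function.comp_def] using this

theorem Flat.iso {v : EE n → ℝ} {r H : ℝ} {e : EE n} (R : EE n ≃ₗᵢ[ℝ] EE n)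
    (h : Flat v r (R e) H) : Flat (fun x => v (R x)) r e H :=
  ⟨fun x h1 h2 => h.1 _ (by rwa [R.norm_map]) (by rwa [R.inner_map_map]),
    fun x h1 h2 => h.2 _ (by rwa [R.norm_map]) (by rwa [R.inner_map_map])⟩

theorem SLp.iso {v : EE n → ℝ} (_hs : Sol v) (h : SLp v) (R : EE n ≃ₗᵢ[ℝ] EE n) :
    SLp fun x => v (R x) := by
  intro χ h1 h2 h3
  have h4 := h (fun x => χ (R.symm x)) (h1.comp R.symm.contDiff)
    (h2.comp_homeomorph R.symm.toHomeomorph) fun _ => h3 _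
  rw [← R.measurePreserving.integral_comp R.toHomeomorph.measurableEmbedding,
    ← R.measurePreserving.integral_comp R.toHomeomorph.measurableEmbedding
      fun x => _ * Gp (v x)] at h4
  simpa only [en, norm_grad_iso, R.symm_apply_apply] using h4

theorem step (k : ℕ) (hk : 1 ≤ k) : ∃ θ ε0 K : ℝ, 0 < θ ∧ θ < 1 ∧ 0 < ε0 ∧ 0 < K ∧
    ∀ (v : EE (k + 1) → ℝ) (r H : ℝ) (e : EE (k + 1)), Sol v → SLp v → v 0 = 0 → K ≤ H →
      H ≤ ε0 * r → ‖e‖ = 1 → Flat v r e H →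
      ∃ e' : EE (k + 1), ‖e'‖ = 1 ∧ Flat v (θ * r) e' (θ * H / 2) := by
  obtain ⟨θ, ε0, K, h1, h2, h3, h4, h⟩ := step0 k hk
  refine ⟨θ, ε0, K, h1, h2, h3, h4, fun v r H e hv hs h0 hK hH he hF => ?_⟩
  obtain ⟨R, hR⟩ : ∃ R : EE (k + 1) ≃ₗᵢ[ℝ] EE (k + 1), R (ev (Fin.last k)) = e :=
    ⟨_, Submodule.reflection_sub (by rw [he]; simp)⟩
  obtain ⟨e', he', hF'⟩ := h (fun x => v (R x)) r H (Sol_iso hv R) (hs.iso hv R) (by simpa using h0)
    hK hH (Flat.iso R (hR ▸ hF))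
  refine ⟨R e', by rwa [R.norm_map], ?_⟩
  have := Flat.iso (e := R e') R.symm (by rwa [R.symm_apply_apply])
  simpa only [R.apply_symm_apply] using this

theorem slab (k : ℕ) (hk : 1 ≤ k) : ∃ ε0 : ℝ, 0 < ε0 ∧ ∀ v : EE (k + 1) → ℝ, Sol v → SLp v →
    v 0 = 0 → (∀ R0 : ℝ, ∃ (R : ℝ) (e : EE (k + 1)), R0 ≤ R ∧ ‖e‖ = 1 ∧ Flat v R e (ε0 * R)) →
    ∃ (e : EE (k + 1)) (K : ℝ), ‖e‖ = 1 ∧
      (∀ x, K < ⟪e, x⟫ → 0 < v x) ∧ ∀ x, ⟪e, x⟫ < -K → v x < 0 := by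
  obtain ⟨θ, ε0, K, h1, h2, h3, h4, h⟩ := step k hk
  refine ⟨ε0, h3, fun v hv hs h0 hF => ?_⟩
  have ind : ∀ (R : ℝ) (e : EE (k + 1)), 0 < R → ‖e‖ = 1 → Flat v R e (ε0 * R) → ∀ i : ℕ,
      K ≤ ε0 * (θ ^ i * R) → ∃ e' : EE (k + 1), ‖e'‖ = 1 ∧
        Flat v (θ ^ i * R) e' (max K (ε0 * (θ ^ i * R) / 2 ^ i)) := by
    intro R e hR he hf i
    induction i with
    | zero => exact fun _ => ⟨e, he, hf.mono (by simp) (by simp)⟩
    | succ i ih =>
      intro hK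
      have hp : 0 < ε0 * (θ ^ i * R) := by positivity
      have hK' : K ≤ ε0 * (θ ^ i * R) := hK.trans (by rw [pow_succ]; nlinarith)
      obtain ⟨e1, he1, hf1⟩ := ih hK'
      obtain ⟨e2, he2, hf2⟩ := h v _ _ e1 hv hs h0 (le_max_left _ _)
        (max_le hK' (div_le_self hp.le (one_le_pow₀ one_le_two))) he1 hf1
      refine ⟨e2, he2, hf2.mono (le_of_eq (by ring)) ?_⟩
      rcases max_choice K (ε0 * (θ ^ i * R) / 2 ^ i) with e | e <;> rw [e]
      · exact le_max_of_le_left (by nlinarith)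
      · exact le_max_of_le_right (le_of_eq (by ring))
  have key : ∀ m : ℕ, ∃ e : EE (k + 1), e ∈ sphere 0 1 ∧ Flat v (K / ε0 + m) e K := fun m => by
    obtain ⟨ρ, hρ⟩ : ∃ ρ, ρ = K / ε0 + m := ⟨_, rfl⟩
    have ρ0 : 0 < ρ := by rw [hρ]; positivity
    have ρ1 : K ≤ ε0 * ρ := by
      rw [hρ, mul_add, mul_div_cancel₀ _ h3.ne']
      exact le_add_of_nonneg_right (by positivity)
    obtain ⟨j, hj⟩ := pow_unbounded_of_one_lt (ε0 * ρ / θ / K) (one_lt_two (α := ℝ))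
    obtain ⟨R, e, hR, he, hf⟩ := hF (ρ / θ ^ j)
    have R0 : 0 < R := lt_of_lt_of_le (by positivity) hR
    rw [div_le_iff₀ (by positivity)] at hR
    obtain ⟨i, i1, i2⟩ := exists_nat_pow_near_of_lt_one (div_pos ρ0 R0) ((div_le_one R0).2
      (hR.trans (mul_le_of_le_one_right R0.le (pow_le_one₀ h1.le h2.le)))) h1 h2
    rw [lt_div_iff₀ R0] at i1
    rw [div_le_iff₀ R0] at i2
    have hij : j ≤ i := not_lt.1 fun l => by
      have := mul_le_mul_of_nonneg_left (pow_le_pow_of_le_one h1.le h2.le (show i + 1 ≤ j from l)) R0.le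
      linarith [mul_comm R (θ ^ (i + 1))]
    obtain ⟨e', he', hf'⟩ := ind R e R0 he hf i (ρ1.trans (by gcongr))
    refine ⟨e', by simpa using he', hρ ▸ hf'.mono i2 (max_le le_rfl ?_)⟩
    rw [div_le_iff₀ (by positivity)]
    rw [div_lt_iff₀ h4, div_lt_iff₀ h1] at hj
    have a1 : (2 : ℝ) ^ j * K * θ ≤ 2 ^ i * K * θ := by gcongr; exact one_le_two
    have a2 : ε0 * (θ ^ (i + 1) * R) ≤ ε0 * ρ := by gcongr
    refine le_of_mul_le_mul_right ?_ h1
    rw [pow_succ] at a2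
    linarith
  choose e he hf using key
  obtain ⟨a, ha, φ, hφ, ht⟩ := (isCompact_sphere (0 : EE (k + 1)) 1).tendsto_subseq he
  have t1 : ∀ x : EE (k + 1), Tendsto (fun m => ⟪e (φ m), x⟫) atTop (𝓝 ⟪a, x⟫) := fun x =>
    ht.inner tendsto_const_nhds
  have t2 : ∀ x : EE (k + 1), ∀ᶠ m in atTop, ‖x‖ < K / ε0 + φ m := fun x =>
    (tendsto_atTop_add_const_left _ _ (tendsto_natCast_atTop_atTop.comp hφ.tendsto_atTop)).eventually
      (eventually_gt_atTop _)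
  refine ⟨a, K, by simpa using ha, fun x hx => ?_, fun x hx => ?_⟩
  · obtain ⟨m, m1, m2⟩ := ((t2 x).and ((t1 x).eventually (lt_mem_nhds hx))).exists
    exact (hf _).1 x m1 m2
  · obtain ⟨m, m1, m2⟩ := ((t2 x).and ((t1 x).eventually (gt_mem_nhds hx))).exists
    exact (hf _).2 x m1 m2

end

end Crest.Agent.N067.E
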