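import Crest.Agent.N067.E.Col

/-! # E/SL (leaf E-SL): the sliding inequality for monotone solutions

`Φ(s) = ∫ χ en u(· + sτ e_j) - ∫ ‖∇χ‖ Gp(u(· + sτ e_j))` is nondecreasing (`Aac.hasDerivAt_shift`):
`d/ds ∫ χ en(u_s) = τ ∫ χ ∂_j en(u_s) = -τ ∫ ∂_j u_s ⟪∇u_s, ∇χ⟫` (`ibp` + `fv` for the shifted solution)
`≥ -∫ ‖∇χ‖ h(u_s) τ ∂_j u_s = d/ds ∫ ‖∇χ‖ Gp(u_s)` (`norm_grad_le`).  As `s → ∞`:
`Φ(s) ≤ ∫ χ h(u_s)² - ∫ ‖∇χ‖ Gp(u_s) → ∫ χ h(U)² - ∫ ‖∇χ‖ Gp(U)` (`en_le`, dominated convergence), which is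
`0` for `U = 1` and `≤ 0` for planar `U` (`h(U)² = -∂_a Gp(U)`, integrate by parts in the direction `a`).
`mn_of_mono`: `slp` with `τ = 1`, `U = up ∘ init` (`Aac.snoc_eq`); `slm` for `-u` with `τ = -1`,
`U = -um ∘ init` (planar in the direction `snoc (-a) 0`, tanh is odd). -/

set_option autoImplicit false

open MeasureTheory Laplacian InnerProductSpace Topology Filter Set Metric
open scoped RealInnerProductSpace ContDiff Gradient

namespace Crest.Agent.N067.E

open Crest.Agent.R077

noncomputable section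

variable {n k : ℕ}

namespace SL

theorem cont_ng {χ : EE n → ℝ} (h : ContDiff ℝ 1 χ) : Continuous fun x => ‖∇ χ x‖ :=
  ((toDual ℝ (EE n)).symm.continuous.comp (h.continuous_fderiv one_ne_zero)).norm

theorem cs_ng {χ : EE n → ℝ} (hc : HasCompactSupport χ) : HasCompactSupport fun x => ‖∇ χ x‖ := by
  refine hc.mono' fun z hz => ?_
  by_contra h
  refine hz ?_
  simp [gradient, fderiv_of_notMem_tsupport ℝ h]

theorem cs_gin (f : EE n → ℝ) {χ : EE n → ℝ} (hc : HasCompactSupport χ) :
    HasCompactSupport (gin f χ) := by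
  refine hc.mono' fun z hz => ?_
  by_contra h
  refine hz ?_
  simp [gin_eq, gradient, fderiv_of_notMem_tsupport ℝ h]

theorem cont_gin {f g : EE n → ℝ} (hf : ContDiff ℝ 1 f) (hg : ContDiff ℝ 1 g) :
    Continuous (gin f g) :=
  continuous_iff_continuousAt.2 fun _ =>
    (contDiffAt_gin (m := 0) hf.contDiffAt hg.contDiffAt (by norm_num)).continuousAt

/-- the flux inequality -/
theorem flux {u χ : EE n → ℝ} (hu : Sol u) (j : Fin n) (τ : ℝ) (hm : ∀ x, 0 ≤ τ * pdv j u x)
    (hχ : ContDiff ℝ 1 χ) (hc : HasCompactSupport χ) :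
    0 ≤ (∫ z, χ z * pdv j (en u) z) * τ -
      (∫ z, ‖∇ χ z‖ * pdv j (fun y => Gp (u y)) z) * τ := by
  have u2 := hu.isSol.c2
  have u1 : ContDiff ℝ 1 u := u2.of_le (by norm_num)
  have i1 : Integrable fun z => en u z * pdv j χ z :=
    ((cont_en hu).mul (Aac.cont_pdv hχ j)).integrable_of_hasCompactSupport
      (hasCompactSupport_pdv hc j).mul_left
  have i2 : Integrable fun z => pdv j u z * gin u χ z :=
    ((Aac.cont_pdv u1 j).mul (cont_gin u1 hχ)).integrable_of_hasCompactSupport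
      (cs_gin u hc).mul_left
  have i3 : Integrable fun z => ‖∇ χ z‖ * pdv j (fun y => Gp (u y)) z :=
    ((cont_ng hχ).mul (Aac.cont_pdv (contDiff_Gp.comp u1) j)).integrable_of_hasCompactSupport
      (cs_ng hc).mul_right
  have e1 := fv hu.isSol hχ hc j
  rw [integral_sub i1 i2, sub_eq_zero] at e1
  have e2 : ∫ z, χ z * pdv j (en u) z = -∫ z, pdv j u z * gin u χ z := by
    rw [← e1, ← ibp_right (Aac.contDiff_en u2) hχ hc j]
    simp only [mul_comm]
  rw [e2, ← integral_neg, ← sub_mul, ← integral_sub i2.fun_neg i3, ← integral_mul_const]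
  refine integral_nonneg fun z => ?_
  have h1 : gin u χ z ≤ hh (u z) * ‖∇ χ z‖ := (le_abs_self _).trans ((abs_gin_le u χ z).trans
    (mul_le_mul_of_nonneg_right (norm_grad_le hu z) (norm_nonneg _)))
  have h2 := mul_nonneg (hm z) (sub_nonneg.2 h1)
  simp only [Pi.zero_apply]
  rw [pdv_comp (hasDerivAt_Gp _) (u1.differentiable one_ne_zero z)]
  linarith

theorem lim {u U a : EE n → ℝ} {G : ℝ → ℝ} (hu : Sol u) {e : ℝ → EE n}
    (hU : ∀ x, Tendsto (fun s : ℝ => u (x + e s)) atTop (𝓝 (U x))) (ha : Continuous a)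
    (hc : HasCompactSupport a) (hG : Continuous G) (hb : ∀ t, |t| ≤ 1 → |G t| ≤ 1) :
    Tendsto (fun s => ∫ x, a x * G (u (x + e s))) atTop (𝓝 (∫ x, a x * G (U x))) := by
  refine tendsto_integral_filter_of_dominated_convergence (fun x => |a x|)
    (Eventually.of_forall fun s => (ha.mul (hG.comp (hu.sm.continuous.comp
      (continuous_id.add continuous_const)))).aestronglyMeasurable)
    (Eventually.of_forall fun s => ae_of_all _ fun x => ?_)
    (ha.integrable_of_hasCompactSupport hc).abs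
    (ae_of_all _ fun x => ((hG.tendsto _).comp (hU x)).const_mul _)
  rw [norm_mul]
  exact mul_le_of_le_one_right (abs_nonneg _) (hb _ (hu.lt _).le)

theorem planar_le {U χ : EE n → ℝ} (hU : Planar U) (hχ : ContDiff ℝ 1 χ)
    (hc : HasCompactSupport χ) : ∫ x, χ x * hh (U x) ^ 2 ≤ ∫ x, ‖∇ χ x‖ * Gp (U x) := by
  obtain ⟨a, ha, b, hw⟩ := hU
  obtain rfl : U = fun x => Real.tanh ((⟪a, x⟫ - b) / Real.sqrt 2) := funext hw
  set g : EE n → ℝ := fun x => (⟪a, x⟫ - b) / Real.sqrt 2 with hg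
  have hin : ContDiff ℝ 1 fun y : EE n => ⟪a, y⟫ := contDiff_const.inner ℝ contDiff_id
  have gc : ContDiff ℝ 1 g := (hin.sub contDiff_const).div_const _
  have tc : ContDiff ℝ 1 Real.tanh := by
    have e : Real.tanh = fun t => Real.sinh t / Real.cosh t :=
      funext fun t => Real.tanh_eq_sinh_div_cosh t
    rw [e]
    exact Real.contDiff_sinh.div Real.contDiff_cosh fun t => (Real.cosh_pos t).ne'
  have w1 : ContDiff ℝ 1 fun x => Real.tanh (g x) := tc.comp gc
  have G1 : ContDiff ℝ 1 fun x => Gp (Real.tanh (g x)) := contDiff_Gp.comp w1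
  have hp : ∀ i z, pdv i (fun x => Gp (Real.tanh (g x))) z =
      -(hh (Real.tanh (g z)) ^ 2 * a i) := fun i z => by
    rw [pdv_comp (hasDerivAt_Gp _) (w1.differentiable one_ne_zero z),
      pdv_comp (Aac.hasDerivAt_tanh _) (gc.differentiable one_ne_zero z)]
    have : g = fun x => (Real.sqrt 2)⁻¹ * (⟪a, x⟫ - b) := by funext x; rw [hg]; ring
    have e : pdv i g z = (Real.sqrt 2)⁻¹ * a i := by
      rw [this, pdv_const_mul ((hin.sub contDiff_const).differentiable one_ne_zero z),
        pdv_sub_const, pdv_inner]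
    rw [e, hh]
    ring
  have ha2 : ∑ i, a i ^ 2 = 1 := by
    have := EuclideanSpace.real_norm_sq_eq a
    rw [ha] at this; linarith
  have i1 : ∀ i, Integrable fun z => -a i * (pdv i (fun x => Gp (Real.tanh (g x))) z * χ z) :=
    fun i => (((Aac.cont_pdv G1 i).mul hχ.continuous).integrable_of_hasCompactSupport
      hc.mul_left).const_mul _
  have i2 : ∀ i, Integrable fun z => a i * (Gp (Real.tanh (g z)) * pdv i χ z) :=
    fun i => ((G1.continuous.mul (Aac.cont_pdv hχ i)).integrable_of_hasCompactSupport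
      (hasCompactSupport_pdv hc i).mul_left).const_mul _
  calc _ = ∫ z, ∑ i, -a i * (pdv i (fun x => Gp (Real.tanh (g x))) z * χ z) := by
        refine integral_congr_ae (ae_of_all _ fun z => ?_)
        have : ∑ i, -a i * (pdv i (fun x => Gp (Real.tanh (g x))) z * χ z) =
            χ z * hh (Real.tanh (g z)) ^ 2 * ∑ i, a i ^ 2 := by
          rw [Finset.mul_sum]; exact Finset.sum_congr rfl fun i _ => by rw [hp]; ring
        rw [ha2, mul_one] at this
        exact this.symm
    _ = ∫ z, ∑ i, a i * (Gp (Real.tanh (g z)) * pdv i χ z) := by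
        rw [integral_finsetSum _ fun i _ => i1 i, integral_finsetSum _ fun i _ => i2 i]
        refine Finset.sum_congr rfl fun i _ => ?_
        rw [integral_const_mul, integral_const_mul, ibp_right G1 hχ hc i]
        ring
    _ ≤ _ := by
        refine integral_mono (integrable_finsetSum _ fun i _ => i2 i)
          (((cont_ng hχ).mul G1.continuous).integrable_of_hasCompactSupport (cs_ng hc).mul_right)
          fun z => ?_
        have h1 : ⟪∇ χ z, a⟫ ≤ ‖∇ χ z‖ := by simpa [ha] using real_inner_le_norm (∇ χ z) a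
        have h2 := mul_le_mul_of_nonneg_right h1 (Gp_nonneg (Real.abs_tanh_lt_one (g z)).le)
        refine le_trans (le_of_eq ?_) h2
        rw [inner_eq_sum, Finset.sum_mul]
        exact Finset.sum_congr rfl fun i _ => by rw [grad_apply]; ring

theorem planar_init {w : EE k → ℝ} (h : Planar w) : Planar fun z : EE (k + 1) => w (init z) := by
  obtain ⟨a, ha, b, hb⟩ := h
  refine ⟨snoc a 0, ?_, b, fun z => by
    beta_reduce; rw [hb, inner_snoc, zero_mul, add_zero]⟩
  rw [← ha, EuclideanSpace.norm_eq, EuclideanSpace.norm_eq]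
  simp [Fin.sum_univ_castSucc, snoc]

theorem planar_neg {w : EE n → ℝ} (h : Planar w) : Planar fun z => -w z := by
  obtain ⟨a, ha, b, hb⟩ := h
  refine ⟨-a, by rw [norm_neg, ha], -b, fun z => ?_⟩
  beta_reduce
  rw [hb, ← Real.tanh_neg, inner_neg_left]
  congr 1
  ring

end SL

open SL in
theorem sl_of_slide {u U : EE n → ℝ} (hu : Sol u) (j : Fin n) (τ : ℝ)
    (hm : ∀ x, 0 ≤ τ * pdv j u x)
    (hU : ∀ x, Tendsto (fun s : ℝ => u (x + (s * τ) • ev j)) atTop (𝓝 (U x)))
    (hc : (∀ x, U x = 1) ∨ Planar U) : SLp u := by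
  intro χ hχ hs h0
  have u2 := hu.isSol.c2
  have u1 : ContDiff ℝ 1 u := u2.of_le (by norm_num)
  have G1 : ContDiff ℝ 1 fun y => Gp (u y) := contDiff_Gp.comp u1
  have hd : ∀ s : ℝ, HasDerivAt (fun s : ℝ => (∫ z, χ z * en u (z + (s * τ) • ev j)) -
      ∫ z, ‖∇ χ z‖ * Gp (u (z + (s * τ) • ev j)))
      ((∫ z, χ z * pdv j (en u) (z + (s * τ) • ev j)) * τ -
        (∫ z, ‖∇ χ z‖ * pdv j (fun y => Gp (u y)) (z + (s * τ) • ev j)) * τ) s := fun s => by
    have a0 : HasDerivAt (fun s : ℝ => s * τ) τ s := hasDerivAt_mul_const τ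
    exact ((Aac.hasDerivAt_shift hχ.continuous hs (Aac.contDiff_en u2) j (s * τ)).comp s a0).sub
      ((Aac.hasDerivAt_shift (cont_ng hχ) (cs_ng hs) G1 j (s * τ)).comp s a0)
  have hmono := monotone_of_deriv_nonneg (fun s => (hd s).differentiableAt) fun s => by
    rw [(hd s).deriv]
    have := flux (Sol_shift hu ((s * τ) • ev j)) j τ (fun z => by rw [Aac.pdv_shift]; exact hm _)
      hχ hs
    rw [Aac.en_shift] at this
    simpa only [Aac.pdv_shift (en u), Aac.pdv_shift fun y => Gp (u y)] using this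
  have l1 := lim hu hU hχ.continuous hs (G := fun t => hh t ^ 2)
    ((contDiff_hh (m := 0)).continuous.pow 2) fun t ht => by
      rw [abs_of_nonneg (sq_nonneg _)]
      exact pow_le_one₀ (hh_nonneg ht) (hh_le_one t)
  have l2 := lim hu hU (cont_ng hχ) (cs_ng hs) (contDiff_Gp (m := 0)).continuous fun t ht => by
    rw [abs_of_nonneg (Gp_nonneg ht)]
    exact (Gp_le ht).trans s0_le_one
  have key : (∫ z, χ z * en u z) - ∫ z, ‖∇ χ z‖ * Gp (u z) ≤
      (∫ x, χ x * hh (U x) ^ 2) - ∫ x, ‖∇ χ x‖ * Gp (U x) := by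
    refine ge_of_tendsto (l1.sub l2) ((eventually_ge_atTop 0).mono fun s hs0 => ?_)
    have h1 := hmono hs0
    simp only [zero_mul, zero_smul, add_zero] at h1
    refine h1.trans (sub_le_sub_right ?_ _)
    have c0 : Continuous fun z : EE n => z + (s * τ) • ev j := continuous_id.add continuous_const
    exact integral_mono
      ((hχ.continuous.mul ((cont_en hu).comp c0)).integrable_of_hasCompactSupport hs.mul_right)
      ((hχ.continuous.mul (((contDiff_hh (m := 0)).continuous.comp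
        (hu.sm.continuous.comp c0)).pow 2)).integrable_of_hasCompactSupport hs.mul_right)
      fun z => mul_le_mul_of_nonneg_left (en_le hu _) (h0 z)
  rcases hc with hc | hc
  · simp only [hc, hh, Gp_eq 1] at key
    simpa using key
  · linarith [planar_le hc hχ hs]

open SL in
theorem mn_of_mono {u : EE (k + 1) → ℝ} {up um : EE k → ℝ} (hu : Sol u) (hm : MonoLast u)
    (hp : ∀ y, Tendsto (fun s => u (snoc y s)) atTop (𝓝 (up y)))
    (hq : ∀ y, Tendsto (fun s => u (snoc y s)) atBot (𝓝 (um y)))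
    (h1 : (∀ y, up y = 1) ∨ Planar up) (h2 : (∀ y, um y = -1) ∨ Planar um) : Mn u := by
  refine ⟨hu, sl_of_slide (U := fun z => up (init z)) hu (Fin.last k) 1
    (fun x => by rw [one_mul]; exact (hm x).le) (fun x => ?_)
    (h1.imp (fun h x => h _) planar_init),
    sl_of_slide (U := fun z => -um (init z)) (Sol_neg hu) (Fin.last k) (-1)
    (fun x => by rw [pdv_neg, neg_mul_neg, one_mul]; exact (hm x).le) (fun x => ?_)
    (h2.imp (fun h x => by rw [h, neg_neg]) fun h => planar_neg (planar_init h))⟩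
  · simp only [Aac.snoc_eq, mul_one]
    exact (hp _).comp (tendsto_atTop_add_const_left _ _ tendsto_id)
  · simp only [Aac.snoc_eq, mul_neg, mul_one]
    exact ((hq _).comp (tendsto_atBot_add_const_left _ _ tendsto_neg_atTop_atBot)).neg

end

end Crest.Agent.N067.E
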