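import Crest.Agent.N067.E.MV
import Crest.Agent.N067.E.Col

/-! # E/Trans (leaf E-Trans): case (ii), a flat ball up the tube is a flat ball at `0`

`u` increases along `e_last`, so `⟪e,x⟫ < c - εr → u x ≤ u (x + h e_last) < 0`.  If `‖x‖ < r/2`,
`⟪e,x⟫ > c + 2εr` and `u x ≤ 0`: with `ρ = εr/4`, `a = cut x ρ`, `clr` gives `c ρ^(k+1) ≤ ∫ a Gp(u)`;
`Φ(t) = ∫ a Gp(u(· + t e_last))` has `Φ' ≥ -∫_{ball 0 ((K+1) r)} h u_last ≥ -δ r^k` on `[0,h]`
(`Aac.hasDerivAt_shift`), and `Φ(h) ≤ C e^{-εr/2} |ball (2ρ)|` (`decay` in balls of radius `εr/2`, `Gp_le_sq`).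
Contradiction for `δ` small, `r` large.  `x = 0` gives `-2εr ≤ c ≤ εr`. -/

set_option autoImplicit false

open MeasureTheory Laplacian InnerProductSpace Topology Filter Set Metric
open scoped RealInnerProductSpace ContDiff Gradient

namespace Crest.Agent.N067.E

open Crest.Agent.R077

noncomputable section

variable {n k : ℕ}

namespace Trans

theorem mono_up {u : EE (k + 1) → ℝ} (hu : Sol u) (hm : MonoLast u) (x : EE (k + 1)) {h : ℝ}
    (h0 : 0 ≤ h) : u x ≤ u (x + h • ev (Fin.last k)) := by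
  have hd : ∀ t : ℝ, HasDerivAt (fun t : ℝ => u (x + t • ev (Fin.last k)))
      (fderiv ℝ u (x + t • ev (Fin.last k)) (ev (Fin.last k))) t := fun t => by
    have h1 : HasDerivAt (fun t : ℝ => x + t • ev (Fin.last k)) (ev (Fin.last k)) t := by
      simpa using ((hasDerivAt_id t).smul_const (ev (Fin.last k))).const_add x
    exact ((hu.sm.differentiable (by simp)) _).hasFDerivAt.comp_hasDerivAt t h1
  have := monotone_of_deriv_nonneg (fun t => (hd t).differentiableAt)
    (fun t => by rw [(hd t).deriv]; exact (hm _).le) h0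
  simpa using this

/-- transport of `∫ a Gp(u)` along the last direction -/
theorem slide {u a : EE (k + 1) → ℝ} (hu : Sol u) (hm : MonoLast u) (ha : Continuous a)
    (hc : HasCompactSupport a) (ha1 : ∀ z, 0 ≤ a z ∧ a z ≤ 1) {R h D : ℝ} (h0 : 0 ≤ h)
    (hR : ∀ z, a z ≠ 0 → ‖z‖ + h < R)
    (hD : ∫ x in ball (0 : EE (k + 1)) R, hh (u x) * pdv (Fin.last k) u x ≤ D) :
    ∫ z, a z * Gp (u z) ≤ (∫ z, a z * Gp (u (z + h • ev (Fin.last k)))) + D * h := by
  have hg : ContDiff ℝ 1 fun z => Gp (u z) := contDiff_Gp.comp (hu.sm.of_le (by simp))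
  have hd := fun t => Aac.hasDerivAt_shift ha hc hg (Fin.last k) t
  have hF : Continuous fun x => hh (u x) * pdv (Fin.last k) u x :=
    ((contDiff_hh (m := 0)).continuous.comp hu.sm.continuous).mul
      (Aac.cont_pdv (hu.sm.of_le (by simp)) _)
  have key := (convex_Icc 0 h).mul_sub_le_image_sub_of_le_deriv
    (f := fun t : ℝ => ∫ z, a z * Gp (u (z + t • ev (Fin.last k)))) (C := -D)
    (fun t _ => (hd t).continuousAt.continuousWithinAt)
    (fun t _ => (hd t).differentiableAt.differentiableWithinAt) (fun t ht => by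
      replace ht := interior_subset ht
      rw [(hd t).deriv]
      have e : ∀ z, pdv (Fin.last k) (fun z => Gp (u z)) z = -(hh (u z) * pdv (Fin.last k) u z) :=
        fun z => by
          rw [pdv_comp (hasDerivAt_Gp _) (hu.sm.differentiable (by simp) z)]; ring
      simp only [e, mul_neg, integral_neg, neg_le_neg_iff]
      rw [← integral_sub_right_eq_self _ (t • ev (Fin.last k))]
      simp only [sub_add_cancel]
      refine (Aac.le_setInt hF (fun z => mul_nonneg (hh_nonneg (hu.lt z).le) (hm z).le)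
        (fun z => ha1 _) fun z hz => ?_).trans hD
      by_contra hne
      apply hz
      have h1 := hR _ hne
      have h2 := norm_add_le (z - t • ev (Fin.last k)) (t • ev (Fin.last k))
      have h3 : ‖t • (ev (Fin.last k) : EE (k + 1))‖ = t := by
        rw [norm_smul, Real.norm_of_nonneg ht.1]; simp [ev]
      rw [sub_add_cancel, h3] at h2
      rw [mem_ball_zero_iff]; linarith [ht.2])
    0 ⟨le_rfl, h0⟩ h ⟨h0, le_rfl⟩ h0
  simp only [zero_smul, add_zero, sub_zero] at key
  linarith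

theorem small {f : EE (k + 1) → ℝ} (x : EE (k + 1)) {ρ η : ℝ} (hρ : 0 < ρ) (hf : Continuous f)
    (h0 : ∀ z, 0 ≤ f z) (hη : ∀ z ∈ ball x (2 * ρ), f z ≤ η) :
    ∫ z, cut x ρ z * f z ≤ η * ((2 * ρ) ^ (k + 1) * volume.real (ball (0 : EE (k + 1)) 1)) := by
  refine (Aac.le_setInt hf h0 (fun z => ⟨cut_nonneg _ _ _, cut_le_one _ _ _⟩) (x := x) (R := 2 * ρ)
    fun z hz => cut_eq_zero hρ (by simpa [dist_eq_norm] using hz)).trans ?_
  have h1 := norm_setIntegral_le_of_norm_le_const (μ := volume) (s := ball x (2 * ρ)) (f := f)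
    (C := η) measure_ball_lt_top fun z hz => by rw [Real.norm_of_nonneg (h0 z)]; exact hη z hz
  rw [← Measure.addHaar_real_closedBall_eq_addHaar_real_ball,
    Measure.addHaar_real_closedBall _ _ (by positivity), finrank_euclideanSpace_fin] at h1
  exact (le_abs_self _).trans h1

end Trans

theorem trans (k : ℕ) (hk : 1 ≤ k) (ε K : ℝ) (hε : 0 < ε) (hε1 : ε ≤ 1 / 2) (hK : 0 ≤ K) :
    ∃ δ r1 : ℝ, 0 < δ ∧ ∀ (u : EE (k + 1) → ℝ) (r h c : ℝ) (e : EE (k + 1)), Sol u → SLp u →
      MonoLast u → u 0 = 0 → r1 ≤ r → 0 ≤ h → h ≤ K * r → ‖e‖ = 1 →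
      FlatAt u (h • ev (Fin.last k)) r e c (ε * r) →
      (∫ x in ball (0 : EE (k + 1)) ((K + 1) * r), hh (u x) * pdv (Fin.last k) u x ≤ δ * r ^ k) →
      Flat u (r / 2) e (3 * ε * r) := by
  obtain ⟨c0, hc0, H⟩ := clr k hk
  set V := volume.real (ball (0 : EE (k + 1)) 1) with hV
  have V0 : 0 ≤ V := measureReal_nonneg
  have hη : 0 < c0 / (4 * (2 ^ (k + 1) * V + 1)) := by positivity
  obtain ⟨R0, hR0, HB⟩ := ballS (k + 1) _ (Real.sqrt_pos.2 hη)
  refine ⟨c0 * (ε / 4) ^ (k + 1) / (4 * (K + 1)), (32 + 2 * R0) / ε, by positivity,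
    fun u r h c e hu hs hm h0 hr hh0 hhK he hF hD => ?_⟩
  rw [div_le_iff₀ hε] at hr
  have hr0 : 0 < r := by nlinarith
  have hA : ∀ x, ‖x‖ < r → ⟪e, x⟫ < c - ε * r → u x < 0 := fun x h1 h2 =>
    (Trans.mono_up hu hm x hh0).trans_lt (hF.2 x h1 h2)
  have hB : ∀ x, ‖x‖ < r / 2 → c + 2 * (ε * r) < ⟪e, x⟫ → 0 < u x := by
    intro x h1 h2
    by_contra hx
    have hρ : 8 ≤ ε * r / 4 := by linarith
    have hρ0 : 0 < ε * r / 4 := by linarith
    have hεr : ε * r ≤ r / 2 := by nlinarith
    have cG : Continuous fun z => Gp (u z) := (contDiff_Gp (m := 0)).continuous.comp hu.sm.continuous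
    have a1 := (H u hu hs x _ hρ (not_lt.1 hx)).trans (Aac.setInt_le cG
      (fun z => Gp_nonneg (hu.lt z).le) (contDiff_cut x (ε * r / 4) (m := 0)).continuous
      (cs_cut x hρ0) (cut_nonneg _ _) fun z hz => cut_eq_one hρ0 (mem_ball_iff_norm.1 hz).le)
    have a2 := Trans.slide hu hm (contDiff_cut x (ε * r / 4) (m := 0)).continuous (cs_cut x hρ0)
      (fun z => ⟨cut_nonneg _ _ _, cut_le_one _ _ _⟩) hh0 (fun z hz => by
        have b1 : ‖z - x‖ < 2 * (ε * r / 4) := lt_of_not_ge fun h' => hz (cut_eq_zero hρ0 h')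
        have b2 := norm_add_le (z - x) x
        rw [sub_add_cancel] at b2
        linarith) hD
    have a3 := Trans.small (f := fun z => Gp (u (z + h • ev (Fin.last k)))) x hρ0
      (cG.comp (continuous_id.add continuous_const)) (fun z => Gp_nonneg (hu.lt _).le)
      (η := c0 / (4 * (2 ^ (k + 1) * V + 1))) fun z hz => by
        have b1 := HB u hu.isSol (z + h • ev (Fin.last k)) fun y hy => by
          have b2 : ‖y - h • ev (Fin.last k) - x‖ < ε * r := by
            have b3 := norm_add_le (y - (z + h • ev (Fin.last k))) (z - x)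
            have e1 : y - (z + h • ev (Fin.last k)) + (z - x) = y - h • ev (Fin.last k) - x := by
              abel
            rw [e1] at b3
            linarith [mem_ball_iff_norm.1 hy, mem_ball_iff_norm.1 hz]
          have b4 := norm_add_le (y - h • ev (Fin.last k) - x) x
          rw [sub_add_cancel] at b4
          have b5 := abs_real_inner_le_norm e (y - h • ev (Fin.last k) - x)
          rw [he, one_mul, inner_sub_right] at b5
          have := hF.1 (y - h • ev (Fin.last k)) (by linarith) (by linarith [(abs_le.1 b5).1])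
          rwa [sub_add_cancel] at this
        refine (Gp_le_sq (hu.lt _).le).trans ?_
        rw [← Real.sq_sqrt hη.le]
        exact pow_le_pow_left₀ (by linarith [(abs_lt.1 (hu.lt (z + h • ev (Fin.last k)))).2])
          (by linarith) 2
    have p0 : 0 < c0 * (ε * r / 4) ^ (k + 1) := by positivity
    have a4 : c0 / (4 * (2 ^ (k + 1) * V + 1)) * ((2 * (ε * r / 4)) ^ (k + 1) * V) ≤
        c0 * (ε * r / 4) ^ (k + 1) / 4 := by
      rw [mul_pow, div_mul_eq_mul_div, div_le_div_iff₀ (by positivity) (by norm_num)]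
      nlinarith
    have a5 : c0 * (ε / 4) ^ (k + 1) / (4 * (K + 1)) * r ^ k * h ≤
        c0 * (ε * r / 4) ^ (k + 1) / 4 := by
      calc _ ≤ c0 * (ε / 4) ^ (k + 1) / (4 * (K + 1)) * r ^ k * ((K + 1) * r) := by
            gcongr; linarith
        _ = _ := by rw [show ε * r / 4 = ε / 4 * r by ring, mul_pow]; field_simp; ring
    linarith
  have c1 : c ≤ ε * r := by
    by_contra h'
    exact (hA 0 (by simpa using hr0) (by simp; linarith)).ne h0
  have c2 : -(2 * (ε * r)) ≤ c := by
    by_contra h'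
    exact (hB 0 (by simpa using hr0) (by simp; linarith)).ne' h0
  exact ⟨fun x h1 h2 => hB x h1 (by linarith), fun x h1 h2 => hA x (by linarith) (by linarith)⟩

end

end Crest.Agent.N067.E
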