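import Crest.Agent.N067.E.Rot
import Crest.Agent.N067.E.Gib
import Crest.Agent.N067.E.Trans
import Crest.Agent.N067.E.Band2
import Crest.Agent.N067.E.SL

/-! # E/Top (leaf E-Top): S0089 from S0090, TUBE and (i)

`mono_planar`: `ε0` from `slab`; `Θ` from `exists_EN`; `ε = min (ε0/6) (1/2)`, `K, r1` from TUBE, `δ` from `trans`.
If for arbitrarily large `r`, `∫_{ball 0 ((K+1) r)} h u_8 ≤ δ r^7`: `Flat u (r/2) e (3εr)`.  Otherwise
`δ' R^7 ≤ ∫_{ball 0 R} h u_8` for all large `R`, `δ' = δ/(K+1)^7`; `band` with `ε0/4, δ'` gives `K', a`; (i) with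
`a/K'^5` gives `R = K' r`.  Then `slab`, `gib`.
`s89`: `IsSol.smooth`, `pm`, `S90` for `up, um` (`um < u < up`, `|u| < 1` exclude `up = -1`, `um = 1`),
`mn_of_mono`; `up` is positive and `um` negative somewhere, so `u` has a zero `x0` (IVT); shift by `x0`;
the direction `a` has `a_8 > 0` because `∂_8 u = (1 - u²) a_8/√2 > 0`. -/

set_option autoImplicit false

open MeasureTheory Laplacian InnerProductSpace Topology Filter Set Metric
open scoped RealInnerProductSpace ContDiff Gradient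

namespace Crest.Agent.N067.E

open Crest.Agent.R077

noncomputable section

variable {n k : ℕ}

theorem mono_planar (hT : TubeStmt) (hI : IStmt) {u : EE (7 + 1) → ℝ} (hu : Mn u)
    (hs : Stable u) (hm : MonoLast u) (h0 : u 0 = 0) : Planar u := by
  obtain ⟨ε0, hε0, hslab⟩ := slab 7 (by norm_num)
  obtain ⟨Θ, -, hΘ⟩ := exists_EN 7
  have hG : Grow u Θ := fun x R hR => hΘ u hu.sol hu.slp x R (by linarith)
  have hε : 0 < min (ε0 / 6) (1 / 2) := by positivity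
  obtain ⟨K, r1, hK, htube⟩ := hT u Θ hu.sol hs hm hG _ hε
  obtain ⟨δ, r2, hδ, htr⟩ := trans 7 (by norm_num) _ K hε (min_le_right _ _) hK
  suffices H : ∀ R0 : ℝ, ∃ (R : ℝ) (e : EE (7 + 1)), R0 ≤ R ∧ ‖e‖ = 1 ∧ Flat u R e (ε0 * R) by
    obtain ⟨e, K', he, hp, hq⟩ := hslab u hu.sol hu.slp h0 H
    exact gib hu.sol he hp hq
  intro R0
  by_cases H : ∀ R1 : ℝ, ∃ r, R1 ≤ r ∧ ∫ x in ball (0 : EE (7 + 1)) ((K + 1) * r),
      hh (u x) * pdv (Fin.last 7) u x ≤ δ * r ^ 7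
  · obtain ⟨r, hr, hi⟩ := H (max (max (2 * R0) 0) (max r1 r2))
    simp only [max_le_iff] at hr
    obtain ⟨h, c, e, h1, h2, he, hf⟩ := htube r hr.2.1
    refine ⟨r / 2, e, by linarith [hr.1.1], he,
      (htr u r h c e hu.sol hu.slp hm h0 hr.2.2 h1 h2 he hf hi).mono le_rfl ?_⟩
    nlinarith [mul_le_mul_of_nonneg_right (min_le_left (ε0 / 6) (1 / 2)) hr.1.2]
  · push Not at H
    obtain ⟨R1, H⟩ := H
    have hK1 : 0 < K + 1 := by linarith
    obtain ⟨K', a, r3, hK', ha, hb⟩ := band 7 (by norm_num) (ε0 / 4) (δ / (K + 1) ^ 7)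
      (by positivity) (by positivity)
    have hK0 : 0 < K' := by linarith
    obtain ⟨R, hR, hi⟩ := hI u Θ hu.sol hm hG (a / K' ^ 5)
      (K' * max (max (4 * R0) r3) ((K + 1) * R1)) (by positivity)
    obtain ⟨r, rfl⟩ : ∃ r, R = K' * r := ⟨R / K', by field_simp⟩
    have hr := le_of_mul_le_mul_left hR hK0
    simp only [max_le_iff] at hr
    have h1 := (H (r / (K + 1)) (by rw [le_div_iff₀ hK1]; linarith [hr.2])).le
    rw [show (K + 1) * (r / (K + 1)) = r by field_simp,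
      show δ * (r / (K + 1)) ^ 7 = δ / (K + 1) ^ 7 * r ^ 7 by field_simp] at h1
    obtain ⟨e, he, hf⟩ := hb u r hu hm h0 hr.1.2 h1 (by
      refine le_of_mul_le_mul_left ?_ (pow_pos hK0 2)
      rw [← mul_assoc, ← mul_pow]
      exact hi.trans_eq (by field_simp))
    exact ⟨r / 4, e, by linarith [hr.1.1], he, hf.mono le_rfl (le_of_eq (by ring))⟩

theorem tanh_pos {s : ℝ} (hs : 0 < s) : 0 < Real.tanh s := by
  rw [Real.tanh_eq_sinh_div_cosh]
  exact div_pos (Real.sinh_pos_iff.2 hs) (Real.cosh_pos s)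

theorem planar_signs {v : EE n → ℝ} (h : Planar v) : (∃ x, 0 < v x) ∧ ∃ x, v x < 0 := by
  obtain ⟨a, ha, b, h⟩ := h
  have h1 : ∀ t : ℝ, v ((b + t) • a) = Real.tanh (t / Real.sqrt 2) := fun t => by
    rw [h, inner_smul_right, real_inner_self_eq_norm_sq, ha]; congr 2; ring
  have h2 : 0 < Real.tanh (1 / Real.sqrt 2) := tanh_pos (by positivity)
  refine ⟨⟨_, (h1 1).symm ▸ h2⟩, (b + -1) • a, ?_⟩
  rw [h1, neg_div, Real.tanh_neg]
  linarith

theorem s89 (h90 : S90) (hP : PMStmt) (hT : TubeStmt) (hI : IStmt)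
    (u : EuclideanSpace ℝ (Fin 8) → ℝ) (hu : ContDiff ℝ 2 u)
    (hrange : ∀ x, u x ∈ Set.Ioo (-1 : ℝ) 1) (heq : ∀ x, (Δ u) x = u x ^ 3 - u x)
    (hmono : ∀ x, 0 < fderiv ℝ u x (EuclideanSpace.single (Fin.last 7) 1)) :
    ∃ e : EuclideanSpace ℝ (Fin 8), ‖e‖ = 1 ∧ 0 < e (Fin.last 7) ∧
      ∃ c : ℝ, ∀ x, u x = Real.tanh ((⟪e, x⟫ - c) / Real.sqrt 2) := by
  have hi : IsSol u := ⟨hu, fun x => abs_le.2 ⟨(hrange x).1.le, (hrange x).2.le⟩, heq⟩
  have hs : Sol u := ⟨hi.smooth, fun x => abs_lt.2 (hrange x), heq⟩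
  have hm : MonoLast (n := 7) u := hmono
  obtain ⟨up, um, p1, p2, q1, q2, pt, qt, hb⟩ := hP 7 u hi hm
  have h1 : (∀ y, up y = 1) ∨ Planar up := by
    rcases h90 up p1 p2 with h | h | h
    · exact Or.inl h
    · exact absurd ((hb 0 0).2.trans_eq (h 0)) (not_lt.2 (hrange _).1.le)
    · exact Or.inr h
  have h2 : (∀ y, um y = -1) ∨ Planar um := by
    rcases h90 um q1 q2 with h | h | h
    · exact absurd ((h 0).symm.trans_lt (hb 0 0).1) (not_lt.2 (hrange _).2.le)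
    · exact Or.inl h
    · exact Or.inr h
  have hM : Mn u := mn_of_mono hs hm pt qt h1 h2
  obtain ⟨x0, hx0⟩ : ∃ x0, u x0 = 0 := by
    obtain ⟨y, hy⟩ : ∃ y, 0 < up y := h1.elim (fun h => ⟨0, by rw [h]; exact one_pos⟩)
      fun h => (planar_signs h).1
    obtain ⟨z, hz⟩ : ∃ z, um z < 0 := h2.elim (fun h => ⟨0, by rw [h]; norm_num⟩)
      fun h => (planar_signs h).2
    obtain ⟨s, hs'⟩ := ((pt y).eventually (lt_mem_nhds hy)).exists
    obtain ⟨t, ht⟩ := ((qt z).eventually (gt_mem_nhds hz)).exists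
    exact intermediate_value_univ (snoc z t) (snoc y s) hu.continuous ⟨ht.le, hs'.le⟩
  have hM' := hM.shift x0
  have hm' : MonoLast (n := 7) fun x => u (x + x0) := fun x =>
    (hm (x + x0)).trans_eq (Aac.pdv_shift u x0 (Fin.last 7) x).symm
  obtain ⟨a, ha, b, h⟩ := mono_planar hT hI hM' (monoStab_of reg 7 _ hM'.sol.isSol hm') hm'
    (by simpa using hx0)
  have hf : ∀ x, u x = Real.tanh ((⟪a, x⟫ - (⟪a, x0⟫ + b)) / Real.sqrt 2) := fun x => by
    have := h (x - x0)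
    beta_reduce at this
    rw [sub_add_cancel, inner_sub_right] at this
    rw [this]; congr 2; ring
  refine ⟨a, ha, ?_, _, hf⟩
  have h3 : 0 < pdv (Fin.last 7) u 0 := hm 0
  have hd := (Aac.hasDerivAt_tanh _).comp ⟪a, (0 : EE 8)⟫
    (((hasDerivAt_id' ⟪a, (0 : EE 8)⟫).sub_const (⟪a, x0⟫ + b)).div_const (Real.sqrt 2))
  have h4 := pdv_comp (f := fun y : EE 8 => ⟪a, y⟫) (x := 0) hd
    ((differentiableAt_const a).inner ℝ differentiableAt_id) (Fin.last 7)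
  rw [pdv_inner, ← hf 0] at h4
  rw [funext hf] at h3
  have h5 : 0 < (1 - u 0 ^ 2) * (1 / Real.sqrt 2) := mul_pos (hs.psi_pos 0) (by positivity)
  exact (mul_pos_iff_of_pos_left h5).1 (h3.trans_eq h4)

end

end Crest.Agent.N067.E
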